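import Crest.Agent.PVc.R33.Defs

/-! Elementary facts about the model. -/

set_option autoImplicit false

open Finset
open scoped Classical

namespace Crest.Agent.R33

namespace Model
variable {α ι : Type} [Fintype α] [Fintype ι] [DecidableEq α] {β : ℝ} {E : ℕ}
  (M : Model α ι β E)

include M in
theorem β_pos : 0 < β := by
  have hne : (univ : Finset ι).Nonempty := by
    by_contra h
    have h1 := M.π_sum
    rw [Finset.not_nonempty_iff_eq_empty.1 h, Finset.sum_empty] at h1
    exact zero_ne_one h1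
  obtain ⟨q, -⟩ := hne
  have h1 := M.big q
  by_contra h
  have h2 : β * ((M.C q).card : ℝ) ≤ 0 :=
    mul_nonpos_of_nonpos_of_nonneg (not_lt.1 h) (Nat.cast_nonneg _)
  linarith

theorem card_C_pos (q : ι) : 0 < ((M.C q).card : ℝ) := by
  have h1 := M.big q
  by_contra h
  have h2 : ((M.C q).card : ℝ) = 0 := le_antisymm (not_lt.1 h) (Nat.cast_nonneg _)
  rw [h2, mul_zero] at h1
  linarith

include M in
theorem card_pos : 0 < (Fintype.card α : ℝ) := by
  have hne : (univ : Finset ι).Nonempty := by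
    by_contra h
    have h1 := M.π_sum
    rw [Finset.not_nonempty_iff_eq_empty.1 h, Finset.sum_empty] at h1
    exact zero_ne_one h1
  obtain ⟨q, -⟩ := hne
  exact (M.card_C_pos q).trans_le (Nat.cast_le.2 (Finset.card_le_univ _))

/-- `1 / m ≤ β θ^E`. -/
theorem one_le_small : 1 ≤ β * M.θ ^ E * Fintype.card α := by
  have hne : (univ : Finset ι).Nonempty := by
    by_contra h
    have h1 := M.π_sum
    rw [Finset.not_nonempty_iff_eq_empty.1 h, Finset.sum_empty] at h1
    exact zero_ne_one h1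
  obtain ⟨q, -⟩ := hne
  have h1 : 0 < (M.C q).card := Nat.cast_pos.1 (M.card_C_pos q)
  have h2 : (1 : ℝ) ≤ (M.C q).card := by exact_mod_cast h1
  exact h2.trans (M.small q)

theorem e_nonneg (a : α) (q : ι) : 0 ≤ M.e a q := by
  unfold e
  split_ifs
  · exact div_nonneg (M.π_pos q).le (Nat.cast_nonneg _)
  · exact le_rfl

theorem nu_nonneg (a : α) : 0 ≤ M.nu a := by
  exact Finset.sum_nonneg fun q _ => M.e_nonneg a q

theorem sum_e (q : ι) : ∑ a, M.e a q = M.π q := by
  unfold e
  rw [← Finset.sum_filter, Finset.filter_mem_eq_inter, Finset.univ_inter, Finset.sum_const,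
    nsmul_eq_mul]
  have := M.card_C_pos q
  field_simp

theorem sum_nu : ∑ a, M.nu a = 1 := by
  unfold nu
  rw [Finset.sum_comm, ← M.π_sum]
  exact Finset.sum_congr rfl fun q _ => M.sum_e q

theorem mem_of_e_ne {a : α} {q : ι} (h : M.e a q ≠ 0) : a ∈ M.C q := by
  by_contra h'
  exact h (if_neg h')

/-- `e a q ≤ β / m` when `1 ≤ E`. -/
theorem e_le (hE : 1 ≤ E) (a : α) (q : ι) : M.e a q * Fintype.card α ≤ β := by
  have hβ := M.β_pos
  unfold e
  split_ifs
  · have hc := M.card_C_pos q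
    have hm := M.card_pos
    have hθ := M.θ_pos
    have h1 := M.π_le q
    have h2 := M.small q
    have h3 : M.θ ^ E ≤ M.θ := pow_le_of_le_one hθ.le M.θ_le (by omega)
    have h4 : ((M.C q).card : ℝ) ≤ β * M.θ * Fintype.card α := h2.trans (by gcongr)
    rw [div_mul_eq_mul_div, div_le_iff₀ hc]
    have h5 : M.π q * Fintype.card α * (M.θ * Fintype.card α) ≤
        β * (M.C q).card * (M.θ * Fintype.card α) := by nlinarith
    exact le_of_mul_le_mul_right h5 (mul_pos hθ hm)
  · rw [zero_mul]; exact hβ.le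

/-- `ν a ≤ 4 / (θ m)`: `ν a = p(a,a) + ∑_{b ≠ a} p(a,b)`, `p(a,a) ≤ β ν a`, `p(a,b) ≤ 2/(θ m²)`. -/
theorem nu_le (hβ : β ≤ 1 / 2) (a : α) : M.nu a * (M.θ * Fintype.card α) ≤ 4 := by
  have hm := M.card_pos
  have hθ := M.θ_pos
  set m : ℝ := (Fintype.card α : ℝ) with hm_def
  have h1 : ∀ q, M.e a q ≤ β * M.e a q +
      ∑ b ∈ univ.erase a, if a ∈ M.C q ∧ b ∈ M.C q then 1 / (M.θ * m ^ 2) else 0 := by
    intro q
    by_cases ha : a ∈ M.C q
    · have hc := M.card_C_pos q
      have hπ := M.π_pos q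
      have e1 : ∑ b ∈ univ.erase a, (if a ∈ M.C q ∧ b ∈ M.C q then 1 / (M.θ * m ^ 2) else 0) =
          (((M.C q).card : ℝ) - 1) * (1 / (M.θ * m ^ 2)) := by
        simp only [ha, true_and]
        rw [← Finset.sum_filter, Finset.filter_mem_eq_inter, Finset.erase_inter, Finset.univ_inter,
          Finset.sum_const, nsmul_eq_mul, Finset.card_erase_of_mem ha, Nat.cast_sub
            (Finset.card_pos.2 ⟨a, ha⟩), Nat.cast_one]
      have hc1 : (1 : ℝ) ≤ (M.C q).card := by exact_mod_cast Finset.card_pos.2 ⟨a, ha⟩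
      have h2 : M.π q / ((M.C q).card : ℝ) ^ 2 ≤ 1 / (M.θ * m ^ 2) := by
        rw [div_le_div_iff₀ (by positivity) (by positivity), one_mul]
        exact M.π_le q
      have h3 : M.π q / ((M.C q).card : ℝ) ^ 2 ≤ β * (M.π q / (M.C q).card) := by
        rw [div_le_iff₀ (by positivity)]
        have : β * (M.π q / (M.C q).card) * ((M.C q).card : ℝ) ^ 2 =
            M.π q * (β * (M.C q).card) := by field_simp
        rw [this]
        exact le_mul_of_one_le_right hπ.le (M.big q)
      have h4 : M.π q / ((M.C q).card : ℝ) = M.π q / ((M.C q).card : ℝ) ^ 2 +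
          (((M.C q).card : ℝ) - 1) * (M.π q / ((M.C q).card : ℝ) ^ 2) := by
        field_simp; ring
      rw [e1, e, if_pos ha]
      have h5 := mul_le_mul_of_nonneg_left h2 (sub_nonneg.2 hc1)
      linarith
    · simp [e, ha]
  have h2 : ∑ q, ∑ b ∈ univ.erase a,
      (if a ∈ M.C q ∧ b ∈ M.C q then 1 / (M.θ * m ^ 2) else 0) ≤ m * (2 * (1 / (M.θ * m ^ 2))) := by
    rw [Finset.sum_comm]
    have h3 : ∀ b ∈ univ.erase a, ∑ q, (if a ∈ M.C q ∧ b ∈ M.C q then 1 / (M.θ * m ^ 2) else 0) ≤
        2 * (1 / (M.θ * m ^ 2)) := by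
      intro b hb
      rw [← Finset.sum_filter, Finset.sum_const, nsmul_eq_mul]
      refine mul_le_mul_of_nonneg_right ?_ (by positivity)
      have := M.two a b (Finset.ne_of_mem_erase hb).symm
      exact_mod_cast this
    refine (Finset.sum_le_sum h3).trans ?_
    rw [Finset.sum_const, nsmul_eq_mul]
    refine mul_le_mul_of_nonneg_right ?_ (by positivity)
    exact Nat.cast_le.2 (Finset.card_le_univ _)
  have h3 : M.nu a ≤ β * M.nu a + m * (2 * (1 / (M.θ * m ^ 2))) := by
    refine (Finset.sum_le_sum fun q _ => h1 q).trans ?_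
    rw [Finset.sum_add_distrib, ← Finset.mul_sum]
    exact add_le_add le_rfl h2
  have h4 : m * (2 * (1 / (M.θ * m ^ 2))) * (M.θ * m) = 2 := by field_simp
  have h5 := M.nu_nonneg a
  have h6 : M.nu a ≤ 2 * (m * (2 * (1 / (M.θ * m ^ 2)))) := by nlinarith
  have h7 := mul_le_mul_of_nonneg_right h6 (mul_pos hθ hm).le
  linarith

theorem kap_nonneg (q : ι) (S : Finset α) : 0 ≤ M.kap q S := by
  exact div_nonneg (Nat.cast_nonneg _) (Nat.cast_nonneg _)

theorem kap_le_one (q : ι) (S : Finset α) : M.kap q S ≤ 1 := by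
  exact (div_le_one (M.card_C_pos q)).2
    (Nat.cast_le.2 (Finset.card_le_card Finset.inter_subset_left))

theorem sum_e_mem (q : ι) (S : Finset α) : ∑ a ∈ S, M.e a q = M.π q * M.kap q S := by
  unfold e kap
  rw [← Finset.sum_filter, Finset.filter_mem_eq_inter, Finset.inter_comm, Finset.sum_const,
    nsmul_eq_mul]
  ring

theorem sum_pi_kap (S : ι → Finset α) :
    ∑ q, M.π q * M.kap q (S q) = M.P fun a q => a ∈ S q := by
  unfold P
  rw [Finset.sum_comm]
  refine Finset.sum_congr rfl fun q _ => ?_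
  rw [← M.sum_e_mem]
  refine Eq.trans ?_ (Finset.sum_subset (Finset.subset_univ (S q)) (fun a _ ha => if_neg ha))
  exact Finset.sum_congr rfl fun a ha => (if_pos ha).symm

theorem P_nonneg (G : α → ι → Prop) : 0 ≤ M.P G := by
  refine Finset.sum_nonneg fun a _ => Finset.sum_nonneg fun q _ => ?_
  split_ifs
  · exact M.e_nonneg a q
  · exact le_rfl

theorem P_true : M.P (fun _ _ => True) = 1 := by
  simp only [P, if_true]
  exact M.sum_nu

/-- Monotone along the edges. -/
theorem P_mono {G G' : α → ι → Prop} (h : ∀ a q, a ∈ M.C q → G a q → G' a q) :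
    M.P G ≤ M.P G' := by
  refine Finset.sum_le_sum fun a _ => Finset.sum_le_sum fun q _ => ?_
  have h0 := M.e_nonneg a q
  by_cases ha : a ∈ M.C q
  · split_ifs with h1 h2
    · exact le_rfl
    · exact absurd (h a q ha h1) h2
    · exact h0
    · exact le_rfl
  · have : M.e a q = 0 := if_neg ha
    simp [this]

theorem P_or_le (G G' : α → ι → Prop) : M.P (fun a q => G a q ∨ G' a q) ≤ M.P G + M.P G' := by
  unfold P
  rw [← Finset.sum_add_distrib]
  refine Finset.sum_le_sum fun a _ => ?_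
  rw [← Finset.sum_add_distrib]
  refine Finset.sum_le_sum fun q _ => ?_
  have h0 := M.e_nonneg a q
  by_cases h1 : G a q <;> by_cases h2 : G' a q <;> simp [h1, h2, h0]

theorem P_not (G : α → ι → Prop) : M.P (fun a q => ¬G a q) = 1 - M.P G := by
  rw [eq_sub_iff_add_eq, ← M.sum_nu]
  unfold P nu
  rw [← Finset.sum_add_distrib]
  refine Finset.sum_congr rfl fun a _ => ?_
  rw [← Finset.sum_add_distrib]
  refine Finset.sum_congr rfl fun q _ => ?_
  by_cases h1 : G a q <;> simp [h1]

theorem P_left (G : α → Prop) : M.P (fun a _ => G a) = M.nuP G := by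
  unfold P nuP nu
  refine Finset.sum_congr rfl fun a _ => ?_
  by_cases h1 : G a <;> simp [h1]

theorem P_right (G : ι → Prop) : M.P (fun _ q => G q) = M.piP G := by
  unfold P piP
  rw [Finset.sum_comm]
  refine Finset.sum_congr rfl fun q _ => ?_
  by_cases h1 : G q <;> simp [h1, M.sum_e]

theorem nuP_nonneg (G : α → Prop) : 0 ≤ M.nuP G := by
  rw [← M.P_left]
  exact M.P_nonneg _

theorem piP_nonneg (G : ι → Prop) : 0 ≤ M.piP G := by
  rw [← M.P_right]
  exact M.P_nonneg _

theorem muP_nonneg (G : α → Prop) : 0 ≤ M.muP G := by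
  exact div_nonneg (Nat.cast_nonneg _) (Nat.cast_nonneg _)

theorem nuP_mono {G G' : α → Prop} (h : ∀ a, G a → G' a) : M.nuP G ≤ M.nuP G' := by
  rw [← M.P_left, ← M.P_left]
  exact M.P_mono fun a _ _ => h a

theorem piP_mono {G G' : ι → Prop} (h : ∀ q, G q → G' q) : M.piP G ≤ M.piP G' := by
  rw [← M.P_right, ← M.P_right]
  exact M.P_mono fun _ q _ => h q

theorem muP_mono {G G' : α → Prop} (h : ∀ a, G a → G' a) : M.muP G ≤ M.muP G' := by
  refine div_le_div_of_nonneg_right (Nat.cast_le.2 (Finset.card_le_card fun a ha => ?_))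
    (Nat.cast_nonneg _)
  exact Finset.mem_filter.2 ⟨Finset.mem_univ _, h a (Finset.mem_filter.1 ha).2⟩

theorem muP_le (G : α → Prop) : M.muP G ≤ 4 * M.nuP G + β := by
  have h1 := M.deg (univ.filter G)
  have h2 := M.sum_pi_kap fun _ => univ.filter G
  have h3 : (M.P fun a _ => a ∈ univ.filter G) = M.nuP G := by
    rw [← M.P_left]
    congr 1
    ext a q
    simp
  rw [h3] at h2
  rw [← h2]
  exact h1

/-- `conc` in probability form. -/
theorem piP_kap_le (S : Finset α) (l : ℝ) (hl : β ≤ l) :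
    M.piP (fun q => l ≤ M.kap q S) * (l - β) ^ 4 ≤
      (1 + β) * (M.muP (· ∈ S) * √(M.muP (· ∈ S))) := by
  have h1 := M.conc S l hl
  have h2 : M.muP (· ∈ S) = (S.card : ℝ) / Fintype.card α := by
    unfold muP
    congr 3
    ext a
    simp
  have h3 : M.piP (fun q => l ≤ M.kap q S) =
      ∑ q ∈ univ.filter (fun q => l * (M.C q).card ≤ ((M.C q ∩ S).card : ℝ)), M.π q := by
    unfold piP
    rw [Finset.sum_filter]
    refine Finset.sum_congr rfl fun q _ => ?_
    simp only [kap, le_div_iff₀ (M.card_C_pos q)]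
  rw [h2, h3]
  exact h1


theorem P3_mono {G G' : α → ι → α → Prop}
    (h : ∀ a q b, a ∈ M.C q → b ∈ M.C q → G a q b → G' a q b) : M.P3 G ≤ M.P3 G' := by
  refine Finset.sum_le_sum fun q _ => Finset.sum_le_sum fun a ha => Finset.sum_le_sum fun b hb => ?_
  split_ifs with h1 h2
  · exact le_rfl
  · exact absurd (h a q b ha hb h1) h2
  · exact div_nonneg (M.π_pos q).le (sq_nonneg _)
  · exact le_rfl

theorem P3_or_le (G G' : α → ι → α → Prop) :
    M.P3 (fun a q b => G a q b ∨ G' a q b) ≤ M.P3 G + M.P3 G' := by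
  unfold P3
  rw [← Finset.sum_add_distrib]
  refine Finset.sum_le_sum fun q _ => ?_
  rw [← Finset.sum_add_distrib]
  refine Finset.sum_le_sum fun a _ => ?_
  rw [← Finset.sum_add_distrib]
  refine Finset.sum_le_sum fun b _ => ?_
  have h0 : 0 ≤ M.π q / ((M.C q).card : ℝ) ^ 2 := div_nonneg (M.π_pos q).le (sq_nonneg _)
  by_cases h1 : G a q b <;> by_cases h2 : G' a q b <;> simp [h1, h2, h0]

theorem P3_fst (G : α → ι → Prop) : M.P3 (fun a q _ => G a q) = M.P G := by
  unfold P3 P
  rw [Finset.sum_comm (s := (univ : Finset α))]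
  refine Finset.sum_congr rfl fun q _ => ?_
  have hc := M.card_C_pos q
  rw [← Finset.sum_subset (Finset.subset_univ (M.C q)) (fun a _ ha => by simp [e, ha])]
  refine Finset.sum_congr rfl fun a ha => ?_
  rw [Finset.sum_const, nsmul_eq_mul, e, if_pos ha]
  split_ifs
  · field_simp
  · simp

theorem P3_snd (G : α → ι → Prop) : M.P3 (fun _ q b => G b q) = M.P G := by
  rw [← M.P3_fst]
  unfold P3
  exact Finset.sum_congr rfl fun q _ => Finset.sum_comm

theorem P3_diag : M.P3 (fun a _ b => a = b) ≤ β := by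
  have h1 : M.P3 (fun a _ b => a = b) ≤ ∑ q, β * M.π q := by
    refine Finset.sum_le_sum fun q _ => ?_
    have hc := M.card_C_pos q
    have e1 : ∀ a ∈ M.C q, ∑ b ∈ M.C q, (if a = b then M.π q / ((M.C q).card : ℝ) ^ 2 else 0) =
        M.π q / ((M.C q).card : ℝ) ^ 2 := fun a ha => by simp [ha]
    refine le_trans (le_of_eq (Finset.sum_congr rfl fun a ha => ?_ :
      _ = ∑ _a ∈ M.C q, M.π q / ((M.C q).card : ℝ) ^ 2)) ?_
    · convert e1 a ha
    · rw [Finset.sum_const, nsmul_eq_mul]
      have : ((M.C q).card : ℝ) * (M.π q / ((M.C q).card : ℝ) ^ 2) = M.π q / (M.C q).card := by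
        field_simp
      rw [this, div_le_iff₀ hc]
      have := le_mul_of_one_le_right (M.π_pos q).le (M.big q)
      linarith
  rwa [← Finset.mul_sum, M.π_sum, mul_one] at h1

end Model

end Crest.Agent.R33
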