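import Crest.Agent.PVc.R33.Place

/-! Pointwise inequalities at one place. -/

set_option autoImplicit false

open Finset
open scoped Classical

namespace Crest.Agent.R33

variable {K : Type} [Field K]

theorem FrameAux.le_mul_exp {R x : ℝ} (hR : 0 < R) (hx : 0 ≤ x) :
    x ≤ R * Real.exp (Real.posLog (x / R)) := by
  rw [Real.posLog_eq_log_max_one (div_nonneg hx hR.le),
    Real.exp_log (lt_of_lt_of_le one_pos (le_max_left _ _)), ← div_le_iff₀' hR]
  exact le_max_right _ _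

theorem FrameAux.eq_mul_exp {R x : ℝ} (hR : 0 < R) (hx : 0 ≤ x) (h : 0 < Real.posLog (x / R)) :
    x = R * Real.exp (Real.posLog (x / R)) := by
  have h0 : 0 ≤ x / R := div_nonneg hx hR.le
  have h1 : 1 < x / R := by
    by_contra h1
    rw [(Real.posLog_eq_zero_iff _).2 (by rw [abs_of_nonneg h0]; exact not_lt.1 h1)] at h
    exact lt_irrefl _ h
  rw [Real.posLog_eq_log (by rw [abs_of_nonneg h0]; exact h1.le), Real.exp_log (by linarith),
    mul_div_cancel₀ _ hR.ne']

theorem FrameAux.add_le_exp (P : Pl K) {u v : K} {A : ℝ} (hu : P.abv u ≤ Real.exp A)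
    (hv : P.abv v ≤ Real.exp A) : P.abv (u + v) ≤ Real.exp (A + P.ar) := by
  refine (P.add_le u v).trans ?_
  rw [Real.exp_add, mul_comm (Real.exp A)]
  exact mul_le_mul (by linarith [Real.add_one_le_exp P.ar]) (max_le hu hv)
    (le_max_of_le_left (P.abv.nonneg _)) (Real.exp_pos _).le

theorem FrameAux.up (P : Pl K) {R : ℝ} (hR : 0 < R) (x y c : K) :
    P.abv (x - y) ≤ Real.exp (Real.log R + max (Real.posLog (P.abv (x - c) / R))
      (Real.posLog (P.abv (y - c) / R)) + P.ar) := by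
  rw [show x - y = (x - c) + -(y - c) by ring]
  refine FrameAux.add_le_exp P ?_ ?_
  · rw [Real.exp_add, Real.exp_log hR]
    exact (FrameAux.le_mul_exp hR (P.abv.nonneg _)).trans
      (mul_le_mul_of_nonneg_left (Real.exp_le_exp.2 (le_max_left _ _)) hR.le)
  · rw [Real.exp_add, Real.exp_log hR, P.abv.map_neg]
    exact (FrameAux.le_mul_exp hR (P.abv.nonneg _)).trans
      (mul_le_mul_of_nonneg_left (Real.exp_le_exp.2 (le_max_right _ _)) hR.le)

theorem FrameAux.low (P : Pl K) {R : ℝ} (hR : 0 < R) (x y c : K)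
    (h : Real.posLog (P.abv (y - c) / R) + P.ar < Real.posLog (P.abv (x - c) / R)) :
    Real.log R + Real.posLog (P.abv (x - c) / R) - P.ar ≤ Real.log (P.abv (x - y)) := by
  have h0 : 0 < Real.posLog (P.abv (x - c) / R) :=
    lt_of_le_of_lt (add_nonneg Real.posLog_nonneg P.ar_nonneg) h
  have e := FrameAux.eq_mul_exp hR (P.abv.nonneg (x - c)) h0
  have h1 := FrameAux.le_mul_exp hR (P.abv.nonneg (y - c))
  have h2 : Real.exp P.ar * P.abv (-(y - c)) < P.abv (x - c) := by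
    rw [P.abv.map_neg]
    calc Real.exp P.ar * P.abv (y - c)
        ≤ Real.exp P.ar * (R * Real.exp (Real.posLog (P.abv (y - c) / R))) :=
          mul_le_mul_of_nonneg_left h1 (Real.exp_pos _).le
      _ = R * Real.exp (Real.posLog (P.abv (y - c) / R) + P.ar) := by rw [Real.exp_add]; ring
      _ < R * Real.exp (Real.posLog (P.abv (x - c) / R)) :=
          mul_lt_mul_of_pos_left (Real.exp_lt_exp.2 h) hR
      _ = P.abv (x - c) := e.symm
  have h3 := P.le_add _ _ h2
  rw [show x - c + -(y - c) = x - y by ring] at h3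
  have h4 : Real.exp (Real.log R + Real.posLog (P.abv (x - c) / R) - P.ar) ≤ P.abv (x - y) := by
    rw [sub_eq_add_neg, Real.exp_add, Real.exp_add, Real.exp_log hR, ← e, mul_comm]
    exact h3
  exact (Real.le_log_iff_exp_le (lt_of_lt_of_le (Real.exp_pos _) h4)).2 h4

theorem FrameAux.log_le (P : Pl K) {x : K} (hx : x ≠ 0) {A : ℝ} (h : P.abv x ≤ Real.exp A) :
    Real.log (P.abv x) ≤ A :=
  (Real.log_le_iff_le_exp (P.abv.pos hx)).2 h

namespace Frame
variable {P : Pl K} (F : Frame P)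

theorem Rx_pos : 0 < F.Rx := by
  exact mul_pos (lt_of_lt_of_le one_pos F.hc) (Real.exp_pos _)

theorem Ry_pos : 0 < F.Ry := by
  exact mul_pos (lt_of_lt_of_le one_pos F.hc) (Real.exp_pos _)

theorem ax_nonneg (p : K × K) : 0 ≤ F.ax p := by
  exact Real.posLog_nonneg

theorem ay_nonneg (p : K × K) : 0 ≤ F.ay p := by
  exact Real.posLog_nonneg

theorem al_nonneg (p : K × K) : 0 ≤ F.al p := by
  exact add_nonneg (F.ax_nonneg p) (F.ay_nonneg p)

theorem hw_nonneg : 0 ≤ F.hw := by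
  unfold hw
  linarith [F.hle]

theorem wid_nonneg : 0 ≤ F.wid := by
  exact add_nonneg F.hw_nonneg (Real.log_nonneg F.hc)

theorem abs_w_le (p : K × K) : |F.w p| ≤ F.al p := by
  have := F.ax_nonneg p
  have := F.ay_nonneg p
  unfold w al
  rw [abs_le]
  constructor <;> linarith

theorem log_Rx : Real.log F.Rx = F.mid + F.wid := by
  unfold Rx mid wid hw
  rw [Real.log_mul (lt_of_lt_of_le one_pos F.hc).ne' (Real.exp_pos _).ne', Real.log_exp]
  ring

theorem log_Ry : Real.log F.Ry = -F.mid + F.wid := by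
  unfold Ry mid wid hw
  rw [Real.log_mul (lt_of_lt_of_le one_pos F.hc).ne' (Real.exp_pos _).ne', Real.log_exp]
  ring



theorem al_eq_zero_iff (p : K × K) :
    F.al p = 0 ↔ P.abv (p.1 - F.ξ) ≤ F.Rx ∧ P.abv (p.2 - F.ζ) ≤ F.Ry := by
  rw [al, add_eq_zero_iff_of_nonneg (F.ax_nonneg p) (F.ay_nonneg p), ax, ay,
    Real.posLog_eq_zero_iff, Real.posLog_eq_zero_iff,
    abs_of_nonneg (div_nonneg (P.abv.nonneg _) F.Rx_pos.le),
    abs_of_nonneg (div_nonneg (P.abv.nonneg _) F.Ry_pos.le), div_le_one F.Rx_pos,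
    div_le_one F.Ry_pos]

theorem up_x (p q : K × K) :
    P.abv (p.1 - q.1) ≤ Real.exp (F.mid + F.wid + max (F.ax p) (F.ax q) + P.ar) := by
  rw [← F.log_Rx]
  exact FrameAux.up P F.Rx_pos _ _ _

theorem up_y (p q : K × K) :
    P.abv (p.2 - q.2) ≤ Real.exp (-F.mid + F.wid + max (F.ay p) (F.ay q) + P.ar) := by
  rw [← F.log_Ry]
  exact FrameAux.up P F.Ry_pos _ _ _

theorem low_x {p q : K × K} (h : F.ax q + P.ar < F.ax p) :
    F.mid + F.wid + F.ax p - P.ar ≤ Real.log (P.abv (p.1 - q.1)) := by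
  rw [← F.log_Rx]
  exact FrameAux.low P F.Rx_pos _ _ _ h

theorem low_y {p q : K × K} (h : F.ay q + P.ar < F.ay p) :
    -F.mid + F.wid + F.ay p - P.ar ≤ Real.log (P.abv (p.2 - q.2)) := by
  rw [← F.log_Ry]
  exact FrameAux.low P F.Ry_pos _ _ _ h

omit F in
theorem unit_facts {a q : K × K} (h : Dd a q = 1) : a.1 - q.1 ≠ 0 ∧ a.2 - q.2 ≠ 0 ∧
    Real.log (P.abv (a.2 - q.2)) = -Real.log (P.abv (a.1 - q.1)) := by
  have h1 : a.1 - q.1 ≠ 0 := left_ne_zero_of_mul_eq_one h
  have h2 : a.2 - q.2 ≠ 0 := right_ne_zero_of_mul_eq_one h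
  refine ⟨h1, h2, ?_⟩
  have h3 := congrArg (fun z => Real.log (P.abv z)) h
  simp only [Dd, map_mul, map_one, Real.log_one] at h3
  rw [Real.log_mul (P.abv.pos h1).ne' (P.abv.pos h2).ne'] at h3
  linarith

/-- All the information on `tau` for a unit pair. -/
theorem tau_facts {a q : K × K} (h : Dd a q = 1) :
    tau P a q ≤ F.mid + F.wid + max (F.ax a) (F.ax q) + P.ar ∧
    -tau P a q ≤ -F.mid + F.wid + max (F.ay a) (F.ay q) + P.ar ∧
    (F.ax a ≤ F.ax q + P.ar ∨ F.mid + F.wid + F.ax a - P.ar ≤ tau P a q) ∧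
    (F.ax q ≤ F.ax a + P.ar ∨ F.mid + F.wid + F.ax q - P.ar ≤ tau P a q) ∧
    (F.ay a ≤ F.ay q + P.ar ∨ -F.mid + F.wid + F.ay a - P.ar ≤ -tau P a q) ∧
    (F.ay q ≤ F.ay a + P.ar ∨ -F.mid + F.wid + F.ay q - P.ar ≤ -tau P a q) := by
  obtain ⟨h1, h2, h3⟩ := unit_facts (P := P) h
  unfold tau
  refine ⟨FrameAux.log_le P h1 (F.up_x a q), h3 ▸ FrameAux.log_le P h2 (F.up_y a q),
    (le_or_gt _ _).imp_right F.low_x, (le_or_gt _ _).imp_right fun h => ?_,
    (le_or_gt _ _).imp_right fun h => h3 ▸ F.low_y h, (le_or_gt _ _).imp_right fun h => ?_⟩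
  · rw [P.abv.map_sub]
    exact F.low_x h
  · rw [← h3, P.abv.map_sub]
    exact F.low_y h

/-- Upper bound `mid + wid + max (ax a) (ax q) + ar`; lower bound `mid + wid + ax a - ar` when
`ax a > ax q + ar` (`Pl.le_add`); same for `-tau = log |y_a - y_q|`. -/
theorem tau_approx {a q : K × K} (h : Dd a q = 1) :
    |tau P a q - F.mid - F.w a - F.w q| ≤ F.wid + 3 * min (F.al a) (F.al q) + 3 * P.ar := by
  obtain ⟨u1, u2, l1, l2, l3, l4⟩ := F.tau_facts h
  have := F.ax_nonneg a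
  have := F.ay_nonneg a
  have := F.ax_nonneg q
  have := F.ay_nonneg q
  have := F.wid_nonneg
  have := P.ar_nonneg
  have m1 : max (F.ax a) (F.ax q) ≤ F.ax a + F.ax q := max_le (by linarith) (by linarith)
  have m2 : max (F.ay a) (F.ay q) ≤ F.ay a + F.ay q := max_le (by linarith) (by linarith)
  unfold w al
  rw [abs_le]
  rcases min_choice (F.ax a + F.ay a) (F.ax q + F.ay q) with e | e <;> rw [e]
  · constructor
    · rcases l2 with l | l <;> linarith
    · rcases l4 with l | l <;> linarith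
  · constructor
    · rcases l1 with l | l <;> linarith
    · rcases l3 with l | l <;> linarith

theorem al_le_abs_w {a q : K × K} (h : Dd a q = 1) :
    F.al a ≤ |F.w a| + 2 * min (F.al a) (F.al q) + 2 * P.ar := by
  obtain ⟨-, -, l1, -, l3, -⟩ := F.tau_facts h
  have := F.ax_nonneg a
  have := F.ay_nonneg a
  have := F.ax_nonneg q
  have := F.ay_nonneg q
  have := F.wid_nonneg
  have := P.ar_nonneg
  unfold w al
  have := le_abs_self (F.ax a - F.ay a)
  have := neg_abs_le (F.ax a - F.ay a)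
  rcases min_choice (F.ax a + F.ay a) (F.ax q + F.ay q) with e | e <;> rw [e]
  · linarith
  · rcases l1 with l | l
    · linarith
    · rcases l3 with l' | l' <;> linarith

/-- `|Δx| = |t_a t_b| |Δy|`. -/
theorem al_centre_le {a b z : K × K} (ha : Dd a z = 1) (hb : Dd b z = 1) (hab : a.1 ≠ b.1) :
    F.al z ≤ 4 * F.wid + 6 * (F.al a + F.al b) + 8 * P.ar - 2 * Real.log (P.abv (Dd a b)) := by
  obtain ⟨-, -, -, a1, -, a2⟩ := F.tau_facts ha
  obtain ⟨-, -, -, b1, -, b2⟩ := F.tau_facts hb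
  obtain ⟨ha1, -, -⟩ := unit_facts (P := P) ha
  obtain ⟨hb1, -, -⟩ := unit_facts (P := P) hb
  have hx : a.1 - b.1 ≠ 0 := sub_ne_zero.2 hab
  have e : a.1 - b.1 = -((a.1 - z.1) * (b.1 - z.1) * (a.2 - b.2)) := by
    unfold Dd at ha hb
    linear_combination (b.1 - z.1) * ha - (a.1 - z.1) * hb
  have hy : a.2 - b.2 ≠ 0 := fun h => hx (by rw [e, h, mul_zero, neg_zero])
  have e1 : Real.log (P.abv (a.1 - b.1)) = tau P a z + tau P b z + Real.log (P.abv (a.2 - b.2)) := by
    conv_lhs => rw [e]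
    rw [P.abv.map_neg, map_mul, map_mul,
      Real.log_mul (mul_pos (P.abv.pos ha1) (P.abv.pos hb1)).ne' (P.abv.pos hy).ne',
      Real.log_mul (P.abv.pos ha1).ne' (P.abv.pos hb1).ne']
    rfl
  have e2 : Real.log (P.abv (Dd a b)) =
      Real.log (P.abv (a.1 - b.1)) + Real.log (P.abv (a.2 - b.2)) := by
    rw [Dd, map_mul, Real.log_mul (P.abv.pos hx).ne' (P.abv.pos hy).ne']
  have ux := FrameAux.log_le P hx (F.up_x a b)
  have uy := FrameAux.log_le P hy (F.up_y a b)
  have := F.ax_nonneg a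
  have := F.ay_nonneg a
  have := F.ax_nonneg b
  have := F.ay_nonneg b
  have := F.wid_nonneg
  have := P.ar_nonneg
  have m1 : max (F.ax a) (F.ax b) ≤ F.ax a + F.ax b := max_le (by linarith) (by linarith)
  have m2 : max (F.ay a) (F.ay b) ≤ F.ay a + F.ay b := max_le (by linarith) (by linarith)
  have kx : F.ax z ≤ 2 * F.wid + 3 * (F.al a + F.al b) + 4 * P.ar -
      Real.log (P.abv (Dd a b)) := by
    unfold al
    rcases a1 with a1 | a1
    · linarith
    · rcases b1 with b1 | b1 <;> linarith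
  have ky : F.ay z ≤ 2 * F.wid + 3 * (F.al a + F.al b) + 4 * P.ar -
      Real.log (P.abv (Dd a b)) := by
    unfold al
    rcases a2 with a2 | a2
    · linarith
    · rcases b2 with b2 | b2 <;> linarith
  have : F.al z = F.ax z + F.ay z := rfl
  linarith

theorem cost {a q : K × K} (h : Dd a q ≠ 1) :
    Real.log (P.abv (Dd a q - 1)) ≤ 2 * F.wid + F.al a + F.al q + 3 * P.ar := by
  have := F.ax_nonneg a
  have := F.ay_nonneg a
  have := F.ax_nonneg q
  have := F.ay_nonneg q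
  have := F.wid_nonneg
  have := P.ar_nonneg
  have m1 : max (F.ax a) (F.ax q) ≤ F.ax a + F.ax q := max_le (by linarith) (by linarith)
  have m2 : max (F.ay a) (F.ay q) ≤ F.ay a + F.ay q := max_le (by linarith) (by linarith)
  refine FrameAux.log_le P (sub_ne_zero.2 h) ?_
  rw [sub_eq_add_neg, show 2 * F.wid + F.al a + F.al q + 3 * P.ar =
    (2 * F.wid + F.al a + F.al q + 2 * P.ar) + P.ar by ring]
  unfold al
  refine FrameAux.add_le_exp P ?_ ?_
  · rw [Dd, map_mul]
    refine (mul_le_mul (F.up_x a q) (F.up_y a q) (P.abv.nonneg _) (Real.exp_pos _).le).trans ?_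
    rw [← Real.exp_add]
    exact Real.exp_le_exp.2 (by linarith)
  · rw [P.abv.map_neg, map_one]
    exact Real.one_le_exp (by linarith)

/-- `D(z,u) - 1 = δx / t + t δy + δx δy` with `t = z'.1 - u.1`. -/
theorem gain {z z' u : K × K} (hz' : F.al z' = 0) (hu : Dd z' u = 1) (s G : ℝ) (hs : 0 ≤ s)
    (hG : 0 ≤ G) (hx : P.abv (z.1 - z'.1) ≤ F.Rx * Real.exp (s - G))
    (hy : P.abv (z.2 - z'.2) ≤ F.Ry * Real.exp (s - G)) (h : Dd z u ≠ 1) :
    Real.log (P.abv (Dd z u - 1)) ≤ 2 * F.wid + 2 * s + F.al u + 3 * P.ar - G := by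
  have := F.ax_nonneg u
  have := F.ay_nonneg u
  have := F.wid_nonneg
  have := P.ar_nonneg
  obtain ⟨z1, z2⟩ := (add_eq_zero_iff_of_nonneg (F.ax_nonneg z') (F.ay_nonneg z')).1 hz'
  have ux := F.up_x z' u
  have uy := F.up_y z' u
  rw [z1, max_eq_right (F.ax_nonneg u)] at ux
  rw [z2, max_eq_right (F.ay_nonneg u)] at uy
  rw [← Real.exp_log F.Rx_pos, ← Real.exp_add, F.log_Rx] at hx
  rw [← Real.exp_log F.Ry_pos, ← Real.exp_add, F.log_Ry] at hy
  have e : Dd z u - 1 = ((z.1 - z'.1) * (z'.2 - u.2) + (z'.1 - u.1) * (z.2 - z'.2)) +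
      (z.1 - z'.1) * (z.2 - z'.2) := by
    unfold Dd at hu ⊢
    linear_combination hu
  have key : ∀ {x y : K} {A B C : ℝ}, P.abv x ≤ Real.exp A → P.abv y ≤ Real.exp B → A + B ≤ C →
      P.abv (x * y) ≤ Real.exp C := fun h1 h2 h3 => by
    rw [map_mul]
    refine (mul_le_mul h1 h2 (P.abv.nonneg _) (Real.exp_pos _).le).trans ?_
    rw [← Real.exp_add]
    exact Real.exp_le_exp.2 h3
  refine FrameAux.log_le P (sub_ne_zero.2 h) ?_
  rw [e, show 2 * F.wid + 2 * s + F.al u + 3 * P.ar - G =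
    (2 * F.wid + 2 * s + F.al u + P.ar - G) + P.ar + P.ar by ring]
  unfold al
  exact FrameAux.add_le_exp P (FrameAux.add_le_exp P (key hx uy (by linarith))
    (key ux hy (by linarith))) (key hx hy (by linarith))

end Frame

variable {R : Subring K}

theorem hgt_nonneg (P : Places K R) (F : ∀ v, Frame (P.pl v)) (p : K × K) : 0 ≤ hgt P F p := by
  exact Finset.sum_nonneg fun v _ => mul_nonneg (P.N_nonneg v) ((F v).al_nonneg p)

theorem Lam_nonneg (P : Places K R) (F : ∀ v, Frame (P.pl v)) : 0 ≤ Lam P F := by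
  exact Finset.sum_nonneg fun v _ => mul_nonneg (P.N_nonneg v) (F v).hw_nonneg

theorem sum_wid_le (P : Places K R) (F : ∀ v, Frame (P.pl v)) (Lc : ℝ)
    (hc : ∀ v, Real.log (F v).c ≤ (P.pl v).ar * Lc) : ∑ v, P.N v * (F v).wid ≤ Lam P F + Lc := by
  have e : Lam P F + Lc = ∑ v, P.N v * ((F v).hw + (P.pl v).ar * Lc) := by
    simp only [mul_add, Finset.sum_add_distrib, ← mul_assoc, ← Finset.sum_mul, P.sum_ar, one_mul]
    rfl
  rw [e]
  exact Finset.sum_le_sum fun v _ =>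
    mul_le_mul_of_nonneg_left (add_le_add le_rfl (hc v)) (P.N_nonneg v)

/-- Sum `al_centre_le` over the places; `pf` for `Dd a b`. -/
theorem hgt_centre_le (P : Places K R) (F : ∀ v, Frame (P.pl v)) (Lc : ℝ)
    (hc : ∀ v, Real.log (F v).c ≤ (P.pl v).ar * Lc) {A : Finset (K × K)}
    (h1 : GenX R Prod.fst A) (h2 : GenX R Prod.snd A) {a b z : K × K} (ha : a ∈ A) (hb : b ∈ A)
    (hab : a ≠ b) (haz : Dd a z = 1) (hbz : Dd b z = 1) :
    hgt P F z ≤ (4 * (Lam P F + Lc) + 8) + 6 * (hgt P F a + hgt P F b) := by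
  have hx : a.1 ≠ b.1 := h1.inj a ha b hb hab
  have hy : a.2 ≠ b.2 := h2.inj a ha b hb hab
  have hpf := P.pf (Dd a b) (R.mul_mem (h1.mem a ha b hb) (h2.mem a ha b hb))
    (mul_ne_zero (sub_ne_zero.2 hx) (sub_ne_zero.2 hy))
  have hw := sum_wid_le P F Lc hc
  have key : hgt P F z ≤ ∑ v, P.N v * (4 * (F v).wid + 6 * ((F v).al a + (F v).al b) +
      8 * (P.pl v).ar - 2 * Real.log ((P.pl v).abv (Dd a b))) :=
    Finset.sum_le_sum fun v _ =>
      mul_le_mul_of_nonneg_left ((F v).al_centre_le haz hbz hx) (P.N_nonneg v)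
  have e : ∑ v, P.N v * (4 * (F v).wid + 6 * ((F v).al a + (F v).al b) +
      8 * (P.pl v).ar - 2 * Real.log ((P.pl v).abv (Dd a b))) =
      4 * ∑ v, P.N v * (F v).wid + 6 * (hgt P F a + hgt P F b) + 8 * ∑ v, P.N v * (P.pl v).ar -
        2 * ∑ v, P.N v * Real.log ((P.pl v).abv (Dd a b)) := by
    unfold hgt
    rw [← Finset.sum_add_distrib, Finset.mul_sum, Finset.mul_sum, Finset.mul_sum, Finset.mul_sum,
      ← Finset.sum_add_distrib, ← Finset.sum_add_distrib, ← Finset.sum_sub_distrib]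
    exact Finset.sum_congr rfl fun v _ => by ring
  rw [e, P.sum_ar] at key
  linarith

end Crest.Agent.R33
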