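import Crest.Agent.PVc.R33.Place
import Crest.Agent.PVc.R33.Curve
import Crest.Agent.PVc.R33.ExtremalAux
import Crest.Agent.PVc.R33.Expand
import Crest.Agent.PVc.R33.Frame
import Crest.Agent.PVc.R33.Basic
import Mathlib

-- ▼ part PVc/R33/Extremal
section

/-! The extremal sub-configuration. -/

set_option autoImplicit false

open Finset
open scoped Classical

namespace Crest.Agent.R33

theorem Ext.cfg_two {K : Type} [Field K] {R : Subring K} {A Y : Finset (K × K)} {ι : Type}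
    [Fintype ι] {ctr : ι → K × K} {C : ι → Finset (K × K)} {s : ℕ} (h : Cfg R A Y ctr C s)
    (a b : K × K) (hab : a ≠ b) : (univ.filter fun q => a ∈ C q ∧ b ∈ C q).card ≤ 2 := by
  rcases (univ.filter fun q => a ∈ C q ∧ b ∈ C q).eq_empty_or_nonempty with h0 | ⟨q₀, hq₀⟩
  · rw [h0]; simp
  have ha : a ∈ A := h.sub (h.C_sub q₀ (mem_filter.1 hq₀).2.1)
  have hb : b ∈ A := h.sub (h.C_sub q₀ (mem_filter.1 hq₀).2.2)
  rw [← card_image_of_injOn (f := ctr)]
  · refine two_centres a b (h.gen1.inj a ha b hb hab) (h.gen2.inj a ha b hb hab) _ fun z hz => ?_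
    obtain ⟨q, hq, rfl⟩ := mem_image.1 hz
    exact ⟨h.unit q a (mem_filter.1 hq).2.1, h.unit q b (mem_filter.1 hq).2.2⟩
  · intro q hq q' hq' e
    by_contra hne
    exact disjoint_left.1 (h.disj q q' hne e) (mem_filter.1 (mem_coe.1 hq)).2.1
      (mem_filter.1 (mem_coe.1 hq')).2.1


/-- `φ n = n³ (n-1)`, `Z S = ∑_q φ |C q ∩ S|`; choose `Y' ⊆ Y` nonempty maximising
`Z(S)² / |S|³`, `m = |Y'|`.  `α = Y'`, `ι' = {q | 1 ≤ β |C q ∩ Y'|}`, `π q ∝ φ |C q ∩ Y'|`,
`θ = s* / (4 s²)` (`≤ 1`, else `cfg_pairs` contradicts the hypothesis).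
`Z ≥ Z(Y) (m/m₀)² ≥ s* m²/2`, small classes have `Z`-mass `≤ 2 m²/β²`; `m ≥ m₀/s⁴`.
`deg`: removing one point loses `≥ Z/m` and `φ n - φ (n-1) ≤ 4 φ n / n`.
`conc`: `φ k ≥ (l - β)⁴ φ n` if `k ≥ l n`, `n ≥ 1/β`.
`s* = 64/β³`, `κ = 1/(2(5+2E))`, `m* = (4^E/β)²`. -/
theorem exists_model (β : ℝ) (hβ : 0 < β) (hβ1 : β ≤ 1 / 2) (E : ℕ) :
    ∃ κ > (0 : ℝ), ∃ sstar mstar : ℝ, ∀ (K : Type) [Field K] (R : Subring K) (A Y : Finset (K × K))
      (ι : Type) [Fintype ι] (ctr : ι → K × K) (C : ι → Finset (K × K)) (s : ℕ) (m₀ : ℝ),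
      Cfg R A Y ctr C s → 2 ≤ s → mstar ≤ m₀ → (Y.card : ℝ) ≤ m₀ → (s : ℝ) ≤ m₀ ^ κ →
      sstar * m₀ ^ 2 < Fintype.card ι * (s : ℝ) ^ 4 →
      ∃ (α ι' : Type) (_ : Fintype α) (_ : Fintype ι') (_ : DecidableEq α)
        (M : Model α ι' β E), Nonempty (Geo M R) := by
  refine ⟨((2 * (5 + 2 * E) : ℕ) : ℝ)⁻¹, by positivity, 64 / β ^ 3, 1 / β ^ 2, ?_⟩
  intro K _ R A Y ι _ ctr C s m₀ h hs2 hm₀ hY hsκ hbig
  have hs2' : (2 : ℝ) ≤ s := by exact_mod_cast hs2
  have hs0 : (0 : ℝ) < s := by linarith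
  have hm₀pos : 0 < m₀ := lt_of_lt_of_le (by positivity) hm₀
  have hc : (2 : ℝ) ≤ 32 / β ^ 3 := by
    rw [le_div_iff₀ (by positivity)]
    have := pow_le_one₀ (n := 3) hβ.le (by linarith)
    linarith
  -- the value at `Y`
  have hZY : 32 / β ^ 3 * m₀ ^ 2 ≤ Ext.Zf C Y := by
    have e : Ext.Zf C Y = Fintype.card ι * ((s : ℝ) ^ 3 * (s - 1)) := by
      unfold Ext.Zf Ext.ph
      simp only [inter_eq_left.2 (h.C_sub _), h.card, sum_const, card_univ, nsmul_eq_mul]
    have h1 : (s : ℝ) ^ 4 / 2 ≤ (s : ℝ) ^ 3 * (s - 1) := by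
      have : 0 ≤ (s : ℝ) ^ 3 * (s - 2) := mul_nonneg (by positivity) (by linarith)
      nlinarith
    have h2 := mul_le_mul_of_nonneg_left h1 (Fintype.card ι).cast_nonneg
    have h3 : 64 / β ^ 3 * m₀ ^ 2 = 2 * (32 / β ^ 3 * m₀ ^ 2) := by ring
    rw [e]
    linarith
  have hYne : Y.Nonempty := by
    rw [nonempty_iff_ne_empty]
    rintro rfl
    rw [Ext.Zf_empty] at hZY
    exact absurd hZY (not_le.2 (by positivity))
  obtain ⟨Y', hY'Y, hY'ne, hmax⟩ := Ext.exists_extremal C Y hYne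
  have hm : (0 : ℝ) < Y'.card := by exact_mod_cast hY'ne.card_pos
  have hmm : (Y'.card : ℝ) ≤ m₀ := le_trans (by exact_mod_cast card_le_card hY'Y) hY
  have two : ∀ a b : Y', a ≠ b →
      (univ.filter fun q => a ∈ Ext.res C Y' q ∧ b ∈ Ext.res C Y' q).card ≤ 2 := by
    intro a b hab
    simp only [Ext.mem_res]
    exact Ext.cfg_two h a.1 b.1 fun e => hab (Subtype.ext e)
  have hs : ∀ q, ((Ext.res C Y' q).card : ℝ) ≤ s := fun q => by
    exact_mod_cast (Ext.card_res_le C Y' q).trans (h.card q).le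
  have hup := Ext.Zf_upper two hs
  rw [Ext.Zf_res_univ, Fintype.card_coe] at hup
  have hZ0 := Ext.Zf_nonneg C Y'
  have key : (32 / β ^ 3) ^ 2 * m₀ * (Y'.card : ℝ) ^ 3 ≤ Ext.Zf C Y' ^ 2 := by
    refine le_of_mul_le_mul_right ?_ (pow_pos hm₀pos 3)
    calc _ = (32 / β ^ 3 * m₀ ^ 2) ^ 2 * (Y'.card : ℝ) ^ 3 := by ring
      _ ≤ Ext.Zf C Y ^ 2 * (Y'.card : ℝ) ^ 3 := by gcongr
      _ ≤ Ext.Zf C Y' ^ 2 * (Y.card : ℝ) ^ 3 := hmax Y subset_rfl
      _ ≤ _ := by gcongr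
  have hZ : 32 / β ^ 3 * (Y'.card : ℝ) ^ 2 ≤ Ext.Zf C Y' := by
    refine le_of_sq_le_sq (le_trans ?_ key) hZ0
    calc _ = (32 / β ^ 3) ^ 2 * (Y'.card : ℝ) * (Y'.card : ℝ) ^ 3 := by ring
      _ ≤ _ := by gcongr
  have hlow : m₀ ≤ (s : ℝ) ^ 4 * Y'.card := by
    refine le_of_mul_le_mul_right ?_ (show 0 < 4 * (Y'.card : ℝ) ^ 3 by positivity)
    calc m₀ * (4 * (Y'.card : ℝ) ^ 3) = 2 ^ 2 * m₀ * (Y'.card : ℝ) ^ 3 := by ring
      _ ≤ (32 / β ^ 3) ^ 2 * m₀ * (Y'.card : ℝ) ^ 3 := by gcongr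
      _ ≤ Ext.Zf C Y' ^ 2 := key
      _ ≤ (2 * (s : ℝ) ^ 2 * (Y'.card : ℝ) ^ 2) ^ 2 := by gcongr
      _ = _ := by ring
  have hpow : (s : ℝ) ^ (5 + 2 * E) ≤ β * m₀ := by
    refine le_of_sq_le_sq ?_ (by positivity)
    have h1 := pow_le_pow_left₀ hs0.le hsκ (2 * (5 + 2 * E))
    rw [Real.rpow_inv_natCast_pow hm₀pos.le (by omega), mul_comm, pow_mul] at h1
    rw [div_le_iff₀ (by positivity)] at hm₀
    nlinarith
  have hsm : (s : ℝ) ≤ β * (16 / (β ^ 3 * (s : ℝ) ^ 2)) ^ E * Y'.card := by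
    have h1 : 1 / (s : ℝ) ^ 2 ≤ 16 / (β ^ 3 * (s : ℝ) ^ 2) := by
      have h2 : 16 / (β ^ 3 * (s : ℝ) ^ 2) = 32 / β ^ 3 / 2 * (1 / (s : ℝ) ^ 2) := by
        field_simp; norm_num
      rw [h2]
      exact le_mul_of_one_le_left (by positivity) (by linarith)
    have h3 : (s : ℝ) * ((s : ℝ) ^ 2) ^ E ≤ β * Y'.card := by
      refine le_of_mul_le_mul_right ?_ (pow_pos hs0 4)
      calc (s : ℝ) * ((s : ℝ) ^ 2) ^ E * (s : ℝ) ^ 4 = (s : ℝ) ^ (5 + 2 * E) := by ring
        _ ≤ β * m₀ := hpow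
        _ ≤ β * ((s : ℝ) ^ 4 * Y'.card) := by gcongr
        _ = _ := by ring
    calc (s : ℝ) ≤ β * Y'.card / ((s : ℝ) ^ 2) ^ E := by rwa [le_div_iff₀ (by positivity)]
      _ = β * (1 / (s : ℝ) ^ 2) ^ E * Y'.card := by rw [one_div_pow]; ring
      _ ≤ _ := by gcongr
  obtain ⟨M, hM⟩ := Ext.exists_model (D := Ext.res C Y') hβ hβ1 E hs0 two hs
    (by rwa [Fintype.card_coe])
    (fun S => by
      rw [Ext.Zf_res_univ, Ext.Zf_res, Fintype.card_coe, ← card_map (Function.Embedding.subtype _)]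
      refine hmax _ fun a ha => ?_
      obtain ⟨b, -, rfl⟩ := mem_map.1 ha
      exact hY'Y b.2)
    (by rwa [Ext.Zf_res_univ, Fintype.card_coe]) (by rwa [Fintype.card_coe])
  refine ⟨_, _, _, _, _, M, ⟨⟨A, h.gen1, h.gen2, Subtype.val, fun q => ctr q.1,
    Subtype.val_injective, fun a => h.sub (hY'Y a.2), fun q => h.ctr_mem _, fun q a ha => ?_,
    fun q q' hne e => ?_⟩⟩⟩
  · rw [hM, Ext.mem_res] at ha
    exact h.unit _ _ ha
  · rw [hM, hM, disjoint_left]
    intro a ha ha'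
    rw [Ext.mem_res] at ha ha'
    exact disjoint_left.1 (h.disj q.1 q'.1 (fun e' => hne (Subtype.ext e')) e) ha ha'

end Crest.Agent.R33
end

-- ▼ part PVc/R33/Cluster
section

/-! A giant cluster. -/

set_option autoImplicit false

open Finset
open scoped Classical

namespace Crest.Agent.R33

namespace ClusterAux
variable {α ι : Type} [Fintype α] [Fintype ι] [DecidableEq α] {β : ℝ} {E : ℕ}
  (M : Model α ι β E) {T : Type}

/-- The fibre of the label `t`. -/
noncomputable def fib (f : α → T) (t : T) : Finset α := univ.filter fun a => f a = t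

omit [DecidableEq α] in
theorem mem_fib (f : α → T) (t : T) (a : α) : a ∈ fib f t ↔ f a = t := by
  simp [fib]

/-- Markov: most centres see mostly their own label. -/
theorem good_ge (f : α → T) (g : ι → T) (x : ℝ) (hx : 0 < x)
    (h : M.P (fun a q => f a ≠ g q) ≤ x ^ 2) :
    1 - x ≤ M.piP (fun q => 1 - x ≤ M.kap q (fib f (g q))) := by
  have h1 : ∑ q, M.π q * M.kap q (fib f (g q)) = M.P fun a q => a ∈ fib f (g q) :=
    M.sum_pi_kap fun q => fib f (g q)
  have h2 : M.P (fun a q => f a ≠ g q) = 1 - M.P fun a q => a ∈ fib f (g q) := by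
    rw [← M.P_not]
    congr 1
    funext a q
    simp [mem_fib]
  have h3 : ∑ q, M.π q * M.kap q (fib f (g q)) ≤
      ∑ q, ((1 - x) * M.π q + x * (if 1 - x ≤ M.kap q (fib f (g q)) then M.π q else 0)) := by
    refine sum_le_sum fun q _ => ?_
    have hp := (M.π_pos q).le
    have hk := M.kap_le_one q (fib f (g q))
    split_ifs with hq
    · nlinarith
    · push Not at hq
      nlinarith
  rw [sum_add_distrib, ← mul_sum, ← mul_sum, M.π_sum] at h3
  have h4 : M.piP (fun q => 1 - x ≤ M.kap q (fib f (g q))) =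
      ∑ q, (if 1 - x ≤ M.kap q (fib f (g q)) then M.π q else 0) := by
    unfold Model.piP
    refine sum_congr rfl fun q _ => ?_
    congr
  rw [h4]
  have h5 : x * (1 - x) ≤ x * ∑ q, (if 1 - x ≤ M.kap q (fib f (g q)) then M.π q else 0) := by
    nlinarith
  exact le_of_mul_le_mul_left h5 hx

/-- Union bound over the labels that occur. -/
theorem good_le (f : α → T) (g : ι → T) (l : ℝ) (hl : 0 < l) :
    M.piP (fun q => l ≤ M.kap q (fib f (g q))) ≤
      ∑ t ∈ univ.image f, M.piP (fun q => l ≤ M.kap q (fib f t)) := by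
  unfold Model.piP
  rw [sum_comm]
  refine sum_le_sum fun q _ => ?_
  have hp := (M.π_pos q).le
  have hnn : ∀ t ∈ univ.image f, 0 ≤ (if l ≤ M.kap q (fib f t) then M.π q else 0) := by
    intro t _
    split_ifs
    · exact hp
    · exact le_rfl
  by_cases hq : l ≤ M.kap q (fib f (g q))
  · have hmem : g q ∈ univ.image f := by
      by_contra hne
      have : fib f (g q) = ∅ := by
        ext a
        simp only [mem_fib, notMem_empty, iff_false]
        intro ha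
        exact hne (mem_image.2 ⟨a, mem_univ _, ha⟩)
      rw [this] at hq
      simp [Model.kap] at hq
      linarith
    have := single_le_sum hnn hmem
    rw [if_pos hq] at this
    rw [if_pos hq]
    convert this
  · rw [if_neg hq]
    refine sum_nonneg fun t ht => ?_
    convert hnn t ht

theorem muP_fib (f : α → T) (t : T) :
    M.muP (· ∈ fib f t) = ((fib f t).card : ℝ) / Fintype.card α := by
  unfold Model.muP
  congr 3
  ext a
  simp

theorem sum_muP_fib (f : α → T) : ∑ t ∈ univ.image f, M.muP (· ∈ fib f t) = 1 := by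
  have hc := M.card_pos
  simp only [muP_fib]
  rw [← sum_div, div_eq_one_iff_eq hc.ne', ← Nat.cast_sum, Nat.cast_inj]
  have := card_eq_sum_card_image f (univ : Finset α)
  rw [card_univ] at this
  rw [this]
  rfl

theorem muP_ne (f : α → T) (t : T) :
    M.muP (fun a => f a ≠ t) = 1 - M.muP (· ∈ fib f t) := by
  have hc := M.card_pos
  rw [muP_fib]
  unfold Model.muP
  rw [eq_sub_iff_add_eq, ← add_div, div_eq_one_iff_eq hc.ne', ← Nat.cast_add, Nat.cast_inj]
  have := card_filter_add_card_filter_not (s := (univ : Finset α)) (fun a => f a = t)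
  rw [card_univ] at this
  rw [← this, add_comm]
  congr

/-- A label carried by almost all points. -/
theorem giant (f : α → T) (g : ι → T) (x : ℝ) (hx : 0 < x) (hx1 : x ≤ 1 / 4) (hβ : β ≤ x)
    (h : M.P (fun a q => f a ≠ g q) ≤ x ^ 2) :
    ∃ i, M.muP (fun a => f a ≠ i) ≤ 20 * x := by
  have hβ0 := M.β_pos
  have hne : (univ.image f).Nonempty := by
    have hc := M.card_pos
    have : 0 < Fintype.card α := by exact_mod_cast hc
    obtain ⟨a⟩ := Fintype.card_pos_iff.1 this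
    exact ⟨f a, mem_image.2 ⟨a, mem_univ _, rfl⟩⟩
  obtain ⟨i, -, hi⟩ := exists_max_image (univ.image f) (fun t => M.muP (· ∈ fib f t)) hne
  refine ⟨i, ?_⟩
  rw [muP_ne]
  set m := M.muP (· ∈ fib f i) with hm
  have hm0 : 0 ≤ m := M.muP_nonneg _
  have hm1 : m ≤ 1 := by
    have h1 := muP_ne M f i
    have h2 := M.muP_nonneg (fun a => f a ≠ i)
    linarith
  have hpow : 0 ≤ (1 - x - β) ^ 4 := by positivity
  have h1 := good_ge M f g x hx h
  have h2 := good_le M f g (1 - x) (by linarith)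
  have h3 : (∑ t ∈ univ.image f, M.piP (fun q => 1 - x ≤ M.kap q (fib f t))) * (1 - x - β) ^ 4 ≤
      (1 + β) * √m := by
    rw [sum_mul]
    calc ∑ t ∈ univ.image f, M.piP (fun q => 1 - x ≤ M.kap q (fib f t)) * (1 - x - β) ^ 4
        ≤ ∑ t ∈ univ.image f, (1 + β) * (M.muP (· ∈ fib f t) * √m) := by
          refine sum_le_sum fun t ht => ?_
          refine (M.piP_kap_le (fib f t) (1 - x) (by linarith)).trans ?_
          refine mul_le_mul_of_nonneg_left ?_ (by linarith)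
          exact mul_le_mul_of_nonneg_left (Real.sqrt_le_sqrt (hi t ht)) (M.muP_nonneg _)
      _ = (1 + β) * √m := by
          rw [← mul_sum, ← sum_mul, sum_muP_fib, one_mul]
  have h4 : 1 - 8 * x ≤ (1 - x - β) ^ 4 := by
    have := one_add_mul_le_pow (a := -(x + β)) (by linarith) 4
    have e : 1 + -(x + β) = 1 - x - β := by ring
    rw [e] at this
    push_cast at this
    linarith
  have h5 : (1 - x) * (1 - x - β) ^ 4 ≤ (1 + β) * √m :=
    (mul_le_mul_of_nonneg_right (h1.trans h2) hpow).trans h3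
  have hr0 : 0 ≤ √m := Real.sqrt_nonneg m
  have hr1 : √m ≤ 1 := Real.sqrt_le_one.2 hm1
  have hr2 : √m * √m = m := Real.mul_self_sqrt hm0
  have h6 : (1 - x) * (1 - 8 * x) ≤ (1 - x) * (1 - x - β) ^ 4 :=
    mul_le_mul_of_nonneg_left h4 (by linarith)
  have h7 : β * √m ≤ x := by nlinarith
  have h8 : 1 - 10 * x ≤ √m := by nlinarith
  nlinarith

end ClusterAux

/-- (i) with `x = √δ₀`: most `q` have `κ_q (f = g q) ≥ 1 - x`, and summing `piP_kap_le` over the
labels gives a label `i` with `μ(f ≠ i) ≤ 2⁻⁵⁰` (`δ₀ = 2⁻¹¹²`); (ii) `expand` with `l = 1/16` and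
`muP_le`. -/
theorem cluster : ∃ δ₀ > 0, ∀ (α ι : Type) [Fintype α] [Fintype ι] [DecidableEq α] (β : ℝ)
    (E : ℕ) (M : Model α ι β E) (T : Type) (f : α → T) (g : ι → T) (δ : ℝ), β ≤ δ₀ → δ ≤ δ₀ →
    M.P (fun a q => f a ≠ g q) ≤ δ →
    ∃ i, M.nuP (fun a => f a ≠ i) + M.piP (fun q => g q ≠ i) ≤ 4 * δ + β := by
  obtain ⟨x, hx, hx1, hx2⟩ : ∃ x : ℝ, 0 < x ∧ x ≤ 1 / 32 ∧ 20 * x ≤ (1 / 16) ^ 10 / 1024 :=
    ⟨(1 / 16) ^ 10 / 1024 / 20, by positivity, by norm_num, by norm_num⟩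
  refine ⟨x ^ 2, by positivity, ?_⟩
  intro α ι _ _ _ β E M T f g δ hβ hδ h
  have hβ0 := M.β_pos
  have hβx : β ≤ x := by nlinarith
  obtain ⟨i, hi⟩ := ClusterAux.giant M f g x hx (by linarith) hβx (h.trans hδ)
  refine ⟨i, ?_⟩
  have hE := M.expand (by linarith) (fun a => f a ≠ i) (fun q => g q ≠ i) (1 / 16) (by linarith)
    (hi.trans hx2)
  have hμ := M.muP_le (fun a => f a ≠ i)
  have hor := M.P_or_le (fun a q => f a ≠ g q) (fun a q => f a ≠ i ∧ g q ≠ i)
  have hA : M.nuP (fun a => f a ≠ i) ≤ M.P (fun a q => f a ≠ g q ∨ (f a ≠ i ∧ g q ≠ i)) := by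
    rw [← M.P_left]
    refine M.P_mono fun a q _ ha => ?_
    by_cases hq : f a = g q
    · exact Or.inr ⟨ha, hq ▸ ha⟩
    · exact Or.inl hq
  have hB : M.piP (fun q => g q ≠ i) ≤ M.P (fun a q => f a ≠ g q ∨ (f a ≠ i ∧ g q ≠ i)) := by
    rw [← M.P_right]
    refine M.P_mono fun a q _ ha => ?_
    by_cases hq : f a = g q
    · exact Or.inr ⟨hq ▸ ha, ha⟩
    · exact Or.inl hq
  have hπ := M.piP_nonneg (fun q => g q ≠ i)
  have hν := M.nuP_nonneg (fun a => f a ≠ i)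
  linarith

end Crest.Agent.R33
end

-- ▼ part PVc/R33/Grid
section

/-! Cells at a place: balls (non-archimedean) or grid squares (archimedean). -/

set_option autoImplicit false

open Finset
open scoped Classical

namespace Crest.Agent.R33

variable {K : Type} [Field K]

namespace Grid

theorem floor_range {α : Type} (S : Finset α) (f : α → ℝ) (n : ℕ)
    (h : ∀ z ∈ S, ∀ z' ∈ S, f z - f z' ≤ n) : ∃ m : ℤ, ∀ z ∈ S, ⌊f z⌋ ∈ Icc m (m + n) := by
  rcases S.eq_empty_or_nonempty with rfl | hS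
  · exact ⟨0, by simp⟩
  obtain ⟨z₀, hz₀, hmin⟩ := exists_min_image S f hS
  refine ⟨⌊f z₀⌋, fun z hz => mem_Icc.2 ⟨Int.floor_mono (hmin z hz), ?_⟩⟩
  rw [← Int.floor_add_natCast]
  exact Int.floor_mono (by linarith [h z hz z₀ hz₀])

theorem abs_div_sub {a b r c : ℝ} (hr : 0 < r) (h : |a / r - b / r| ≤ c) : |a - b| ≤ c * r := by
  rwa [← sub_div, abs_div, abs_of_pos hr, div_le_iff₀ hr] at h

theorem abs_div_sub' {a b r c : ℝ} (hr : 0 < r) (h : |a - b| ≤ c * r) : |a / r - b / r| ≤ c := by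
  rwa [← sub_div, abs_div, abs_of_pos hr, div_le_iff₀ hr]

theorem ultra {P : Pl K} (h : IsNonarchimedean P.abv) {r : ℝ} {a b c : K}
    (h1 : P.abv (a - b) ≤ r) (h2 : P.abv (b - c) ≤ r) : P.abv (a - c) ≤ r := by
  have := h (a - b) (b - c)
  rw [sub_add_sub_cancel] at this
  exact this.trans (max_le h1 h2)

theorem ball_eq {P : Pl K} (h : IsNonarchimedean P.abv) {r : ℝ} {a b : K}
    (h1 : P.abv (a - b) ≤ r) (c : K) : P.abv (a - c) ≤ r ↔ P.abv (b - c) ≤ r :=
  ⟨fun h2 => ultra h (by rwa [P.abv.map_sub]) h2, fun h2 => ultra h h1 h2⟩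

/-- The cell of `x` in the grid of side `L` shifted by `j`. -/
noncomputable def cell (L : ℕ) (j : Fin L) (x : ℝ) : ℤ := ⌊(x + (j : ℕ)) / L⌋

theorem cell_close {L : ℕ} (hL : 0 < L) {j : Fin L} {x x' : ℝ} (h : cell L j x = cell L j x') :
    |x - x'| ≤ L := by
  have hL' : (0 : ℝ) < L := by exact_mod_cast hL
  have h1 := abs_div_sub hL' (Int.abs_sub_lt_one_of_floor_eq_floor h).le
  rwa [one_mul, add_sub_add_right_eq_sub] at h1

theorem cell_cut_aux {L : ℕ} (hL : 0 < L) {x x' : ℝ} (h : x ≤ x') (h' : x' ≤ x + 1) :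
    (univ.filter fun j : Fin L => cell L j x ≠ cell L j x').card ≤ 1 := by
  have hL' : (0 : ℝ) < L := by exact_mod_cast hL
  have key : ∀ j : Fin L, cell L j x ≠ cell L j x' →
      cell L j x' * L - (j : ℕ) = ⌊x⌋ + 1 := by
    intro j hj
    have h1 : cell L j x ≤ cell L j x' :=
      Int.floor_mono (div_le_div_of_nonneg_right (by linarith) hL'.le)
    have h2 : cell L j x < cell L j x' := lt_of_le_of_ne h1 hj
    have h3 : (x + (j : ℕ)) / L < cell L j x' := Int.floor_lt.1 h2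
    have h4 : (cell L j x' : ℝ) ≤ (x' + (j : ℕ)) / L := Int.floor_le _
    rw [div_lt_iff₀ hL'] at h3
    rw [le_div_iff₀ hL'] at h4
    have h5 : ⌊x⌋ = cell L j x' * L - (j : ℕ) - 1 := by
      rw [Int.floor_eq_iff]
      push_cast
      constructor <;> linarith
    omega
  refine card_le_one.2 fun j hj j' hj' => ?_
  have h1 := key j (mem_filter.1 hj).2
  have h2 := key j' (mem_filter.1 hj').2
  have h3 : (L : ℤ) ∣ ((j : ℕ) : ℤ) - (j' : ℕ) :=
    ⟨cell L j x' - cell L j' x', by linear_combination h2 - h1⟩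
  have h4 := j.2
  have h5 := j'.2
  have h6 := Int.eq_zero_of_abs_lt_dvd h3 (by rw [abs_lt]; constructor <;> omega)
  exact Fin.ext (by omega)

theorem cell_cut {L : ℕ} (hL : 0 < L) {x x' : ℝ} (h : |x - x'| ≤ 1) :
    (univ.filter fun j : Fin L => cell L j x ≠ cell L j x').card ≤ 1 := by
  rw [abs_le] at h
  rcases le_total x x' with h1 | h1
  · exact cell_cut_aux hL h1 (by linarith)
  · simpa only [ne_comm] using cell_cut_aux hL h1 (by linarith)

end Grid

/-- Labels: the closed ball of radius `r` (non-archimedean), or the fibre of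
`z ↦ (⌊re σz / r⌋, ⌊im σz / r⌋)` (archimedean). -/
theorem exists_grid (P : Pl K) (r : ℝ) (hr : 0 < r) : ∃ lab : K → Set K,
    (∀ z z', lab z = lab z' → P.abv (z - z') ≤ (1 + P.ar) * r) ∧
    (∀ S : Finset K, (∀ z ∈ S, ∀ z' ∈ S, P.abv (z - z') ≤ r) → (S.image lab).card ≤ 4) ∧
    (P.ar = 1 → ∀ (n : ℕ) (S : Finset K), (∀ z ∈ S, ∀ z' ∈ S, P.abv (z - z') ≤ n * r) →
      (S.image lab).card ≤ (n + 1) ^ 2) := by
  rcases P.kind with ⟨h0, hna⟩ | ⟨h1, σ, hσ⟩
  · refine ⟨fun z => {w | P.abv (z - w) ≤ r}, fun z z' h => ?_, fun S hS => ?_, fun h => ?_⟩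
    · have : z' ∈ {w | P.abv (z - w) ≤ r} := by
        rw [show {w | P.abv (z - w) ≤ r} = {w | P.abv (z' - w) ≤ r} from h]
        simpa using hr.le
      rw [h0, add_zero, one_mul]
      exact this
    · refine le_trans (card_le_one.2 fun a ha b hb => ?_) (by norm_num)
      obtain ⟨z, hz, rfl⟩ := mem_image.1 ha
      obtain ⟨z', hz', rfl⟩ := mem_image.1 hb
      exact Set.ext fun w => Grid.ball_eq hna (hS z hz z' hz') w
    · rw [h0] at h
      exact absurd h zero_ne_one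
  · set g : K → ℤ × ℤ := fun z => (⌊(σ z).re / r⌋, ⌊(σ z).im / r⌋) with hg
    have main : ∀ (n : ℕ) (S : Finset K), (∀ z ∈ S, ∀ z' ∈ S, P.abv (z - z') ≤ n * r) →
        (S.image fun z => {w | g w = g z}).card ≤ (n + 1) ^ 2 := by
      intro n S hS
      obtain ⟨m₁, hm₁⟩ := Grid.floor_range S (fun z => (σ z).re / r) n fun z hz z' hz' => by
        refine (le_abs_self _).trans (Grid.abs_div_sub' hr (le_trans ?_ (hS z hz z' hz')))
        rw [hσ, map_sub, ← Complex.sub_re]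
        exact Complex.abs_re_le_norm _
      obtain ⟨m₂, hm₂⟩ := Grid.floor_range S (fun z => (σ z).im / r) n fun z hz z' hz' => by
        refine (le_abs_self _).trans (Grid.abs_div_sub' hr (le_trans ?_ (hS z hz z' hz')))
        rw [hσ, map_sub, ← Complex.sub_im]
        exact Complex.abs_im_le_norm _
      have hsub : (S.image fun z => {w | g w = g z}) ⊆
          (Icc m₁ (m₁ + n) ×ˢ Icc m₂ (m₂ + n)).image fun v => {w | g w = v} := by
        intro a ha
        obtain ⟨z, hz, rfl⟩ := mem_image.1 ha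
        exact mem_image.2 ⟨g z, mem_product.2 ⟨hm₁ z hz, hm₂ z hz⟩, rfl⟩
      refine (card_le_card hsub).trans (card_image_le.trans (le_of_eq ?_))
      rw [card_product, Int.card_Icc, Int.card_Icc, sq]
      congr 1 <;> omega
    refine ⟨fun z => {w | g w = g z}, fun z z' h => ?_, fun S hS => ?_, fun _ => main⟩
    · have h2 : g z = g z' := by
        have : z ∈ {w | g w = g z'} := by
          rw [← show {w | g w = g z} = {w | g w = g z'} from h]
          rfl
        exact this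
      have a1 := Grid.abs_div_sub hr (Int.abs_sub_lt_one_of_floor_eq_floor (congrArg Prod.fst h2)).le
      have a2 := Grid.abs_div_sub hr (Int.abs_sub_lt_one_of_floor_eq_floor (congrArg Prod.snd h2)).le
      rw [hσ, h1, map_sub]
      refine (Complex.norm_le_abs_re_add_abs_im _).trans ?_
      rw [Complex.sub_re, Complex.sub_im]
      linarith
    · exact main 1 S (by simpa using hS)

/-- Shifted grids of side `L r`, shift `j r`: a short pair is cut for at most one shift in each of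
the four real coordinates. -/
theorem exists_shift (P : Pl K) (r₁ r₂ : ℝ) (h₁ : 0 < r₁) (h₂ : 0 < r₂) (L : ℕ) (hL : 0 < L) :
    ∃ lab : Fin L → K × K → Set (K × K),
      (∀ j p p', lab j p = lab j p' →
        P.abv (p.1 - p'.1) ≤ (if P.ar = 0 then 1 else 2 * (L : ℝ)) * r₁ ∧
        P.abv (p.2 - p'.2) ≤ (if P.ar = 0 then 1 else 2 * (L : ℝ)) * r₂) ∧
      (∀ p p', P.abv (p.1 - p'.1) ≤ r₁ → P.abv (p.2 - p'.2) ≤ r₂ →
        (univ.filter fun j => lab j p ≠ lab j p').card ≤ 4) := by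
  rcases P.kind with ⟨h0, hna⟩ | ⟨h1, σ, hσ⟩
  · refine ⟨fun _ p => {w | P.abv (p.1 - w.1) ≤ r₁ ∧ P.abv (p.2 - w.2) ≤ r₂},
      fun j p p' h => ?_, fun p p' a1 a2 => ?_⟩
    · have : p' ∈ {w : K × K | P.abv (p.1 - w.1) ≤ r₁ ∧ P.abv (p.2 - w.2) ≤ r₂} := by
        rw [show {w : K × K | P.abv (p.1 - w.1) ≤ r₁ ∧ P.abv (p.2 - w.2) ≤ r₂} =
          {w : K × K | P.abv (p'.1 - w.1) ≤ r₁ ∧ P.abv (p'.2 - w.2) ≤ r₂} from h]
        simpa using ⟨h₁.le, h₂.le⟩
      rw [if_pos h0, one_mul, one_mul]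
      exact this
    · rw [filter_false_of_mem]
      · simp
      · intro j _ hne
        exact hne (Set.ext fun w => and_congr (Grid.ball_eq hna a1 _) (Grid.ball_eq hna a2 _))
  · set g : Fin L → K × K → (ℤ × ℤ) × ℤ × ℤ := fun j p =>
      ((Grid.cell L j ((σ p.1).re / r₁), Grid.cell L j ((σ p.1).im / r₁)),
        (Grid.cell L j ((σ p.2).re / r₂), Grid.cell L j ((σ p.2).im / r₂))) with hg
    refine ⟨fun j p => {w | g j w = g j p}, fun j p p' h => ?_, fun p p' a1 a2 => ?_⟩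
    · have h2 : g j p = g j p' := by
        have : p ∈ {w | g j w = g j p'} := by
          rw [← show {w | g j w = g j p} = {w | g j w = g j p'} from h]
          rfl
        exact this
      have a1 := Grid.abs_div_sub h₁ (Grid.cell_close hL (congrArg (fun v => v.1.1) h2))
      have a2 := Grid.abs_div_sub h₁ (Grid.cell_close hL (congrArg (fun v => v.1.2) h2))
      have a3 := Grid.abs_div_sub h₂ (Grid.cell_close hL (congrArg (fun v => v.2.1) h2))
      have a4 := Grid.abs_div_sub h₂ (Grid.cell_close hL (congrArg (fun v => v.2.2) h2))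
      rw [if_neg (by rw [h1]; exact one_ne_zero), hσ, hσ, map_sub, map_sub]
      constructor
      · refine (Complex.norm_le_abs_re_add_abs_im _).trans ?_
        rw [Complex.sub_re, Complex.sub_im]
        linarith
      · refine (Complex.norm_le_abs_re_add_abs_im _).trans ?_
        rw [Complex.sub_re, Complex.sub_im]
        linarith
    · rw [hσ, map_sub] at a1 a2
      have b1 := Grid.cell_cut hL (Grid.abs_div_sub' (a := (σ p.1).re) (b := (σ p'.1).re) h₁
        (by rw [one_mul, ← Complex.sub_re]; exact (Complex.abs_re_le_norm _).trans a1))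
      have b2 := Grid.cell_cut hL (Grid.abs_div_sub' (a := (σ p.1).im) (b := (σ p'.1).im) h₁
        (by rw [one_mul, ← Complex.sub_im]; exact (Complex.abs_im_le_norm _).trans a1))
      have b3 := Grid.cell_cut hL (Grid.abs_div_sub' (a := (σ p.2).re) (b := (σ p'.2).re) h₂
        (by rw [one_mul, ← Complex.sub_re]; exact (Complex.abs_re_le_norm _).trans a2))
      have b4 := Grid.cell_cut hL (Grid.abs_div_sub' (a := (σ p.2).im) (b := (σ p'.2).im) h₂
        (by rw [one_mul, ← Complex.sub_im]; exact (Complex.abs_im_le_norm _).trans a2))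
      refine le_trans (card_le_card (t := _ ∪ _ ∪ _ ∪ _) fun j hj => ?_)
        (((card_union_le _ _).trans (add_le_add ((card_union_le _ _).trans
          (add_le_add ((card_union_le _ _).trans (add_le_add b1 b2)) b3)) b4)).trans (by norm_num))
      by_contra hn
      simp only [mem_union, mem_filter, mem_univ, true_and, not_or, not_not] at hn
      refine (mem_filter.1 hj).2 ?_
      have : g j p = g j p' := by
        simp only [hg, hn.1.1.1, hn.1.1.2, hn.1.2, hn.2]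
      simp only [this]

end Crest.Agent.R33
end

-- ▼ part PVc/R33/FrameEx
section

/-! Existence of frames. -/

set_option autoImplicit false

open Finset
open scoped Classical

namespace Crest.Agent.R33

namespace FrameEx
variable {α ι : Type} [Fintype α] [Fintype ι] [DecidableEq α] {β : ℝ} {E : ℕ}
  (M : Model α ι β E)

theorem quantile (f : α → ι → ℝ) {θ : ℝ} (h0 : 0 < θ) (h1 : θ ≤ 1) :
    ∃ t : ℝ, θ ≤ M.P (fun a q => t ≤ f a q) ∧ M.P (fun a q => t < f a q) < θ := by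
  obtain ⟨x, -, h2, h3⟩ := exists_wquantile (univ : Finset (α × ι)) (fun x => M.e x.1 x.2)
    (fun x => f x.1 x.2) (fun x _ => M.e_nonneg _ _) θ h0 (by
      rw [Fintype.sum_prod_type]
      exact h1.trans_eq M.sum_nu.symm)
  rw [Fintype.sum_prod_type] at h2 h3
  refine ⟨f x.1 x.2, ?_, ?_⟩
  · unfold Model.P
    convert h2
  · unfold Model.P
    convert h3

theorem exists_P_le {L : ℕ} (hL : 0 < L) (G : Fin L → α → ι → Prop) (k : ℕ)
    (h : ∀ a q, a ∈ M.C q → (univ.filter fun j => G j a q).card ≤ k) :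
    ∃ j, M.P (G j) ≤ k / L := by
  have h1 : ∑ j, M.P (G j) ≤ ∑ _j : Fin L, (k : ℝ) / L := by
    have h2 : ∑ _j : Fin L, (k : ℝ) / L = ∑ a, ∑ q, k * M.e a q := by
      have : (L : ℝ) ≠ 0 := by exact_mod_cast hL.ne'
      simp only [← mul_sum]
      rw [show ∑ a, ∑ q, M.e a q = 1 from M.sum_nu, sum_const, card_univ, Fintype.card_fin,
        nsmul_eq_mul]
      field_simp
    rw [h2]
    unfold Model.P
    rw [sum_comm]
    refine sum_le_sum fun a _ => ?_
    rw [sum_comm]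
    refine sum_le_sum fun q _ => ?_
    rw [← sum_filter, sum_const, nsmul_eq_mul]
    by_cases he : M.e a q = 0
    · simp [he]
    · refine mul_le_mul_of_nonneg_right ?_ (M.e_nonneg a q)
      exact_mod_cast h a q (M.mem_of_e_ne he)
  have : Nonempty (Fin L) := ⟨⟨0, hL⟩⟩
  obtain ⟨j, -, hj⟩ := exists_le_of_sum_le univ_nonempty h1
  exact ⟨j, hj⟩

theorem band {K : Type} [Field K] (P : Pl K) {p q : K × K} (h : Dd p q = 1) {lo hi : ℝ}
    (h1 : lo ≤ tau P p q) (h2 : tau P p q ≤ hi) :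
    P.abv (p.1 - q.1) ≤ Real.exp hi ∧ P.abv (p.2 - q.2) ≤ Real.exp (-lo) := by
  have h3 : P.abv (p.1 - q.1) * P.abv (p.2 - q.2) = 1 := by
    rw [← map_mul, show (p.1 - q.1) * (p.2 - q.2) = 1 from h, map_one]
  have h4 : 0 < P.abv (p.1 - q.1) :=
    (P.abv.nonneg _).lt_of_ne' (left_ne_zero_of_mul_eq_one h3)
  unfold tau at h1 h2
  refine ⟨(Real.log_le_iff_le_exp h4).1 h2, ?_⟩
  rw [eq_inv_of_mul_eq_one_right h3, Real.exp_neg]
  exact inv_anti₀ (Real.exp_pos _) ((Real.le_log_iff_exp_le h4).1 h1)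

end FrameEx

open FrameEx

/-- `lo`, `hi` are the `η/2`-quantiles of `tau` for the edge weights (`exists_wquantile`; `lo ≤ hi`
as `η < 1`).  `exists_shift` with `r₁ = e^hi`, `r₂ = e^{-lo}`, `L = ⌈4/η⌉`, a shift cutting
`≤ η` of the in-band edges, `cluster` with `δ = 2η`; `(ξ, ζ)` a point of the giant cell,
`c = 1` or `2L ≤ 10/η`. -/
theorem exists_frame : ∃ η₀ > 0, ∀ η : ℝ, 0 < η → η ≤ η₀ → ∀ (α ι : Type) [Fintype α]
    [Fintype ι] [DecidableEq α] (β : ℝ) (E : ℕ) (M : Model α ι β E) (K : Type) [Field K]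
    (R : Subring K) (G : Geo M R) (P : Pl K), β ≤ η → ∃ F : Frame P, GoodFrame G F η := by
  obtain ⟨δ₀, hδ₀, hcl⟩ := cluster
  refine ⟨min (δ₀ / 2) (1 / 2), lt_min (by positivity) (by norm_num), ?_⟩
  intro η hη hη0 α ι _ _ _ β E M K _ R G P hβ
  have hη1 : η ≤ δ₀ / 2 := hη0.trans (min_le_left _ _)
  have hη2 : η ≤ 1 / 2 := hη0.trans (min_le_right _ _)
  set τ : α → ι → ℝ := fun a q => tau P (G.pt a) (G.ctr q) with hτ
  obtain ⟨hi, hhi1, hhi2⟩ := quantile M τ (θ := η / 2) (by positivity) (by linarith)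
  obtain ⟨nlo, hlo1, hlo2⟩ := quantile M (fun a q => -τ a q) (θ := η / 2) (by positivity)
    (by linarith)
  obtain ⟨lo, rfl⟩ : ∃ lo, nlo = -lo := ⟨-nlo, (neg_neg _).symm⟩
  simp only [neg_le_neg_iff, neg_lt_neg_iff] at hlo1 hlo2
  have hout : M.P (fun a q => hi < τ a q ∨ τ a q < lo) ≤ η := by
    linarith [M.P_or_le (fun a q => hi < τ a q) (fun a q => τ a q < lo)]
  have hle : lo ≤ hi := by
    by_contra hc
    have h1 : M.P (fun _ _ => True) ≤ M.P (fun a q => hi < τ a q ∨ τ a q < lo) :=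
      M.P_mono fun a q _ _ => (lt_or_ge hi (τ a q)).imp_right fun h => h.trans_lt (not_le.1 hc)
    rw [M.P_true] at h1
    linarith
  set L : ℕ := ⌈4 / η⌉₊ with hLd
  have hL : 0 < L := Nat.ceil_pos.2 (by positivity)
  have hL0 : (0 : ℝ) < L := by exact_mod_cast hL
  have hL1 : (1 : ℝ) ≤ L := by exact_mod_cast hL
  have hL4 : ((4 : ℕ) : ℝ) / L ≤ η := by
    have : 4 / η ≤ L := Nat.le_ceil _
    rw [div_le_iff₀ hη] at this
    rw [div_le_iff₀ hL0]
    push_cast
    linarith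
  have hL5 : 2 * (L : ℝ) ≤ 10 / η := by
    have h1 : (L : ℝ) ≤ 4 / η + 1 := (Nat.ceil_lt_add_one (by positivity)).le
    have h2 : 1 ≤ 1 / η := by
      rw [le_div_iff₀ hη]
      linarith
    have h3 : 10 / η = 2 * (4 / η + 1 / η) := by ring
    linarith
  obtain ⟨lab, hlab1, hlab2⟩ := exists_shift P _ _ (Real.exp_pos hi) (Real.exp_pos (-lo)) L hL
  obtain ⟨j, hj⟩ := exists_P_le M hL (fun j a q => (lo ≤ τ a q ∧ τ a q ≤ hi) ∧
      lab j (G.pt a) ≠ lab j (G.ctr q)) 4 fun a q ha => by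
    by_cases hb : lo ≤ τ a q ∧ τ a q ≤ hi
    · obtain ⟨b1, b2⟩ := band P (G.unit q a ha) hb.1 hb.2
      refine le_trans (card_le_card fun j hj => ?_) (hlab2 _ _ b1 b2)
      simp only [mem_filter, mem_univ, true_and] at hj ⊢
      exact hj.2
    · simp [hb]
  have hcut : M.P (fun a q => lab j (G.pt a) ≠ lab j (G.ctr q)) ≤ 2 * η := by
    have h1 := M.P_or_le (fun a q => (lo ≤ τ a q ∧ τ a q ≤ hi) ∧ lab j (G.pt a) ≠ lab j (G.ctr q))
      (fun a q => hi < τ a q ∨ τ a q < lo)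
    have h2 : M.P (fun a q => lab j (G.pt a) ≠ lab j (G.ctr q)) ≤ M.P (fun a q =>
        ((lo ≤ τ a q ∧ τ a q ≤ hi) ∧ lab j (G.pt a) ≠ lab j (G.ctr q)) ∨
          (hi < τ a q ∨ τ a q < lo)) := M.P_mono fun a q _ h => by
      by_cases hb : hi < τ a q ∨ τ a q < lo
      · exact Or.inr hb
      · push Not at hb
        exact Or.inl ⟨⟨hb.2, hb.1⟩, h⟩
    linarith
  obtain ⟨i, hi9⟩ := hcl α ι β E M (Set (K × K)) (fun a => lab j (G.pt a))
    (fun q => lab j (G.ctr q)) (2 * η) (by linarith) (by linarith) hcut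
  obtain ⟨p₀, hp₀⟩ : ∃ p₀ : K × K, ∀ p, lab j p = i → lab j p = lab j p₀ := by
    by_cases h : ∃ p, lab j p = i
    · obtain ⟨p₀, h⟩ := h
      exact ⟨p₀, fun p hp => hp.trans h.symm⟩
    · exact ⟨0, fun p hp => absurd ⟨p, hp⟩ h⟩
  let F : Frame P := ⟨lo, hi, if P.ar = 0 then 1 else 2 * (L : ℝ), p₀.1, p₀.2, hle, by
    split_ifs <;> linarith⟩
  have hF : ∀ p, 0 < F.al p → lab j p ≠ i := fun p hp h =>
    hp.ne' ((F.al_eq_zero_iff p).2 (hlab1 j p p₀ (hp₀ p h)))
  refine ⟨F, ?_, hlo1, hhi1, ?_⟩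
  · have h1 := M.nuP_mono fun a => hF (G.pt a)
    have h2 := M.piP_mono fun q => hF (G.ctr q)
    linarith
  · change Real.log (if P.ar = 0 then 1 else 2 * (L : ℝ)) ≤ _
    rcases P.ar_cases with h | h
    · simp [h]
    · rw [h, if_neg one_ne_zero, one_mul]
      exact Real.log_le_log (by positivity) hL5

end Crest.Agent.R33
end

-- ▼ part PVc/R33/Heights
section

/-! Heights have light tails. -/

set_option autoImplicit false

open Finset
open scoped Classical

namespace Crest.Agent.R33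

variable {α ι : Type} [Fintype α] [Fintype ι] [DecidableEq α] {β : ℝ} {E : ℕ}

/-- A centre with `B + 12 H < hX q` has at most one point with `h ≤ H`, so `κ_q (H < h) ≥ 1/2`:
`piP_kap_le`, `muP_le`.  A point with `13 B + 144 H < h a` has at most one neighbour with
`hX ≤ B + 12 H` (`e_le`). -/
theorem heights_step (M : Model α ι β E) (hE : 1 ≤ E) (h : α → ℝ) (hX : ι → ℝ) (B H γ : ℝ)
    (hβ : β ≤ 1 / 10 ^ 12) (hγ : γ ≤ 1 / 10 ^ 12)
    (h1 : ∀ q, ∀ a ∈ M.C q, ∀ b ∈ M.C q, a ≠ b → hX q ≤ B + 6 * (h a + h b))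
    (h2 : ∀ a q q', q ≠ q' → a ∈ M.C q → a ∈ M.C q' → h a ≤ B + 6 * (hX q + hX q'))
    (hH : M.nuP (fun a => H < h a) ≤ γ) :
    M.piP (fun q => B + 12 * H < hX q) ≤ γ / 100 + β ∧
      M.nuP (fun a => 13 * B + 144 * H < h a) ≤ γ / 100 + 2 * β := by
  have hβ0 : 0 < β := M.β_pos
  have hγ0 : 0 ≤ γ := (M.nuP_nonneg _).trans hH
  have hpi : M.piP (fun q => B + 12 * H < hX q) ≤ γ / 100 + β := by
    set S : Finset α := univ.filter (fun a => H < h a) with hS
    have hmu : M.muP (· ∈ S) ≤ 4 * γ + β := by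
      have e1 : M.muP (· ∈ S) ≤ M.muP (fun a => H < h a) :=
        M.muP_mono (fun a ha => (mem_filter.1 ha).2)
      have e2 := M.muP_le (fun a => H < h a)
      linarith
    have hmu0 : 0 ≤ M.muP (· ∈ S) := M.muP_nonneg _
    have hsq : √(M.muP (· ∈ S)) ≤ 3 / 10 ^ 6 := by
      apply Real.sqrt_le_iff.2
      refine ⟨by norm_num, ?_⟩
      have : (3 / 10 ^ 6 : ℝ) ^ 2 = 9 / 10 ^ 12 := by norm_num
      rw [this]
      linarith
    have hk : ∀ q, B + 12 * H < hX q → (1 / 2 : ℝ) ≤ M.kap q S := by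
      intro q hq
      have hc := M.card_C_pos q
      have hb := M.big q
      have hone : (M.C q \ S).card ≤ 1 := by
        rw [card_le_one]
        intro a ha b hb
        by_contra hne
        rw [mem_sdiff] at ha hb
        have ha' : h a ≤ H := not_lt.1 fun hlt => ha.2 (mem_filter.2 ⟨mem_univ _, hlt⟩)
        have hb' : h b ≤ H := not_lt.1 fun hlt => hb.2 (mem_filter.2 ⟨mem_univ _, hlt⟩)
        have := h1 q a ha.1 b hb.1 hne
        linarith
      have hsum : (M.C q \ S).card + (M.C q ∩ S).card = (M.C q).card :=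
        card_sdiff_add_card_inter _ _
      have hsum' : ((M.C q).card : ℝ) ≤ 1 + ((M.C q ∩ S).card : ℝ) := by
        have : (M.C q).card ≤ 1 + (M.C q ∩ S).card := by omega
        exact_mod_cast this
      unfold Model.kap
      rw [le_div_iff₀ hc]
      have hb2 : β * (M.C q).card ≤ 1 / 2 * (M.C q).card :=
        mul_le_mul_of_nonneg_right (by linarith [show (1 / 10 ^ 12 : ℝ) ≤ 1 / 2 by norm_num]) hc.le
      linarith
    have e1 : M.piP (fun q => B + 12 * H < hX q) ≤ M.piP (fun q => (1 / 2 : ℝ) ≤ M.kap q S) :=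
      M.piP_mono hk
    have hβ6 : β ≤ 1 / 6 := by linarith [show (1 / 10 ^ 12 : ℝ) ≤ 1 / 6 by norm_num]
    have e2 := M.piP_kap_le S (1 / 2) (by linarith)
    have e3 : (1 / 3 : ℝ) ^ 4 ≤ (1 / 2 - β) ^ 4 := pow_le_pow_left₀ (by norm_num) (by linarith) 4
    have e4 := M.piP_nonneg (fun q => (1 / 2 : ℝ) ≤ M.kap q S)
    have e5 : M.muP (· ∈ S) * √(M.muP (· ∈ S)) ≤ (4 * γ + β) * (3 / 10 ^ 6) :=
      mul_le_mul hmu hsq (Real.sqrt_nonneg _) (by linarith)
    have e6 : (1 + β) * (M.muP (· ∈ S) * √(M.muP (· ∈ S))) ≤ 2 * ((4 * γ + β) * (3 / 10 ^ 6)) :=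
      mul_le_mul (by linarith) e5 (mul_nonneg hmu0 (Real.sqrt_nonneg _)) (by norm_num)
    have e7 := mul_le_mul_of_nonneg_left e3 e4
    linarith
  refine ⟨hpi, ?_⟩
  have e1 : M.P (fun a _ => 13 * B + 144 * H < h a) ≤
      M.P (fun a q => B + 12 * H < hX q ∨ (13 * B + 144 * H < h a ∧ hX q ≤ B + 12 * H)) := by
    apply M.P_mono
    intro a q _ ha
    by_cases hq : B + 12 * H < hX q
    · exact Or.inl hq
    · exact Or.inr ⟨ha, not_lt.1 hq⟩
  have e2 := M.P_or_le (fun _ q => B + 12 * H < hX q)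
    (fun a q => 13 * B + 144 * H < h a ∧ hX q ≤ B + 12 * H)
  rw [M.P_right (fun q => B + 12 * H < hX q)] at e2
  rw [M.P_left (fun a => 13 * B + 144 * H < h a)] at e1
  have hm := M.card_pos
  have e3 : M.P (fun a q => 13 * B + 144 * H < h a ∧ hX q ≤ B + 12 * H) ≤ β := by
    unfold Model.P
    refine le_trans (sum_le_sum (g := fun _ => β / Fintype.card α) fun a _ => ?_) ?_
    · have hle : ∀ q, M.e a q ≤ β / Fintype.card α := fun q => by
        rw [le_div_iff₀ hm]; exact M.e_le hE a q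
      by_cases hex : ∃ q, a ∈ M.C q ∧ 13 * B + 144 * H < h a ∧ hX q ≤ B + 12 * H
      · obtain ⟨q, hq, ha, hq'⟩ := hex
        rw [sum_eq_single q]
        · split_ifs
          · exact hle q
          · positivity
        · intro q' _ hne
          split_ifs with hc
          · by_contra hne0
            have := h2 a q' q hne (M.mem_of_e_ne hne0) hq
            linarith [hc.2]
          · rfl
        · intro hq; exact absurd (mem_univ q) hq
      · rw [sum_eq_zero]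
        · positivity
        · intro q _
          split_ifs with hc
          · by_contra hne0
            exact hex ⟨q, M.mem_of_e_ne hne0, hc⟩
          · rfl
    · rw [sum_const, card_univ, nsmul_eq_mul, mul_div_cancel₀ _ hm.ne']
  linarith

theorem heights_iter (M : Model α ι β E) (hE : 1 ≤ E) (h : α → ℝ) (hX : ι → ℝ) (B H γ : ℝ)
    (hB : 0 ≤ B) (hH0 : 0 ≤ H) (hγ : γ + 3 * β ≤ 1 / 10 ^ 12)
    (h1 : ∀ q, ∀ a ∈ M.C q, ∀ b ∈ M.C q, a ≠ b → hX q ≤ B + 6 * (h a + h b))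
    (h2 : ∀ a q q', q ≠ q' → a ∈ M.C q → a ∈ M.C q' → h a ≤ B + 6 * (hX q + hX q'))
    (hH : M.nuP (fun a => H < h a) ≤ γ) (j : ℕ) :
    M.nuP (fun a => 200 ^ j * (H + B) < h a) ≤ γ / 100 ^ j + 3 * β ∧
      M.piP (fun q => 13 * (200 ^ j * (H + B)) < hX q) ≤ γ / 100 ^ j + 3 * β := by
  have hβ0 : 0 < β := M.β_pos
  have hγ0 : 0 ≤ γ := (M.nuP_nonneg _).trans hH
  have hg : ∀ i : ℕ, γ / 100 ^ i ≤ γ := fun i =>
    div_le_self hγ0 (one_le_pow₀ (by norm_num))
  have hg0 : ∀ i : ℕ, 0 ≤ γ / 100 ^ i := fun i => by positivity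
  have hHB : ∀ i : ℕ, B ≤ 200 ^ i * (H + B) := fun i => by
    have : (1 : ℝ) ≤ 200 ^ i := one_le_pow₀ (by norm_num)
    nlinarith
  have hA : ∀ i : ℕ, M.nuP (fun a => 200 ^ i * (H + B) < h a) ≤ γ / 100 ^ i + 3 * β := by
    intro i
    induction i with
    | zero =>
      refine le_trans (M.nuP_mono (G' := fun a => H < h a)
        (fun a ha => by rw [pow_zero] at ha; linarith)) ?_
      rw [pow_zero (100 : ℝ)]
      linarith
    | succ i ih =>
      have hs := (heights_step M hE h hX B (200 ^ i * (H + B)) (γ / 100 ^ i + 3 * β)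
        (by linarith) (by linarith [hg i]) h1 h2 ih).2
      have : M.nuP (fun a => 200 ^ (i + 1) * (H + B) < h a) ≤
          M.nuP (fun a => 13 * B + 144 * (200 ^ i * (H + B)) < h a) :=
        M.nuP_mono (fun a ha => by
          rw [pow_succ] at ha
          linarith [hHB i])
      have e : γ / 100 ^ (i + 1) = γ / 100 ^ i / 100 := by rw [pow_succ, div_div]
      rw [e]
      linarith
  refine ⟨hA j, ?_⟩
  have hs := (heights_step M hE h hX B (200 ^ j * (H + B)) (γ / 100 ^ j + 3 * β)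
    (by linarith) (by linarith [hg j]) h1 h2 (hA j)).1
  have : M.piP (fun q => 13 * (200 ^ j * (H + B)) < hX q) ≤
      M.piP (fun q => B + 12 * (200 ^ j * (H + B)) < hX q) :=
    M.piP_mono (fun q hq => by linarith [hHB j])
  linarith [hg0 j]

end Crest.Agent.R33
end

-- ▼ part PVc/R33/GainSets
section

/-! From cells to sets. -/

set_option autoImplicit false

open Finset
open scoped Classical

namespace Crest.Agent.R33

/-- From cells to sets.  Points refined: `S q` = points of `E₁` whose cell contains a point of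
`E₁ ∩ C q` (at most `2^n` different sets). -/
theorem gain_of_points {α ι : Type} [Fintype α] [Fintype ι] [DecidableEq α] {β : ℝ} {E : ℕ}
    {M : Model α ι β E} {K : Type} [Field K] {R : Subring K} (G : Geo M R) {P : Pl K}
    (F : Frame P) (E₁ : Finset α) (T : Type) (lab : α → T) (n : ℕ)
    (hn : (E₁.image lab).card ≤ n) (h0 : ∀ a ∈ E₁, F.al (G.pt a) = 0) (s g : ℝ) (hs : 0 ≤ s)
    (hg : 0 ≤ g) (hd : ∀ a ∈ E₁, ∀ a' ∈ E₁, lab a = lab a' →
      P.abv ((G.pt a).1 - (G.pt a').1) ≤ F.Rx * Real.exp (s - g) ∧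
      P.abv ((G.pt a).2 - (G.pt a').2) ≤ F.Ry * Real.exp (s - g)) :
    ∃ S : ι → Finset α, (univ.image S).card ≤ 2 ^ n ∧
      ∑ a ∈ E₁, M.nu a ≤ ∑ q, M.π q * M.kap q (S q) ∧
      ∀ q, ∀ a ∈ S q, Dd (G.pt a) (G.ctr q) ≠ 1 → Real.log (P.abv (Dd (G.pt a) (G.ctr q) - 1)) ≤
        2 * F.wid + 2 * s + F.al (G.pt a) + F.al (G.ctr q) + 3 * P.ar - g := by
  refine ⟨fun q => E₁.filter fun a => lab a ∈ (E₁ ∩ M.C q).image lab, ?_, ?_, ?_⟩
  · have h1 : (univ.image fun q => E₁.filter fun a => lab a ∈ (E₁ ∩ M.C q).image lab) ⊆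
        (E₁.image lab).powerset.image fun L => E₁.filter fun a => lab a ∈ L := by
      intro S hS
      obtain ⟨q, -, rfl⟩ := mem_image.mp hS
      exact mem_image.mpr ⟨_, mem_powerset.mpr (image_subset_image inter_subset_left), rfl⟩
    refine (card_le_card h1).trans (card_image_le.trans ?_)
    rw [card_powerset]
    exact Nat.pow_le_pow_right (by norm_num) hn
  · unfold Model.nu
    rw [sum_comm]
    refine sum_le_sum fun q _ => ?_
    rw [M.sum_e_mem]
    refine mul_le_mul_of_nonneg_left ?_ (M.π_pos q).le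
    unfold Model.kap
    refine div_le_div_of_nonneg_right (Nat.cast_le.mpr (card_le_card fun a ha => ?_))
      (Nat.cast_nonneg _)
    obtain ⟨h1, h2⟩ := mem_inter.mp ha
    exact mem_inter.mpr ⟨h1, mem_filter.mpr ⟨h2, mem_image_of_mem _ (mem_inter.mpr ⟨h2, h1⟩)⟩⟩
  · intro q a ha hD
    obtain ⟨h1, h2⟩ := mem_filter.mp ha
    obtain ⟨a', h3, h4⟩ := mem_image.mp h2
    obtain ⟨h5, h6⟩ := mem_inter.mp h3
    obtain ⟨hx, hy⟩ := hd a h1 a' h5 h4.symm
    have h7 := F.gain (h0 a' h5) (G.unit q a' h6) s g hs hg hx hy hD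
    have h8 := F.al_nonneg (G.pt a)
    linarith

/-- Centres refined: for `q ∈ E₁`, `S q` = union of the classes of the `q' ∈ E₁` in the cell of
`q`; `S q = ∅` otherwise. -/
theorem gain_of_centres {α ι : Type} [Fintype α] [Fintype ι] [DecidableEq α] {β : ℝ} {E : ℕ}
    {M : Model α ι β E} {K : Type} [Field K] {R : Subring K} (G : Geo M R) {P : Pl K}
    (F : Frame P) (E₁ : Finset ι) (T : Type) (lab : ι → T) (n : ℕ)
    (hn : (E₁.image lab).card ≤ n) (h0 : ∀ q ∈ E₁, F.al (G.ctr q) = 0) (s g : ℝ) (hs : 0 ≤ s)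
    (hg : 0 ≤ g) (hd : ∀ q ∈ E₁, ∀ q' ∈ E₁, lab q = lab q' →
      P.abv ((G.ctr q).1 - (G.ctr q').1) ≤ F.Rx * Real.exp (s - g) ∧
      P.abv ((G.ctr q).2 - (G.ctr q').2) ≤ F.Ry * Real.exp (s - g)) :
    ∃ S : ι → Finset α, (univ.image S).card ≤ n + 1 ∧
      ∑ q ∈ E₁, M.π q ≤ ∑ q, M.π q * M.kap q (S q) ∧
      ∀ q, ∀ a ∈ S q, Dd (G.pt a) (G.ctr q) ≠ 1 → Real.log (P.abv (Dd (G.pt a) (G.ctr q) - 1)) ≤
        2 * F.wid + 2 * s + F.al (G.pt a) + F.al (G.ctr q) + 3 * P.ar - g := by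
  refine ⟨fun q => if q ∈ E₁ then (E₁.filter fun q' => lab q' = lab q).biUnion M.C else ∅,
    ?_, ?_, ?_⟩
  · have h1 : (univ.image fun q =>
        if q ∈ E₁ then (E₁.filter fun q' => lab q' = lab q).biUnion M.C else ∅) ⊆
        insert ∅ ((E₁.image lab).image fun t => (E₁.filter fun q' => lab q' = t).biUnion M.C) := by
      intro S hS
      obtain ⟨q, -, rfl⟩ := mem_image.mp hS
      by_cases hq : q ∈ E₁
      · rw [if_pos hq]
        exact mem_insert_of_mem (mem_image.mpr ⟨lab q, mem_image_of_mem _ hq, rfl⟩)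
      · rw [if_neg hq]
        exact mem_insert_self _ _
    refine (card_le_card h1).trans ((card_insert_le _ _).trans ?_)
    exact Nat.add_le_add_right (card_image_le.trans hn) 1
  · refine le_trans (sum_le_sum fun q hq => ?_)
      (sum_le_sum_of_subset_of_nonneg (subset_univ E₁) fun q _ _ =>
        mul_nonneg (M.π_pos q).le (M.kap_nonneg _ _))
    have h1 : M.C q ⊆ (E₁.filter fun q' => lab q' = lab q).biUnion M.C :=
      subset_biUnion_of_mem M.C (mem_filter.mpr ⟨hq, rfl⟩)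
    simp only [if_pos hq]
    unfold Model.kap
    rw [inter_eq_left.mpr h1, div_self (M.card_C_pos q).ne', mul_one]
  · intro q a ha hD
    by_cases hq : q ∈ E₁
    · simp only [if_pos hq] at ha
      obtain ⟨q', h1, h2⟩ := mem_biUnion.mp ha
      obtain ⟨h3, h4⟩ := mem_filter.mp h1
      obtain ⟨hx, hy⟩ := hd q hq q' h3 h4.symm
      rw [Dd_comm] at hD ⊢
      have h7 := F.gain (h0 q' h3) ((Dd_comm _ _).trans (G.unit q' a h2)) s g hs hg hx hy hD
      have h8 := F.al_nonneg (G.ctr q)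
      linarith
    · simp [if_neg hq] at ha

end Crest.Agent.R33
end

-- ▼ part PVc/R33/Mixed
section

/-! Mixed vertices. -/

set_option autoImplicit false

open Finset
open scoped Classical

namespace Crest.Agent.R33

theorem mixed_left {α ι : Type} [Fintype α] [Fintype ι] [DecidableEq α] {β : ℝ} {E : ℕ}
    (M : Model α ι β E) (G : α → Prop) (c : α → ι → Prop) {b : ℝ} (hb : 0 ≤ b)
    (h : ∀ a, G a → ¬ b * ∑ q, M.e a q ≤ ∑ q, if c a q then M.e a q else 0) :
    M.P (fun a q => G a ∧ c a q) ≤ b := by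
  have h1 : ∑ a, b * M.nu a = b := by rw [← mul_sum, M.sum_nu, mul_one]
  rw [← h1, Model.P]
  refine sum_le_sum fun a _ => ?_
  by_cases hG : G a
  · refine le_trans (le_of_eq ?_) (not_le.1 (h a hG)).le
    exact sum_congr rfl fun q _ => by simp [hG]
  · simpa [hG] using mul_nonneg hb (M.nu_nonneg a)

theorem mixed_right {α ι : Type} [Fintype α] [Fintype ι] [DecidableEq α] {β : ℝ} {E : ℕ}
    (M : Model α ι β E) (G : ι → Prop) (c : α → ι → Prop) {b : ℝ} (hb : 0 ≤ b)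
    (h : ∀ q, G q → ¬ b * ∑ a, M.e a q ≤ ∑ a, if c a q then M.e a q else 0) :
    M.P (fun a q => G q ∧ c a q) ≤ b := by
  have h1 : ∑ q, b * M.π q = b := by rw [← mul_sum, M.π_sum, mul_one]
  rw [← h1, Model.P, sum_comm]
  refine sum_le_sum fun q _ => ?_
  by_cases hG : G q
  · rw [← M.sum_e q]
    refine le_trans (le_of_eq ?_) (not_le.1 (h q hG)).le
    exact sum_congr rfl fun a _ => by simp [hG]
  · simpa [hG] using mul_nonneg hb (M.π_pos q).le

theorem mixed_rare {α ι : Type} [Fintype α] [Fintype ι] [DecidableEq α] {β : ℝ} {E : ℕ}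
    (M : Model α ι β E) (S : α → Prop) (S' : ι → Prop) (c : α → ι → Prop) {η : ℝ} (h0 : 0 < η)
    (h1 : η ≤ 1 / 10 ^ 40) (hβ : β ≤ η) (hS : M.nuP S + M.piP S' ≤ 41 * η)
    (ha : M.P (fun a q => ¬ S a ∧ c a q) ≤ η / 100)
    (hq : M.P (fun a q => ¬ S' q ∧ c a q) ≤ η / 100) : M.P c < η / 2 := by
  have e1 := M.nuP_nonneg S
  have e2 := M.piP_nonneg S'
  have e3 := M.muP_le S
  have e4 := M.expand (by linarith) S S' (1 / 1000) (by linarith) (by linarith)
  have e5 := M.P_mono (G := c) (G' := fun a q => (S a ∧ S' q) ∨ (¬ S a ∧ c a q) ∨ (¬ S' q ∧ c a q))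
    fun a q _ h => by tauto
  have e6 := M.P_or_le (fun a q => S a ∧ S' q) fun a q => (¬ S a ∧ c a q) ∨ (¬ S' q ∧ c a q)
  have e7 := M.P_or_le (fun a q => ¬ S a ∧ c a q) fun a q => ¬ S' q ∧ c a q
  linarith

/-- Otherwise label the non-mixed giant vertices `L` or `H` (`H` if the low fraction is
`< η/100`), the other points `⊥₁` and the other centres `⊥₂`; the mismatch is `≤ 10η`; `cluster`
gives a label, which is `L` or `H`; `expand` with `l = 1/1000` makes the other colour rarer than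
`η/2`. -/
theorem mixed : ∃ η₀ > 0, ∀ η : ℝ, 0 < η → η ≤ η₀ → ∀ (α ι : Type) [Fintype α]
    [Fintype ι] [DecidableEq α] (β : ℝ) (E : ℕ) (M : Model α ι β E) (low high : α → ι → Prop)
    (gY : α → Prop) (gX : ι → Prop), β ≤ η →
    M.nuP (fun a => ¬gY a) + M.piP (fun q => ¬gX q) ≤ 9 * η → η / 2 ≤ M.P low →
    η / 2 ≤ M.P high → M.P (fun a q => ¬low a q ∧ ¬high a q) ≤ η / 100 →
    η / 100 ≤ M.nuP (fun a => gY a ∧
        η / 100 * ∑ q, M.e a q ≤ (∑ q, if low a q then M.e a q else 0) ∧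
        η / 100 * ∑ q, M.e a q ≤ ∑ q, if high a q then M.e a q else 0) ∨
      η / 100 ≤ M.piP (fun q => gX q ∧
        η / 100 * ∑ a, M.e a q ≤ (∑ a, if low a q then M.e a q else 0) ∧
        η / 100 * ∑ a, M.e a q ≤ ∑ a, if high a q then M.e a q else 0) := by
  obtain ⟨δ₀, hδ₀, hcl⟩ := cluster
  refine ⟨min (δ₀ / 10) (1 / 10 ^ 40), by positivity, ?_⟩
  intro η h0 h1 α ι _ _ _ β E M low high gY gX hβ hout hlo hhi hno
  have h1a : η ≤ δ₀ / 10 := h1.trans (min_le_left _ _)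
  have h1b : η ≤ 1 / 10 ^ 40 := h1.trans (min_le_right _ _)
  have hb : 0 ≤ η / 100 := by positivity
  by_contra hcon
  rw [not_or, not_le, not_le] at hcon
  obtain ⟨hY, hX⟩ := hcon
  obtain ⟨lY, elY⟩ : ∃ p : α → Prop, ∀ a, p a ↔
    η / 100 * ∑ q, M.e a q ≤ ∑ q, if low a q then M.e a q else 0 := ⟨_, fun _ => Iff.rfl⟩
  obtain ⟨hiY, ehY⟩ : ∃ p : α → Prop, ∀ a, p a ↔
    η / 100 * ∑ q, M.e a q ≤ ∑ q, if high a q then M.e a q else 0 := ⟨_, fun _ => Iff.rfl⟩
  obtain ⟨lX, elX⟩ : ∃ p : ι → Prop, ∀ q, p q ↔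
    η / 100 * ∑ a, M.e a q ≤ ∑ a, if low a q then M.e a q else 0 := ⟨_, fun _ => Iff.rfl⟩
  obtain ⟨hiX, ehX⟩ : ∃ p : ι → Prop, ∀ q, p q ↔
    η / 100 * ∑ a, M.e a q ≤ ∑ a, if high a q then M.e a q else 0 := ⟨_, fun _ => Iff.rfl⟩
  simp only [← elY, ← ehY] at hY
  simp only [← elX, ← ehX] at hX
  let f : α → ℕ := fun a => if gY a ∧ lY a ∧ ¬ hiY a then 0 else if gY a ∧ ¬ lY a then 1 else 2
  let g : ι → ℕ := fun q => if gX q ∧ lX q ∧ ¬ hiX q then 0 else if gX q ∧ ¬ lX q then 1 else 3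
  have hf : ∀ a, (f a = 0 ∧ ¬ hiY a) ∨ (f a = 1 ∧ ¬ lY a) ∨
      (f a = 2 ∧ (¬ gY a ∨ (gY a ∧ lY a ∧ hiY a))) := fun a => by
    simp only [f]
    split_ifs <;> tauto
  have hg : ∀ q, (g q = 0 ∧ ¬ hiX q) ∨ (g q = 1 ∧ ¬ lX q) ∨
      (g q = 3 ∧ (¬ gX q ∨ (gX q ∧ lX q ∧ hiX q))) := fun q => by
    simp only [g]
    split_ifs <;> tauto
  have a1 := mixed_left M (fun a => ¬ hiY a) high hb fun a h => by rwa [← ehY]
  have a2 := mixed_left M (fun a => ¬ lY a) low hb fun a h => by rwa [← elY]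
  have a3 := mixed_right M (fun q => ¬ hiX q) high hb fun q h => by rwa [← ehX]
  have a4 := mixed_right M (fun q => ¬ lX q) low hb fun q h => by rwa [← elX]
  have hmis : M.P (fun a q => f a ≠ g q) ≤ 10 * η := by
    have b0 := M.P_mono (G := fun a q => f a ≠ g q) (G' := fun a q =>
      (((¬ gY a) ∨ (gY a ∧ lY a ∧ hiY a)) ∨ ((¬ gX q) ∨ (gX q ∧ lX q ∧ hiX q))) ∨
      ((((¬ hiY a ∧ high a q) ∨ (¬ lY a ∧ low a q)) ∨
        ((¬ hiX q ∧ high a q) ∨ (¬ lX q ∧ low a q))) ∨ (¬ low a q ∧ ¬ high a q)))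
      fun a q _ h => by
        rcases hf a with ⟨e, h'⟩ | ⟨e, h'⟩ | ⟨e, h'⟩ <;>
          rcases hg q with ⟨e', h''⟩ | ⟨e', h''⟩ | ⟨e', h''⟩ <;>
          first
            | exact absurd (e.trans e'.symm) h
            | exact .inl (.inl h')
            | exact .inl (.inr h'')
            | (refine .inr ?_
               by_cases c1 : low a q <;> by_cases c2 : high a q <;> simp [h', h'', c1, c2])
    refine b0.trans ((M.P_or_le _ _).trans ?_)
    have b1 := M.P_or_le (fun a (_ : ι) => (¬ gY a) ∨ (gY a ∧ lY a ∧ hiY a))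
      fun _ q => (¬ gX q) ∨ (gX q ∧ lX q ∧ hiX q)
    have b2 := M.P_or_le (fun a (_ : ι) => ¬ gY a) fun a _ => gY a ∧ lY a ∧ hiY a
    have b3 := M.P_or_le (fun (_ : α) q => ¬ gX q) fun _ q => gX q ∧ lX q ∧ hiX q
    have b4 := M.P_or_le (fun a q => ((¬ hiY a ∧ high a q) ∨ (¬ lY a ∧ low a q)) ∨
        ((¬ hiX q ∧ high a q) ∨ (¬ lX q ∧ low a q))) fun a q => ¬ low a q ∧ ¬ high a q
    have b5 := M.P_or_le (fun a q => (¬ hiY a ∧ high a q) ∨ (¬ lY a ∧ low a q))
      fun a q => (¬ hiX q ∧ high a q) ∨ (¬ lX q ∧ low a q)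
    have b6 := M.P_or_le (fun a q => ¬ hiY a ∧ high a q) fun a q => ¬ lY a ∧ low a q
    have b7 := M.P_or_le (fun a q => ¬ hiX q ∧ high a q) fun a q => ¬ lX q ∧ low a q
    rw [M.P_left (fun a => ¬ gY a), M.P_left (fun a => gY a ∧ lY a ∧ hiY a)] at b2
    rw [M.P_right (fun q => ¬ gX q), M.P_right (fun q => gX q ∧ lX q ∧ hiX q)] at b3
    linarith
  obtain ⟨i, hi⟩ := hcl α ι β E M ℕ f g (10 * η) (by linarith) (by linarith) hmis
  have hi' : M.nuP (fun a => f a ≠ i) + M.piP (fun q => g q ≠ i) ≤ 41 * η := by linarith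
  have n1 := M.nuP_nonneg fun a => f a ≠ i
  have n2 := M.piP_nonneg fun q => g q ≠ i
  by_cases i0 : i = 0
  · subst i0
    refine absurd (mixed_rare M _ _ high h0 h1b hβ hi' (le_trans (M.P_mono ?_) a1)
      (le_trans (M.P_mono ?_) a3)) (not_lt.2 hhi)
    · rintro a q - ⟨h, h'⟩
      refine ⟨?_, h'⟩
      rcases hf a with ⟨e, h''⟩ | ⟨e, h''⟩ | ⟨e, h''⟩ <;> first | exact h'' | simp [e] at h
    · rintro a q - ⟨h, h'⟩
      refine ⟨?_, h'⟩
      rcases hg q with ⟨e, h''⟩ | ⟨e, h''⟩ | ⟨e, h''⟩ <;> first | exact h'' | simp [e] at h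
  by_cases i1 : i = 1
  · subst i1
    refine absurd (mixed_rare M _ _ low h0 h1b hβ hi' (le_trans (M.P_mono ?_) a2)
      (le_trans (M.P_mono ?_) a4)) (not_lt.2 hlo)
    · rintro a q - ⟨h, h'⟩
      refine ⟨?_, h'⟩
      rcases hf a with ⟨e, h''⟩ | ⟨e, h''⟩ | ⟨e, h''⟩ <;> first | exact h'' | simp [e] at h
    · rintro a q - ⟨h, h'⟩
      refine ⟨?_, h'⟩
      rcases hg q with ⟨e, h''⟩ | ⟨e, h''⟩ | ⟨e, h''⟩ <;> first | exact h'' | simp [e] at h
  by_cases i2 : i = 2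
  · have := M.P_mono (G := fun _ _ => True) (G' := fun _ q => g q ≠ i) fun a q _ _ => by
      rcases hg q with ⟨e, -⟩ | ⟨e, -⟩ | ⟨e, -⟩ <;> omega
    rw [M.P_true, M.P_right] at this
    linarith
  · have := M.P_mono (G := fun _ _ => True) (G' := fun a _ => f a ≠ i) fun a q _ _ => by
      rcases hf a with ⟨e, -⟩ | ⟨e, -⟩ | ⟨e, -⟩ <;> omega
    rw [M.P_true, M.P_left] at this
    linarith

end Crest.Agent.R33
end

-- ▼ part PVc/R33/Heavy
section

/-! Heavy cells. -/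

set_option autoImplicit false

open Finset
open scoped Classical

namespace Crest.Agent.R33

theorem heavy_fiber_le {L T : Type} [Fintype L] (lab : L → T) (w : L → ℝ) (hw : ∀ z, 0 ≤ w z)
    (J : Finset T) : ∑ t ∈ J, ∑ z, (if lab z = t then w z else 0) ≤ ∑ z, w z := by
  rw [Finset.sum_comm]
  refine Finset.sum_le_sum fun z _ => ?_
  rw [Finset.sum_ite_eq]
  split_ifs
  · exact le_rfl
  · exact hw z

theorem heavy_exists {L T : Type} [Fintype L] (lab : L → T) (w : L → ℝ) (hw : ∀ z, 0 ≤ w z)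
    (h1 : ∑ z, w z ≤ 1) {σ : ℝ} (hσ : 0 < σ) :
    ∃ H J : Finset T, H.card ≤ ⌈1 / σ⌉₊ ∧ (∀ z, lab z ∉ H → lab z ∈ J) ∧
      ∀ t ∈ J, ∑ z, (if lab z = t then w z else 0) ≤ σ := by
  refine ⟨(univ.image lab).filter (fun t => σ < ∑ z, (if lab z = t then w z else 0)),
    (univ.image lab).filter (fun t => ∑ z, (if lab z = t then w z else 0) ≤ σ), ?_, ?_, ?_⟩
  · set H := (univ.image lab).filter (fun t => σ < ∑ z, (if lab z = t then w z else 0)) with hH
    have h2 : (H.card : ℝ) * σ ≤ 1 := by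
      calc (H.card : ℝ) * σ = ∑ _t ∈ H, σ := by rw [Finset.sum_const, nsmul_eq_mul]
        _ ≤ ∑ t ∈ H, ∑ z, (if lab z = t then w z else 0) :=
            Finset.sum_le_sum fun t ht => (Finset.mem_filter.1 ht).2.le
        _ ≤ 1 := (heavy_fiber_le lab w hw H).trans h1
    have h3 : (H.card : ℝ) ≤ (⌈1 / σ⌉₊ : ℝ) :=
      ((le_div_iff₀ hσ).2 h2).trans (Nat.le_ceil _)
    exact_mod_cast h3
  · intro z hz
    have hm : lab z ∈ univ.image lab := Finset.mem_image_of_mem lab (mem_univ z)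
    refine Finset.mem_filter.2 ⟨hm, not_lt.1 fun h => hz (Finset.mem_filter.2 ⟨hm, h⟩)⟩
  · intro t ht
    exact (Finset.mem_filter.1 ht).2

section
variable {α ι : Type} [Fintype α] [Fintype ι] [DecidableEq α] {β : ℝ} {E : ℕ}
  (M : Model α ι β E)

theorem heavy_muP (G : α → Prop) :
    M.muP G = ∑ a, if G a then (Fintype.card α : ℝ)⁻¹ else 0 := by
  unfold Model.muP
  rw [← Finset.sum_filter, Finset.sum_const, nsmul_eq_mul, div_eq_mul_inv]

include M in
theorem heavy_sum_inv : ∑ _a : α, (Fintype.card α : ℝ)⁻¹ = 1 := by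
  rw [Finset.sum_const, nsmul_eq_mul, Finset.card_univ, mul_inv_cancel₀ M.card_pos.ne']

theorem heavy_points (hβ : β ≤ 1) {l σ : ℝ} (hl0 : 0 < l) (hl : 2 * β ≤ l) (hσ : 0 < σ)
    (hσl : σ ≤ l ^ 10 / 1024) : Heavy M.e l ⌈1 / σ⌉₊ := by
  intro T lab
  have hw : ∀ _a : α, 0 ≤ (Fintype.card α : ℝ)⁻¹ := fun _ => by positivity
  obtain ⟨H, J, hH, hJ, hs⟩ := heavy_exists lab (fun _ => (Fintype.card α : ℝ)⁻¹) hw
    (heavy_sum_inv M).le hσ
  refine ⟨H, hH, ?_⟩
  have hmu : ∀ t, M.muP (fun a => lab a = t) =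
      ∑ a, if lab a = t then (Fintype.card α : ℝ)⁻¹ else 0 := fun t => by
    rw [heavy_muP]
  calc _ ≤ ∑ a, ∑ q, ∑ t ∈ J,
        (if l ≤ M.kap q (univ.filter fun a => lab a = t) then
          (if lab a = t then M.e a q else 0) else 0) := by
        refine Finset.sum_le_sum fun a _ => Finset.sum_le_sum fun q _ => ?_
        have hnn : ∀ t ∈ J, 0 ≤ (if l ≤ M.kap q (univ.filter fun a => lab a = t) then
            (if lab a = t then M.e a q else 0) else 0) := fun t _ => by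
          split_ifs
          · exact M.e_nonneg a q
          · exact le_rfl
          · exact le_rfl
        split_ifs with h
        · refine le_trans ?_ (Finset.single_le_sum hnn (hJ a h.1))
          have h2 := h.2
          rw [M.sum_e, ← Finset.sum_filter, M.sum_e_mem, mul_comm] at h2
          have h3 := le_of_mul_le_mul_left h2 (M.π_pos q)
          rw [if_pos h3, if_pos rfl]
        · exact Finset.sum_nonneg hnn
    _ = ∑ t ∈ J, ∑ q, ∑ a,
        (if l ≤ M.kap q (univ.filter fun a => lab a = t) then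
          (if lab a = t then M.e a q else 0) else 0) := by
        rw [Finset.sum_comm]
        simp_rw [Finset.sum_comm (s := (univ : Finset α)) (t := J)]
        rw [Finset.sum_comm]
    _ ≤ ∑ t ∈ J, M.piP (fun q => l ≤ M.kap q (univ.filter fun a => lab a = t)) := by
        refine Finset.sum_le_sum fun t _ => ?_
        unfold Model.piP
        refine Finset.sum_le_sum fun q _ => ?_
        by_cases h : l ≤ M.kap q (univ.filter fun a => lab a = t)
        · simp only [if_pos h]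
          rw [← M.sum_e q]
          refine Finset.sum_le_sum fun a _ => ?_
          split_ifs
          · exact le_rfl
          · exact M.e_nonneg a q
        · simp only [if_neg h]
          simp
    _ ≤ ∑ t ∈ J, l * M.muP (fun a => lab a = t) := by
        refine Finset.sum_le_sum fun t ht => ?_
        have := M.piP_kap_small hβ (fun a => lab a = t) l hl (by
          rw [hmu]; exact (hs t ht).trans hσl)
        convert this
    _ ≤ l := by
        rw [← Finset.mul_sum]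
        refine mul_le_of_le_one_right hl0.le ?_
        simp_rw [hmu]
        exact (heavy_fiber_le lab _ hw J).trans (heavy_sum_inv M).le

theorem heavy_centres (hβ : β ≤ 1) {l σ : ℝ} (hl0 : 0 < l) (hl1 : l ≤ 1)
    (hl : 2 * β ≤ l ^ 2 / 2) (hσ : 0 < σ)
    (hσl : 4 * (σ / l) + β ≤ (l ^ 2 / 2) ^ 10 / 1024) :
    Heavy (fun q a => M.e a q) l ⌈1 / σ⌉₊ := by
  intro T lab
  obtain ⟨H, J, hH, hJ, hs⟩ := heavy_exists lab M.π (fun q => (M.π_pos q).le) M.π_sum.le hσ
  refine ⟨H, hH, ?_⟩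
  set Y : T → α → Prop := fun t a =>
    0 < M.nu a ∧ l * M.nu a ≤ ∑ q', (if lab q' = t then M.e a q' else 0) with hY
  have hpi : ∀ t, M.piP (fun q => lab q = t) = ∑ q, if lab q = t then M.π q else 0 := fun t => by
    unfold Model.piP
    congr
  have hnn' : ∀ t a, 0 ≤ ∑ q', (if lab q' = t then M.e a q' else 0) := fun t a =>
    Finset.sum_nonneg fun q' _ => by
      split_ifs
      · exact M.e_nonneg a q'
      · exact le_rfl
  have hnu : ∀ t ∈ J, M.nuP (Y t) ≤ σ / l := by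
    intro t ht
    rw [le_div_iff₀ hl0]
    refine le_trans ?_ (hs t ht)
    unfold Model.nuP
    calc _ ≤ ∑ a, ∑ q', (if lab q' = t then M.e a q' else 0) := by
          rw [Finset.sum_mul]
          refine Finset.sum_le_sum fun a _ => ?_
          split_ifs with h
          · rw [mul_comm]; exact h.2
          · rw [zero_mul]; exact hnn' t a
      _ = ∑ q, if lab q = t then M.π q else 0 := by
          rw [Finset.sum_comm]
          refine Finset.sum_congr rfl fun q _ => ?_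
          split_ifs
          · exact M.sum_e q
          · simp
  have hcount : ∀ a, ∑ t ∈ J, (if Y t a then (1 : ℝ) else 0) ≤ 1 / l := by
    intro a
    rcases (M.nu_nonneg a).eq_or_lt with h0 | h0
    · rw [Finset.sum_eq_zero fun t _ => if_neg fun h => h.1.ne h0]
      positivity
    · have h1 : (∑ t ∈ J, (if Y t a then (1 : ℝ) else 0)) * (l * M.nu a) ≤ M.nu a := by
        rw [Finset.sum_mul]
        refine le_trans (Finset.sum_le_sum fun t _ => ?_)
          (heavy_fiber_le lab (M.e a) (M.e_nonneg a) J)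
        split_ifs with h
        · rw [one_mul]; exact h.2
        · rw [zero_mul]; exact hnn' t a
      rw [le_div_iff₀ hl0]
      refine le_of_mul_le_mul_right ?_ h0
      rw [mul_assoc, one_mul]
      exact h1
  have hsum : ∑ t ∈ J, M.muP (Y t) ≤ 1 / l := by
    simp_rw [heavy_muP]
    rw [Finset.sum_comm]
    calc _ ≤ ∑ _a : α, (Fintype.card α : ℝ)⁻¹ * (1 / l) := by
          refine Finset.sum_le_sum fun a _ => ?_
          refine le_trans (le_of_eq ?_)
            (mul_le_mul_of_nonneg_left (hcount a) (by positivity : 0 ≤ (Fintype.card α : ℝ)⁻¹))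
          rw [Finset.mul_sum]
          refine Finset.sum_congr rfl fun t _ => ?_
          split_ifs <;> simp
      _ = 1 / l := by rw [← Finset.sum_mul, heavy_sum_inv M, one_mul]
  calc _ ≤ ∑ q, ∑ a, ∑ t ∈ J, (if Y t a ∧ lab q = t then M.e a q else 0) := by
        refine Finset.sum_le_sum fun q _ => Finset.sum_le_sum fun a _ => ?_
        have hnn : ∀ t ∈ J, 0 ≤ (if Y t a ∧ lab q = t then M.e a q else 0) := fun t _ => by
          split_ifs
          · exact M.e_nonneg a q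
          · exact le_rfl
        split_ifs with h
        · rcases (M.nu_nonneg a).eq_or_lt with h0 | h0
          · have : M.e a q ≤ M.nu a :=
              Finset.single_le_sum (f := fun q => M.e a q) (fun q _ => M.e_nonneg a q) (mem_univ q)
            exact (this.trans h0.ge).trans (Finset.sum_nonneg hnn)
          · refine le_trans ?_ (Finset.single_le_sum hnn (hJ q h.1))
            have hy : Y (lab q) a := ⟨h0, h.2⟩
            rw [if_pos ⟨hy, rfl⟩]
        · exact Finset.sum_nonneg hnn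
    _ = ∑ t ∈ J, M.P (fun a q => Y t a ∧ lab q = t) := by
        simp_rw [Finset.sum_comm (s := (univ : Finset α)) (t := J)]
        rw [Finset.sum_comm]
        refine Finset.sum_congr rfl fun t _ => ?_
        unfold Model.P
        rw [Finset.sum_comm]
        refine Finset.sum_congr rfl fun a _ => Finset.sum_congr rfl fun q _ => ?_
        congr
    _ ≤ ∑ t ∈ J, l ^ 2 / 2 * (M.piP (fun q => lab q = t) + M.muP (Y t)) := by
        refine Finset.sum_le_sum fun t ht => ?_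
        refine M.expand hβ (Y t) (fun q => lab q = t) (l ^ 2 / 2) hl ?_
        have := M.muP_le (Y t)
        have := hnu t ht
        linarith
    _ ≤ l ^ 2 / 2 * (1 + 1 / l) := by
        rw [← Finset.mul_sum, Finset.sum_add_distrib]
        refine mul_le_mul_of_nonneg_left (add_le_add ?_ hsum) (by positivity)
        simp_rw [hpi]
        exact (heavy_fiber_le lab M.π (fun q => (M.π_pos q).le) J).trans M.π_sum.le
    _ ≤ l := by
        have : l ^ 2 / 2 * (1 + 1 / l) = (l * l + l) / 2 := by field_simp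
        rw [this]
        nlinarith

end

/-- Points: heavy = cells of uniform mass `> σ = l¹³/2²³`.  Centres: heavy = cells of `π`-mass
`> σ`; for a light cell `S'` let `Y_{S'} = {a | l ν a ≤ e(a, S'), ν a > 0}`; then
`ν(Y_{S'}) ≤ σ/l`, `∑ μ(Y_{S'}) ≤ 1/l` and `P(Y_{S'} × S') ≤ (l/2) π(S') + π(l/2 ≤ κ Y_{S'})`.
`β₂ = l₀¹²/2²¹`. -/
theorem heavy : ∃ Mf : ℝ → ℕ, ∀ l₀ > 0, ∃ β₂ > 0, ∀ (α ι : Type) [Fintype α] [Fintype ι]
    [DecidableEq α] (β : ℝ) (E : ℕ) (M : Model α ι β E), β ≤ β₂ → ∀ l, l₀ ≤ l → l ≤ 1 →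
    Heavy M.e l (Mf l) ∧ Heavy (fun q a => M.e a q) l (Mf l) := by
  -- we use `σ = l²¹/2²³`, `β₂ = l₀²⁰/2²¹` and `expand` at level `l²/2`
  refine ⟨fun l => ⌈1 / (l ^ 21 / 2 ^ 23)⌉₊, fun l₀ hl₀ => ⟨l₀ ^ 20 / 2 ^ 21, by positivity, ?_⟩⟩
  intro α ι _ _ _ β E M hβ l hl hl1
  have hl0 : 0 < l := hl₀.trans_le hl
  have h1 : l₀ ^ 20 ≤ l ^ 20 := pow_le_pow_left₀ hl₀.le hl 20
  have h2 : l ^ 20 ≤ l ^ 2 := pow_le_pow_of_le_one hl0.le hl1 (by norm_num)
  have h3 : l ^ 2 ≤ l := by nlinarith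
  have h4 : l ^ 21 ≤ l ^ 10 := pow_le_pow_of_le_one hl0.le hl1 (by norm_num)
  have h5 : 0 < l ^ 21 := by positivity
  have h6 : 0 < l ^ 2 := by positivity
  refine ⟨heavy_points M (by linarith) hl0 (by linarith) (by positivity) (by linarith),
    heavy_centres M (by linarith) hl0 hl1 (by linarith) (by positivity) ?_⟩
  have e1 : l ^ 21 / 2 ^ 23 / l = l ^ 20 / 2 ^ 23 := by field_simp
  have e2 : (l ^ 2 / 2) ^ 10 / 1024 = l ^ 20 / 2 ^ 20 := by ring
  rw [e1, e2]
  linarith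

end Crest.Agent.R33
end

-- ▼ part PVc/R33/Regress
section

/-! Refining the cells again and again. -/

set_option autoImplicit false

open Finset
open scoped Classical

namespace Crest.Agent.R33

namespace Regress

theorem card_cells {L T G K : Type} [DecidableEq (T × G)] (S E : Finset L) (lab : L → T)
    (x : L → K) (g : K → G) {n : ℕ} (hS : S ⊆ E) (hn : (E.image lab).card ≤ n)
    (h4 : ∀ t, (((S.filter fun z => lab z = t).image x).image g).card ≤ 4) :
    (S.image fun z => (lab z, g (x z))).card ≤ 4 * n := by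
  refine (card_le_mul_card_image (f := Prod.fst) _ 4 fun t _ => ?_).trans
    (Nat.mul_le_mul_left 4 ((card_le_card fun t ht => ?_).trans hn))
  · refine le_trans (card_le_card_of_injOn Prod.snd (fun c hc => ?_) fun c hc c' hc' h => ?_) (h4 t)
    · obtain ⟨h1, h2⟩ := mem_filter.1 (mem_coe.1 hc)
      obtain ⟨z, hz, rfl⟩ := mem_image.1 h1
      exact mem_coe.2 (mem_image_of_mem g (mem_image_of_mem x (mem_filter.2 ⟨hz, h2⟩)))
    · exact Prod.ext ((mem_filter.1 (mem_coe.1 hc)).2.trans (mem_filter.1 (mem_coe.1 hc')).2.symm) h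
  · obtain ⟨c, hc, rfl⟩ := mem_image.1 ht
    obtain ⟨z, hz, rfl⟩ := mem_image.1 hc
    exact mem_image_of_mem lab (hS hz)

theorem side {L Rr C : Type} [Fintype L] [Fintype Rr] {e : L → Rr → ℝ} {b l : ℝ} {m k : ℕ}
    (he : ∀ z r, 0 ≤ e z r) (h1 : ∑ z, ∑ r, e z r ≤ 1) (hl : 0 ≤ l) (hH : Heavy e l m)
    {E : Finset L} (lb : L → C) (good : L → Rr → Prop) [∀ z r, Decidable (good z r)]
    (h4 : ∀ r (S : Finset L), (∀ z ∈ S, z ∈ E ∧ good z r ∧ e z r ≠ 0) → (S.image lb).card ≤ k)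
    (hb : ∀ z ∈ E, b * ∑ r, e z r ≤ ∑ r, if good z r then e z r else 0) :
    ∃ H : Finset C, H.card ≤ m ∧ ∀ E' ⊆ E, (∀ z ∈ E', lb z ∉ H) →
      b * ∑ z ∈ E', ∑ r, e z r ≤ (k + 1) * l := by
  obtain ⟨H, hm, hH⟩ := hH C lb
  refine ⟨H, hm, fun E' hE' hE'' => ?_⟩
  set cm : C → Rr → ℝ := fun c r => ∑ z', if lb z' = c then e z' r else 0 with hcm
  set S : Rr → Finset L := fun r => univ.filter fun z =>
    (z ∈ E ∧ good z r ∧ e z r ≠ 0) ∧ cm (lb z) r < l * ∑ z', e z' r with hS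
  have h2 : ∀ r, ∑ z ∈ S r, e z r ≤ k * l * ∑ z', e z' r := by
    intro r
    have h0 : 0 ≤ l * ∑ z', e z' r := mul_nonneg hl (sum_nonneg fun _ _ => he _ _)
    have hc := h4 r (S r) fun z hz => (mem_filter.1 hz).2.1
    rw [← sum_fiberwise_of_maps_to (g := lb) (t := (S r).image lb)
      fun z hz => mem_image_of_mem _ hz]
    refine (sum_le_card_nsmul _ _ (l * ∑ z', e z' r) fun c hc => ?_).trans ?_
    · obtain ⟨z, hz, rfl⟩ := (@mem_image _ _ (_) _ _ _).1 hc
      refine le_trans ?_ (mem_filter.1 hz).2.2.le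
      rw [sum_filter]
      exact sum_le_sum_of_subset_of_nonneg (subset_univ _) fun z' _ _ => by
        split_ifs
        exacts [he _ _, le_rfl]
    · rw [nsmul_eq_mul, mul_assoc]
      exact mul_le_mul_of_nonneg_right (by exact_mod_cast hc) h0
  have h3 : ∑ r, ∑ z ∈ S r, e z r ≤ k * l := by
    refine (sum_le_sum fun r _ => h2 r).trans ?_
    rw [← mul_sum, sum_comm]
    exact mul_le_of_le_one_right (by positivity) h1
  have h5 : ∑ r, ∑ z ∈ S r, e z r = ∑ z, ∑ r, if z ∈ S r then e z r else 0 := by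
    rw [sum_comm]
    exact sum_congr rfl fun r _ => by rw [← sum_filter, filter_mem_eq_inter, univ_inter]
  rw [mul_sum, add_mul, one_mul]
  refine le_trans ?_ (add_le_add h3 hH)
  rw [h5, ← sum_add_distrib]
  refine (sum_le_sum fun z hz => (hb z (hE' hz)).trans ?_).trans
    (sum_le_sum_of_subset_of_nonneg (subset_univ _) fun z _ _ => add_nonneg ?_ ?_)
  · rw [← sum_add_distrib]
    refine sum_le_sum fun r _ => ?_
    have h6 := he z r
    by_cases h7 : good z r ∧ e z r ≠ 0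
    · rw [if_pos h7.1]
      rcases lt_or_ge (cm (lb z) r) (l * ∑ z', e z' r) with h8 | h8
      · rw [if_pos (show z ∈ S r from mem_filter.2 ⟨mem_univ _, ⟨hE' hz, h7⟩, h8⟩)]
        split_ifs <;> linarith
      · rw [if_pos (And.intro (hE'' z hz) h8)]
        split_ifs <;> linarith
    · have h9 : (if good z r then e z r else 0) = 0 := by
        split_ifs with h
        exacts [by_contra fun h' => h7 ⟨h, h'⟩, rfl]
      rw [h9]
      split_ifs <;> linarith
  all_goals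
    refine sum_nonneg fun r _ => ?_
    split_ifs
    exacts [he _ _, le_rfl]

theorem abv_dx {K : Type} [Field K] (P : Pl K) {p p' q : K × K} (h : Dd p q = 1)
    (h' : Dd p' q = 1) : P.abv (p.1 - p'.1) =
      Real.exp (tau P p q) * Real.exp (tau P p' q) * P.abv (p.2 - p'.2) := by
  unfold Dd at h h'
  rw [tau, tau, Real.exp_log (P.abv.pos (left_ne_zero_of_mul_eq_one h)),
    Real.exp_log (P.abv.pos (left_ne_zero_of_mul_eq_one h')), ← map_mul, ← map_mul,
    ← P.abv.map_neg]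
  congr 1
  linear_combination (p.1 - q.1) * h' - (p'.1 - q.1) * h

end Regress

open Regress

/-- One keeps a set `E_j ⊆ E₀` and labels with at most `n_j` values on `E_j` whose fibres have
diameters `ρx ((1+ar) e^{-g})^j`, `ρy ((1+ar) e^{-g})^j`, `g = θ₂ - θ₁`.  Step: for `z, z'` with the
same label and a common neighbour `r`, `|Δx| = |t t'| |Δy|`; so the low neighbours of `r` in one cell
meet at most 4 cells of `(lab, grid x)` and the high ones at most 4 cells of `(lab, grid y)`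
(`exists_grid`).  With `l = min 1 (b ε / (2 (4 n_j + 1)))` the low edges into cells of relative mass `< l`
weigh `≤ 4 n_j l`, those into non-heavy cells of relative mass `≥ l` weigh `≤ l`; divide by `b`.
`E_{j+1}` = both labels heavy, `n_{j+1} = (Mf l)²`. -/
theorem regress (b ε : ℝ) (hb : 0 < b) (hε : 0 < ε) (J : ℕ) (Mf : ℝ → ℕ) :
    ∃ l₀ > 0, ∃ n : ℕ, ∀ (K : Type) [Field K] (P : Pl K) (L Rr : Type) [Fintype L] [Fintype Rr]
      (e : L → Rr → ℝ) (pL : L → K × K) (pR : Rr → K × K) (θ₁ θ₂ ρx ρy : ℝ) (E₀ : Finset L),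
      (∀ z r, 0 ≤ e z r) → ∑ z, ∑ r, e z r ≤ 1 → (∀ z r, e z r ≠ 0 → Dd (pL z) (pR r) = 1) →
      (∀ l, l₀ ≤ l → l ≤ 1 → Heavy e l (Mf l)) → 0 < ρy → ρx = Real.exp (θ₁ + θ₂) * ρy →
      (∀ z ∈ E₀, ∀ z' ∈ E₀,
        P.abv ((pL z).1 - (pL z').1) ≤ ρx ∧ P.abv ((pL z).2 - (pL z').2) ≤ ρy) →
      (∀ z ∈ E₀, b * ∑ r, e z r ≤ (∑ r, if tau P (pL z) (pR r) ≤ θ₁ then e z r else 0) ∧
        b * ∑ r, e z r ≤ ∑ r, if θ₂ ≤ tau P (pL z) (pR r) then e z r else 0) →
      ∃ E₁ ⊆ E₀, ∃ (T : Type) (lab : L → T), (E₁.image lab).card ≤ n ∧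
        (∀ z ∈ E₁, ∀ z' ∈ E₁, lab z = lab z' →
          P.abv ((pL z).1 - (pL z').1) ≤ ρx * ((1 + P.ar) * Real.exp (θ₁ - θ₂)) ^ J ∧
          P.abv ((pL z).2 - (pL z').2) ≤ ρy * ((1 + P.ar) * Real.exp (θ₁ - θ₂)) ^ J) ∧
        ∑ z ∈ E₀, ∑ r, e z r - J * ε ≤ ∑ z ∈ E₁, ∑ r, e z r := by
  induction J with
  | zero =>
    refine ⟨1, one_pos, 1, fun K _ P L Rr _ _ e pL pR θ₁ θ₂ ρx ρy E₀ _ _ _ _ _ _ hd _ =>
      ⟨E₀, Subset.rfl, Unit, fun _ => (), (card_le_univ _).trans (by simp), fun z hz z' hz' _ => ?_,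
        by simp⟩⟩
    simpa using hd z hz z' hz'
  | succ J ih =>
    obtain ⟨l₀, hl₀, n, ih⟩ := ih
    set l : ℝ := min 1 (b * ε / (2 * (4 * n + 1))) with hl
    have hl0 : 0 < l := lt_min one_pos (by positivity)
    have hl1 : (4 * n + 1) * l ≤ b * (ε / 2) := by
      calc _ ≤ (4 * n + 1) * (b * ε / (2 * (4 * n + 1))) := by gcongr; exact min_le_right _ _
        _ = _ := by field_simp
    refine ⟨min l₀ l, lt_min hl₀ hl0, Mf l * Mf l,
      fun K _ P L Rr _ _ e pL pR θ₁ θ₂ ρx ρy E₀ he h1 hD hH hρ hx hd hg => ?_⟩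
    obtain ⟨E, hE, T, lab, hn, hdiam, hmass⟩ := ih K P L Rr e pL pR θ₁ θ₂ ρx ρy E₀ he h1 hD
      (fun l h => hH l ((min_le_left _ _).trans h)) hρ hx hd hg
    have hHl := hH l (min_le_right _ _) (min_le_left _ _)
    have har : 0 < 1 + P.ar := by linarith [P.ar_nonneg]
    set κ := ((1 + P.ar) * Real.exp (θ₁ - θ₂)) ^ J with hκ
    have hκ0 : 0 < κ := by positivity
    obtain ⟨gx, hx1, hx2, -⟩ := exists_grid P (ρx * κ * Real.exp (θ₁ - θ₂)) (by rw [hx]; positivity)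
    obtain ⟨gy, hy1, hy2, -⟩ := exists_grid P (ρy * κ * Real.exp (θ₁ - θ₂)) (by positivity)
    obtain ⟨Hx, hHx, hmx⟩ := side (k := 4 * n) he h1 hl0.le hHl (fun z => (lab z, gx (pL z).1))
      (fun z r => tau P (pL z) (pR r) ≤ θ₁) (fun r S hS => by
        refine @card_cells _ _ _ _ (_) S E lab (fun z => (pL z).1) gx n (fun z hz => (hS z hz).1) hn
          fun t => hx2 _ fun u hu u' hu' => ?_
        obtain ⟨z, hz, rfl⟩ := mem_image.1 hu
        obtain ⟨z', hz', rfl⟩ := mem_image.1 hu'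
        obtain ⟨hz, ht⟩ := mem_filter.1 hz
        obtain ⟨hz', ht'⟩ := mem_filter.1 hz'
        rw [abv_dx P (hD _ _ (hS z hz).2.2) (hD _ _ (hS z' hz').2.2)]
        calc _ ≤ Real.exp θ₁ * Real.exp θ₁ * (ρy * κ) := by
              gcongr
              exacts [(hS z hz).2.1, (hS z' hz').2.1,
                (hdiam z (hS z hz).1 z' (hS z' hz').1 (ht.trans ht'.symm)).2]
          _ = _ := by
              rw [hx, Real.exp_add, Real.exp_sub]
              field_simp) fun z hz => (hg z (hE hz)).1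
    obtain ⟨Hy, hHy, hmy⟩ := side (k := 4 * n) he h1 hl0.le hHl (fun z => (lab z, gy (pL z).2))
      (fun z r => θ₂ ≤ tau P (pL z) (pR r)) (fun r S hS => by
        refine @card_cells _ _ _ _ (_) S E lab (fun z => (pL z).2) gy n (fun z hz => (hS z hz).1) hn
          fun t => hy2 _ fun u hu u' hu' => ?_
        obtain ⟨z, hz, rfl⟩ := mem_image.1 hu
        obtain ⟨z', hz', rfl⟩ := mem_image.1 hu'
        obtain ⟨hz, ht⟩ := mem_filter.1 hz
        obtain ⟨hz', ht'⟩ := mem_filter.1 hz'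
        have h2 := (hdiam z (hS z hz).1 z' (hS z' hz').1 (ht.trans ht'.symm)).1
        rw [abv_dx P (hD _ _ (hS z hz).2.2) (hD _ _ (hS z' hz').2.2)] at h2
        refine le_of_mul_le_mul_left ?_ (mul_pos (Real.exp_pos θ₂) (Real.exp_pos θ₂))
        refine le_trans ?_ (h2.trans_eq ?_)
        · gcongr
          exacts [(hS z hz).2.1, (hS z' hz').2.1]
        · rw [hx, Real.exp_add, Real.exp_sub]
          field_simp) fun z hz => (hg z (hE hz)).2
    refine ⟨E.filter fun z => (lab z, gx (pL z).1) ∈ Hx ∧ (lab z, gy (pL z).2) ∈ Hy,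
      (filter_subset _ _).trans hE, _, fun z => ((lab z, gx (pL z).1), (lab z, gy (pL z).2)),
      (card_le_card (t := Hx ×ˢ Hy) fun c hc => ?_).trans ?_, fun z _ z' _ h => ?_, ?_⟩
    · obtain ⟨z, hz, rfl⟩ := (@mem_image _ _ (_) _ _ _).1 hc
      exact mem_product.2 (mem_filter.1 hz).2
    · rw [card_product]
      exact Nat.mul_le_mul hHx hHy
    · refine ⟨(hx1 _ _ (congrArg (fun c => c.1.2) h)).trans_eq ?_,
        (hy1 _ _ (congrArg (fun c => c.2.2) h)).trans_eq ?_⟩ <;> rw [pow_succ, ← hκ] <;> ring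
    · push_cast at hmx hmy
      have h2 := le_of_mul_le_mul_left ((hmx (E.filter fun z => (lab z, gx (pL z).1) ∉ Hx)
        (filter_subset _ _) fun z hz => (mem_filter.1 hz).2).trans hl1) hb
      have h3 := le_of_mul_le_mul_left ((hmy (E.filter fun z => (lab z, gy (pL z).2) ∉ Hy)
        (filter_subset _ _) fun z hz => (mem_filter.1 hz).2).trans hl1) hb
      have h4 : ∑ z ∈ E, ∑ r, e z r ≤
          ∑ z ∈ E.filter (fun z => (lab z, gx (pL z).1) ∈ Hx ∧ (lab z, gy (pL z).2) ∈ Hy),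
            ∑ r, e z r + ∑ z ∈ E.filter (fun z => (lab z, gx (pL z).1) ∉ Hx), ∑ r, e z r +
            ∑ z ∈ E.filter (fun z => (lab z, gy (pL z).2) ∉ Hy), ∑ r, e z r := by
        simp only [sum_filter, ← sum_add_distrib]
        refine sum_le_sum fun z _ => ?_
        have : 0 ≤ ∑ r, e z r := sum_nonneg fun _ _ => he _ _
        by_cases a1 : (lab z, gx (pL z).1) ∈ Hx <;> by_cases a2 : (lab z, gy (pL z).2) ∈ Hy <;>
          simp [a1, a2, this]
      push_cast
      linarith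

end Crest.Agent.R33
end

-- ▼ part PVc/R33/Gain
section

/-! The gain at one place. -/

set_option autoImplicit false

open Finset
open scoped Classical

namespace Crest.Agent.R33

theorem Gain_sum_ite {s : Finset ℕ} {p : ℕ → Prop} {c : ℝ} (hc : 0 ≤ c)
    (h : ∀ k k', p k → p k' → k = k') : ∑ k ∈ s, (if p k then c else 0) ≤ c := by
  rw [← sum_filter, sum_const, nsmul_eq_mul]
  refine mul_le_of_le_one_left hc ?_
  rw [Nat.cast_le_one]
  exact card_le_one.2 fun k hk k' hk' => h k k' (mem_filter.1 hk).2 (mem_filter.1 hk').2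

theorem Gain_pigeon {α ι : Type} [Fintype α] [Fintype ι] [DecidableEq α] {β : ℝ} {E : ℕ}
    (M : Model α ι β E) (τ : α → ι → ℝ) (lo g : ℝ) (hg : 0 ≤ g) (N : ℕ) (hN : 0 < N) :
    ∃ k < N, M.P (fun a q => lo + k * g < τ a q ∧ τ a q < lo + (k + 1) * g) ≤ 1 / N := by
  have hN' : (N : ℝ) ≠ 0 := by exact_mod_cast hN.ne'
  have h : ∑ k ∈ range N, M.P (fun a q => lo + k * g < τ a q ∧ τ a q < lo + (k + 1) * g) ≤
      ∑ _k ∈ range N, (1 / N : ℝ) := by
    rw [sum_const, card_range, nsmul_eq_mul, mul_one_div_cancel hN']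
    refine le_trans ?_ M.P_true.le
    unfold Model.P
    rw [sum_comm]
    refine sum_le_sum fun a _ => ?_
    rw [sum_comm]
    refine sum_le_sum fun q _ => ?_
    rw [if_pos trivial]
    refine Gain_sum_ite (p := fun k => lo + k * g < τ a q ∧ τ a q < lo + (k + 1) * g)
      (M.e_nonneg a q) fun k k' ⟨h1, h2⟩ ⟨h3, h4⟩ => ?_
    have h5 : (k : ℝ) < k' + 1 := lt_of_mul_lt_mul_right (by linarith) hg
    have h6 : (k' : ℝ) < k + 1 := lt_of_mul_lt_mul_right (by linarith) hg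
    have h7 : k < k' + 1 := by exact_mod_cast h5
    have h8 : k' < k + 1 := by exact_mod_cast h6
    omega
  obtain ⟨k, hk, h'⟩ := exists_le_of_sum_le (nonempty_range_iff.2 hN.ne') h
  exact ⟨k, mem_range.1 hk, h'⟩

theorem Gain_nuP {α ι : Type} [Fintype α] [Fintype ι] [DecidableEq α] {β : ℝ} {E : ℕ}
    (M : Model α ι β E) (G : α → Prop) :
    ∃ S : Finset α, (∀ a ∈ S, G a) ∧ M.nuP G = ∑ a ∈ S, M.nu a :=
  ⟨univ.filter G, fun _ h => (mem_filter.1 h).2, by rw [Model.nuP, sum_filter]⟩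

theorem Gain_piP {α ι : Type} [Fintype α] [Fintype ι] [DecidableEq α] {β : ℝ} {E : ℕ}
    (M : Model α ι β E) (G : ι → Prop) :
    ∃ S : Finset ι, (∀ a ∈ S, G a) ∧ M.piP G = ∑ a ∈ S, M.π a :=
  ⟨univ.filter G, fun _ h => (mem_filter.1 h).2, by rw [Model.piP, sum_filter]⟩

theorem Gain_pair {α T : Type} (S : Finset α) (f g : α → T) {n : ℕ} (hf : (S.image f).card ≤ n)
    (hg : (S.image g).card ≤ n) [DecidableEq (T × T)] :
    (S.image fun a => (f a, g a)).card ≤ n ^ 2 := by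
  rw [sq]
  refine le_trans ?_ (Nat.mul_le_mul hf hg)
  rw [← card_product]
  refine card_le_card fun t ht => ?_
  obtain ⟨a, ha, rfl⟩ := mem_image.1 ht
  exact mem_product.2 ⟨mem_image_of_mem _ ha, mem_image_of_mem _ ha⟩

theorem Gain_diam {K : Type} [Field K] {P : Pl K} (F : Frame P) {p p' : K × K} (h : F.al p = 0)
    (h' : F.al p' = 0) :
    P.abv (p.1 - p'.1) ≤ (1 + P.ar) * F.Rx ∧ P.abv (p.2 - p'.2) ≤ (1 + P.ar) * F.Ry := by
  obtain ⟨h1, h2⟩ := (F.al_eq_zero_iff p).1 h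
  obtain ⟨h3, h4⟩ := (F.al_eq_zero_iff p').1 h'
  have h0 : 0 ≤ 1 + P.ar := by linarith [P.ar_nonneg]
  constructor
  · rw [← sub_sub_sub_cancel_right _ _ F.ξ]
    exact (P.sub_le _ _).trans (mul_le_mul_of_nonneg_left (max_le h1 h3) h0)
  · rw [← sub_sub_sub_cancel_right _ _ F.ζ]
    exact (P.sub_le _ _).trans (mul_le_mul_of_nonneg_left (max_le h2 h4) h0)

theorem Gain_grid {K : Type} [Field K] (P : Pl K) (har : P.ar = 1) {α : Type} (E₁ : Finset α)
    (x : α → K) {r : ℝ} (hr : 0 < r) (G : ℝ)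
    (hd : ∀ a ∈ E₁, ∀ a' ∈ E₁, P.abv (x a - x a') ≤ (1 + P.ar) * r) :
    ∃ lab : α → Set K, (E₁.image lab).card ≤ (⌈4 * Real.exp G⌉₊ + 1) ^ 2 ∧
      ∀ a a', lab a = lab a' → P.abv (x a - x a') ≤ r * Real.exp (0 - G) := by
  obtain ⟨lab, h1, -, h3⟩ := exists_grid P (r * Real.exp (0 - G) / 2) (by positivity)
  refine ⟨fun a => lab (x a), ?_, fun a a' h => (h1 _ _ h).trans_eq (by rw [har]; ring)⟩
  have := h3 har ⌈4 * Real.exp G⌉₊ (E₁.image x) fun z hz z' hz' => by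
    obtain ⟨a, ha, rfl⟩ := mem_image.1 hz
    obtain ⟨a', ha', rfl⟩ := mem_image.1 hz'
    refine (hd a ha a' ha').trans (le_trans (le_of_eq ?_)
      (mul_le_mul_of_nonneg_right (Nat.le_ceil _) (by positivity)))
    rw [har, zero_sub, Real.exp_neg]
    field_simp
    norm_num
  rwa [image_image] at this

theorem Gain_num {ar hw J N J' : ℝ} (hJ : 0 ≤ J) (hN : 1 ≤ N) (hhw : 0 ≤ hw) (hJ' : 2 * J * N ≤ J')
    (h : ar = 0 ∨ (ar = 1 ∧ N ≤ hw)) : J * (hw + ar) ≤ J' * (2 * hw / N - ar) := by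
  have hN0 : 0 < N := by linarith
  obtain ⟨t, rfl⟩ : ∃ t, hw = t * N := ⟨hw / N, by field_simp⟩
  have ht : 0 ≤ t := nonneg_of_mul_nonneg_left hhw hN0
  rw [show 2 * (t * N) / N = 2 * t by field_simp]
  rcases h with rfl | ⟨rfl, h⟩
  · have := mul_le_mul_of_nonneg_right hJ' (by linarith : 0 ≤ 2 * t - 0)
    have h2 : 0 ≤ J * (t * N) := by positivity
    nlinarith
  · have ht1 : 1 ≤ t := by nlinarith
    have := mul_le_mul_of_nonneg_right hJ' (by linarith : 0 ≤ 2 * t - 1)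
    have h2 : 0 ≤ J * (N * (t - 1)) := mul_nonneg hJ (mul_nonneg hN0.le (by linarith))
    have h3 : 0 ≤ J * (t * N - 1) := mul_nonneg hJ (by linarith)
    nlinarith

/-- `N = ⌈100/η⌉`; one of the `N` open subintervals `(θ₁, θ₂)` of `(lo, hi)` of length
`g = 2 hw / N` has edge mass `≤ 1/N`.  If `ar = 1` and `hw < N`: all giant points, grid cells of
radii `Rx e^{-G}/2`, `Ry e^{-G}/2`, `G = J (N+1)` (third part of `exists_grid`), `s = 0`.
Otherwise `mixed`, `heavy`, `regress` (`b = η/100`, `J' = ⌈2 J N⌉`, `ε = η/(200 (J'+1))`,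
`ρy = (1+ar) Ry e^{2 hw}`, so `(1+ar) Rx ≤ ρx ≤ (1+ar) Rx e^{4 hw}`), `s = 4 hw + ar`,
`G = J (hw + ar) ≤ J' (g - ar log 2)`. -/
theorem gain_place : ∃ η₀ > 0, ∀ η : ℝ, 0 < η → η ≤ η₀ → ∀ J : ℝ, 0 ≤ J → ∃ n : ℕ, ∃ β₁ > 0,
    ∀ (α ι : Type) [Fintype α] [Fintype ι] [DecidableEq α] (β : ℝ) (E : ℕ) (M : Model α ι β E)
      (K : Type) [Field K] (R : Subring K) (G : Geo M R) (P : Pl K) (F : Frame P), β ≤ β₁ →
      GoodFrame G F η →
      ∃ S : ι → Finset α, (univ.image S).card ≤ n ∧ η / 200 ≤ ∑ q, M.π q * M.kap q (S q) ∧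
        ∀ q, ∀ a ∈ S q, Dd (G.pt a) (G.ctr q) ≠ 1 →
          Real.log (P.abv (Dd (G.pt a) (G.ctr q) - 1)) ≤ 10 * F.wid + 5 * P.ar +
            F.al (G.pt a) + F.al (G.ctr q) - J * (F.hw + P.ar) := by
  obtain ⟨η₀, hη₀, hmix⟩ := mixed
  obtain ⟨Mf, hheavy⟩ := heavy
  refine ⟨min η₀ (1 / 10), lt_min hη₀ (by norm_num), fun η hη hle J hJ => ?_⟩
  have hη1 : η ≤ η₀ := hle.trans (min_le_left _ _)
  have hη2 : η ≤ 1 / 10 := hle.trans (min_le_right _ _)
  obtain ⟨N, hN, hNη⟩ : ∃ N : ℕ, 0 < N ∧ 1 / (N : ℝ) ≤ η / 100 := by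
    refine ⟨⌈100 / η⌉₊, Nat.ceil_pos.2 (div_pos (by norm_num) hη), ?_⟩
    rw [← one_div_div 100 η]
    exact one_div_le_one_div_of_le (div_pos (by norm_num) hη) (Nat.le_ceil (100 / η))
  have hN1 : (1 : ℝ) ≤ N := by exact_mod_cast hN
  obtain ⟨J', hJ'⟩ : ∃ J' : ℕ, 2 * J * N ≤ J' := ⟨_, Nat.le_ceil _⟩
  obtain ⟨l₀, hl₀, n, hreg⟩ := regress (η / 100) (η / (200 * ((J' : ℝ) + 1))) (by positivity)
    (div_pos hη (by positivity)) J' Mf
  obtain ⟨β₂, hβ₂, hheavy⟩ := hheavy l₀ hl₀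
  refine ⟨2 ^ (((⌈4 * Real.exp (J * (N + 1))⌉₊ + 1) ^ 2) ^ 2) + 2 ^ n + (n + 1), min β₂ η,
    lt_min hβ₂ hη, ?_⟩
  intro α ι _ _ _ β E M K _ R G P F hβ hF
  have hw0 := F.hw_nonneg
  have hwid : F.hw ≤ F.wid := by
    have := Real.log_nonneg F.hc
    unfold Frame.wid
    linarith
  have har0 := P.ar_nonneg
  have hal : ∀ p, ¬ F.al p = 0 ↔ 0 < F.al p := fun p =>
    ⟨fun h => lt_of_le_of_ne (F.al_nonneg p) (Ne.symm h), fun h => h.ne'⟩
  by_cases hc : P.ar = 1 ∧ F.hw < N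
  · obtain ⟨har, hlt⟩ := hc
    obtain ⟨E₁, h0, h4⟩ := Gain_nuP M fun a => F.al (G.pt a) = 0
    obtain ⟨lx, hx1, hx2⟩ := Gain_grid P har E₁ (fun a => (G.pt a).1) F.Rx_pos (J * (N + 1))
      fun a ha a' ha' => (Gain_diam F (h0 a ha) (h0 a' ha')).1
    obtain ⟨ly, hy1, hy2⟩ := Gain_grid P har E₁ (fun a => (G.pt a).2) F.Ry_pos (J * (N + 1))
      fun a ha a' ha' => (Gain_diam F (h0 a ha) (h0 a' ha')).2
    obtain ⟨S, hS1, hS2, hS3⟩ := gain_of_points G F E₁ (Set K × Set K) (fun a => (lx a, ly a))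
      _ (by convert Gain_pair E₁ lx ly hx1 hy1) h0 0 (J * (N + 1))
      le_rfl (by positivity) fun a _ a' _ h =>
        ⟨hx2 a a' (congrArg Prod.fst h), hy2 a a' (congrArg Prod.snd h)⟩
    refine ⟨S, hS1.trans ((Nat.le_add_right _ _).trans (Nat.le_add_right _ _)), le_trans ?_ hS2,
      fun q a ha hne => (hS3 q a ha hne).trans ?_⟩
    · have h1 := hF.out
      have h2 := M.piP_nonneg fun q => 0 < F.al (G.ctr q)
      have h3 := M.P_not fun a _ => F.al (G.pt a) = 0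
      rw [M.P_left, M.P_left] at h3
      simp only [hal] at h3
      linarith
    · have := mul_le_mul_of_nonneg_left hlt.le hJ
      rw [har]
      nlinarith
  have hc' : P.ar = 0 ∨ (P.ar = 1 ∧ N ≤ F.hw) :=
    P.ar_cases.imp id fun h => ⟨h, not_lt.1 fun h' => hc ⟨h, h'⟩⟩
  obtain ⟨k, hk, hP⟩ := Gain_pigeon M (fun a q => tau P (G.pt a) (G.ctr q)) F.lo (2 * F.hw / N)
    (by positivity) N hN
  have hg0 : 0 ≤ 2 * F.hw / N := by positivity
  have hhw : 2 * F.hw = F.hi - F.lo := by unfold Frame.hw; ring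
  have hθ1 : F.lo ≤ F.lo + k * (2 * F.hw / N) := le_add_of_nonneg_right (by positivity)
  have hθ2 : F.lo + (k + 1) * (2 * F.hw / N) ≤ F.hi := by
    have h1 : (k : ℝ) + 1 ≤ N := by exact_mod_cast hk
    have h2 := mul_le_mul_of_nonneg_right h1 hg0
    rw [mul_div_cancel₀ _ (by positivity : (N : ℝ) ≠ 0)] at h2
    linarith
  have hθ3 : F.lo + k * (2 * F.hw / N) - (F.lo + (k + 1) * (2 * F.hw / N)) =
      -(2 * F.hw / N) := by ring
  generalize F.lo + k * (2 * F.hw / N) = θ₁ at hP hθ1 hθ3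
  generalize F.lo + (k + 1) * (2 * F.hw / N) = θ₂ at hP hθ2 hθ3
  have hRx := F.Rx_pos
  have hRy := F.Ry_pos
  have hxy : F.Rx = F.Ry * Real.exp (F.hi + F.lo) := by
    unfold Frame.Rx Frame.Ry
    rw [mul_assoc, ← Real.exp_add]
    congr 2
    ring
  have hρ : Real.exp (θ₁ + θ₂) * ((1 + P.ar) * F.Ry * Real.exp (2 * F.hw)) =
      (1 + P.ar) * F.Rx * Real.exp (θ₁ + θ₂ + 2 * F.hw - (F.hi + F.lo)) := by
    rw [hxy, Real.exp_sub, Real.exp_add _ (2 * F.hw)]
    field_simp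
  have hstart : ∀ p p' : K × K, F.al p = 0 → F.al p' = 0 →
      P.abv (p.1 - p'.1) ≤ Real.exp (θ₁ + θ₂) * ((1 + P.ar) * F.Ry * Real.exp (2 * F.hw)) ∧
      P.abv (p.2 - p'.2) ≤ (1 + P.ar) * F.Ry * Real.exp (2 * F.hw) := fun p p' h h' => by
    obtain ⟨h1, h2⟩ := Gain_diam F h h'
    rw [hρ]
    exact ⟨h1.trans (le_mul_of_one_le_right (by positivity) (Real.one_le_exp (by linarith))),
      h2.trans (le_mul_of_one_le_right (by positivity) (Real.one_le_exp (by linarith)))⟩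
  have hend : ∀ r t : ℝ, 0 < r → t ≤ 4 * F.hw →
      (1 + P.ar) * r * Real.exp t * ((1 + P.ar) * Real.exp (θ₁ - θ₂)) ^ J' ≤
        r * Real.exp (4 * F.hw + P.ar - J * (F.hw + P.ar)) := fun r t hr ht => by
    have h1 : 1 + P.ar ≤ Real.exp P.ar := by linarith [Real.add_one_le_exp P.ar]
    have h2 := Gain_num hJ hN1 hw0 hJ' hc'
    calc _ ≤ Real.exp P.ar * r * Real.exp t * (Real.exp P.ar * Real.exp (θ₁ - θ₂)) ^ J' := by
          gcongr
      _ = r * Real.exp (P.ar + t + J' * (P.ar + (θ₁ - θ₂))) := by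
          rw [← Real.exp_add, ← Real.exp_nat_mul, Real.exp_add, Real.exp_add P.ar t]
          ring
      _ ≤ _ := by
          rw [hθ3]
          gcongr
          linarith
  have hmass : η / 200 ≤ η / 100 - J' * (η / (200 * (J' + 1))) := by
    have : (J' : ℝ) * (η / (200 * (J' + 1))) ≤ η / 200 := by
      rw [← mul_div_assoc, div_le_div_iff₀ (by positivity) (by positivity)]
      nlinarith
    linarith
  have hfin : ∀ p q : K × K, 2 * F.wid + 2 * (4 * F.hw + P.ar) + F.al p + F.al q + 3 * P.ar -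
      J * (F.hw + P.ar) ≤ 10 * F.wid + 5 * P.ar + F.al p + F.al q - J * (F.hw + P.ar) :=
    fun p q => by linarith
  have hsum : ∑ a, ∑ q, M.e a q = 1 := M.sum_nu
  have hH := hheavy α ι β E M (hβ.trans (min_le_left _ _))
  have htau : ∀ p q : K × K, tau P p q = tau P q p := fun p q => by
    unfold tau
    rw [P.abv.map_sub]
  rcases hmix η hη hη1 α ι β E M (fun a q => tau P (G.pt a) (G.ctr q) ≤ θ₁)
    (fun a q => θ₂ ≤ tau P (G.pt a) (G.ctr q)) (fun a => F.al (G.pt a) = 0)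
    (fun q => F.al (G.ctr q) = 0) (hβ.trans (min_le_right _ _))
    (by simpa only [hal] using hF.out)
    (hF.qlo.trans (M.P_mono fun _ _ _ h => h.trans hθ1))
    (hF.qhi.trans (M.P_mono fun _ _ _ h => hθ2.trans h))
    ((M.P_mono fun _ _ _ h => ⟨not_le.1 h.1, not_le.1 h.2⟩).trans (hP.trans hNη)) with h | h
  · obtain ⟨E₀, h0, h0'⟩ := Gain_nuP M _
    rw [h0'] at h
    obtain ⟨E₁, hE, T, lab, h1, h2, h3⟩ := hreg K P α ι M.e G.pt G.ctr θ₁ θ₂ _ _ E₀ M.e_nonneg
      hsum.le (fun a q h => G.unit q a (M.mem_of_e_ne h)) (fun l hl hl' => (hH l hl hl').1)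
      (by positivity) rfl (fun a ha a' ha' => hstart _ _ (h0 a ha).1 (h0 a' ha').1)
      (fun a ha => by convert (h0 a ha).2)
    obtain ⟨S, hS1, hS2, hS3⟩ := gain_of_points G F E₁ T lab n (by convert h1)
      (fun a ha => (h0 a (hE ha)).1) (4 * F.hw + P.ar) (J * (F.hw + P.ar))
      (by positivity) (by positivity) fun a ha a' ha' h => by
        obtain ⟨h4, h5⟩ := h2 a ha a' ha' h
        rw [hρ] at h4
        exact ⟨h4.trans (hend _ _ hRx (by linarith)), h5.trans (hend _ _ hRy (by linarith))⟩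
    refine ⟨S, hS1.trans ((Nat.le_add_left _ _).trans (Nat.le_add_right _ _)), le_trans ?_ hS2,
      fun q a ha hne => (hS3 q a ha hne).trans (hfin _ _)⟩
    exact hmass.trans ((sub_le_sub_right h _).trans h3)
  · obtain ⟨E₀, h0, h0'⟩ := Gain_piP M _
    rw [h0'] at h
    obtain ⟨E₁, hE, T, lab, h1, h2, h3⟩ := hreg K P ι α (fun q a => M.e a q) G.ctr G.pt θ₁ θ₂ _ _
      E₀ (fun q a => M.e_nonneg a q) (by rw [sum_comm]; exact hsum.le)
      (fun q a h => by rw [Dd_comm]; exact G.unit q a (M.mem_of_e_ne h))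
      (fun l hl hl' => (hH l hl hl').2) (by positivity) rfl
      (fun a ha a' ha' => hstart _ _ (h0 a ha).1 (h0 a' ha').1)
      (fun q hq => by
        simp only [htau (G.ctr q)]
        convert (h0 q hq).2)
    obtain ⟨S, hS1, hS2, hS3⟩ := gain_of_centres G F E₁ T lab n (by convert h1)
      (fun a ha => (h0 a (hE ha)).1) (4 * F.hw + P.ar) (J * (F.hw + P.ar))
      (by positivity) (by positivity) fun a ha a' ha' h => by
        obtain ⟨h4, h5⟩ := h2 a ha a' ha' h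
        rw [hρ] at h4
        exact ⟨h4.trans (hend _ _ hRx (by linarith)), h5.trans (hend _ _ hRy (by linarith))⟩
    refine ⟨S, hS1.trans (Nat.le_add_left _ _), le_trans ?_ hS2,
      fun q a ha hne => (hS3 q a ha hne).trans (hfin _ _)⟩
    simp only [M.sum_e] at h3
    exact hmass.trans ((sub_le_sub_right h _).trans h3)

end Crest.Agent.R33
end

-- ▼ part PVc/R33/PiAux
section

/-! Finite product measures and posteriors: the model-free part of the resampling trick. -/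

set_option autoImplicit false

open Finset

namespace Crest.Agent.R33.PiAux

variable {α : Type} [Fintype α]

/-- Conditional probabilities (with a default when the total mass vanishes). -/
theorem exists_cond {ν : α → ℝ} (h0 : ∀ a, 0 ≤ ν a) (h1 : ∑ a, ν a = 1) {J : α → ℝ}
    (hJ : ∀ a, 0 ≤ J a) :
    ∃ P : α → ℝ, (∀ a, 0 ≤ P a) ∧ ∑ a, P a = 1 ∧ ∀ a, (∑ b, J b) * P a = J a := by
  by_cases h : ∑ b, J b = 0
  · refine ⟨ν, h0, h1, fun a => ?_⟩
    rw [h, zero_mul, (sum_eq_zero_iff_of_nonneg fun a _ => hJ a).1 h a (mem_univ a)]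
  · refine ⟨fun a => J a / ∑ b, J b, fun a => div_nonneg (hJ a) (sum_nonneg fun a _ => hJ a), ?_,
      fun a => mul_div_cancel₀ _ h⟩
    rw [← sum_div, div_self h]

theorem sum_W {A : α → ℝ} (h1 : ∑ a, A a = 1) (k : ℕ) : ∑ ω : Fin k → α, ∏ i, A (ω i) = 1 := by
  rw [← Fintype.sum_pow, h1, one_pow]

theorem sum_succ (A : α → ℝ) (k : ℕ) (F : (Fin (k + 1) → α) → ℝ) :
    ∑ ω : Fin (k + 1) → α, (∏ i, A (ω i)) * F ω =
      ∑ a, A a * ∑ ω : Fin k → α, (∏ i, A (ω i)) * F (Fin.cons a ω) := by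
  rw [← (Fin.consEquiv fun _ => α).sum_comp, Fintype.sum_prod_type]
  refine sum_congr rfl fun a _ => ?_
  rw [mul_sum]
  refine sum_congr rfl fun ω _ => ?_
  simp [Fin.consEquiv, Fin.prod_univ_succ, mul_assoc]

theorem sum_lin {A : α → ℝ} (h1 : ∑ a, A a = 1) (h : α → ℝ) (k : ℕ) :
    ∑ ω : Fin k → α, (∏ i, A (ω i)) * ∑ i, h (ω i) = k * ∑ a, A a * h a := by
  induction k with
  | zero => simp
  | succ k ih =>
    rw [sum_succ]
    simp only [Fin.sum_univ_succ, Fin.cons_zero, Fin.cons_succ, mul_add, sum_add_distrib, ih,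
      ← sum_mul, sum_W h1, h1]
    push_cast
    simp only [one_mul]
    ring

theorem sum_sq {A : α → ℝ} (h1 : ∑ a, A a = 1) {h : α → ℝ} (h0 : ∑ a, A a * h a = 0) (k : ℕ) :
    ∑ ω : Fin k → α, (∏ i, A (ω i)) * (∑ i, h (ω i)) ^ 2 = k * ∑ a, A a * h a ^ 2 := by
  induction k with
  | zero => simp
  | succ k ih =>
    rw [sum_succ]
    have e : ∀ a, ∑ ω : Fin k → α, (∏ i, A (ω i)) *
        (∑ i : Fin (k + 1), h ((Fin.cons a ω : Fin (k + 1) → α) i)) ^ 2 =
        h a ^ 2 + k * ∑ a, A a * h a ^ 2 := by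
      intro a
      have e2 : ∀ ω : Fin k → α, (∏ i, A (ω i)) *
          (∑ i : Fin (k + 1), h ((Fin.cons a ω : Fin (k + 1) → α) i)) ^ 2 =
          (∏ i, A (ω i)) * h a ^ 2 + 2 * h a * ((∏ i, A (ω i)) * ∑ i, h (ω i)) +
            (∏ i, A (ω i)) * (∑ i, h (ω i)) ^ 2 := by
        intro ω
        simp only [Fin.sum_univ_succ, Fin.cons_zero, Fin.cons_succ]
        ring
      simp only [e2, sum_add_distrib, ← sum_mul, ← mul_sum, sum_W h1, sum_lin h1, h0, ih]
      ring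
    simp only [e, mul_add, sum_add_distrib, ← sum_mul, h1]
    push_cast
    ring

theorem var_le {A : α → ℝ} (h0 : ∀ a, 0 ≤ A a) (h1 : ∑ a, A a = 1) {g : α → ℝ}
    (hg : ∀ a, |g a| ≤ 1) {k : ℕ} (hk : 1 ≤ k) :
    ∑ ω : Fin k → α, (∏ i, A (ω i)) * ((∑ a, A a * g a) - (∑ i, g (ω i)) / k) ^ 2 ≤ 1 / k := by
  have hk' : (0 : ℝ) < k := by exact_mod_cast hk
  set φ := ∑ a, A a * g a with hφ
  have e0 : ∑ a, A a * (g a - φ) = 0 := by
    simp only [mul_sub, sum_sub_distrib, ← sum_mul, h1, ← hφ]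
    ring
  have e1 : ∀ ω : Fin k → α, (∏ i, A (ω i)) * (φ - (∑ i, g (ω i)) / k) ^ 2 =
      (∏ i, A (ω i)) * (∑ i, (g (ω i) - φ)) ^ 2 / k ^ 2 := by
    intro ω
    simp only [sum_sub_distrib, sum_const, card_univ, Fintype.card_fin, nsmul_eq_mul]
    field_simp
    ring
  have e2 : ∑ a, A a * (g a - φ) ^ 2 ≤ 1 := by
    have e3 : ∀ a, A a * (g a - φ) ^ 2 = A a * g a ^ 2 - 2 * φ * (A a * g a) + A a * φ ^ 2 :=
      fun a => by ring
    have e4 : ∑ a, A a * g a ^ 2 ≤ ∑ a, A a := sum_le_sum fun a _ =>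
      mul_le_of_le_one_right (h0 a) ((sq_le_one_iff_abs_le_one _).2 (hg a))
    simp only [e3, sum_add_distrib, sum_sub_distrib, ← sum_mul, ← mul_sum, ← hφ, h1] at e4 ⊢
    nlinarith [sq_nonneg φ]
  simp only [e1]
  rw [← sum_div, sum_sq (h := fun a => g a - φ) h1 e0, div_le_div_iff₀ (by positivity) hk']
  nlinarith [mul_le_mul_of_nonneg_left e2 (mul_pos hk' hk').le]

theorem swap0 {Ω : Type} [Fintype Ω] (ν : α → ℝ) (W X : α → Ω → ℝ) :
    ∑ b, ν b * ∑ ω, W b ω * X b ω = ∑ ω, ∑ b, ν b * W b ω * X b ω := by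
  rw [sum_comm]
  simp only [mul_sum, mul_assoc]

theorem amgm {t x s : ℝ} (ht : |t| ≤ 1) (hs : 0 < s) : t * x ≤ (s * x ^ 2 + 1 / s) / 2 := by
  have h1 : t ^ 2 ≤ 1 := (sq_le_one_iff_abs_le_one _).2 ht
  have h2 : 0 ≤ (s * x - t) ^ 2 / s := by positivity
  have h3 : (s * x - t) ^ 2 / s = s * x ^ 2 - 2 * (t * x) + t ^ 2 / s := by
    field_simp
    ring
  have h4 : t ^ 2 / s ≤ 1 / s := div_le_div_of_nonneg_right h1 hs.le
  linarith

section
variable {ν : α → ℝ} {A : α → α → ℝ} {k : ℕ} {post : (Fin k → α) → α → ℝ}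

theorem four (hν0 : ∀ a, 0 ≤ ν a) (hν1 : ∑ a, ν a = 1) (hA0 : ∀ b a, 0 ≤ A b a)
    (hA1 : ∀ b, ∑ a, A b a = 1) (hP0 : ∀ ω a, 0 ≤ post ω a) (hP1 : ∀ ω, ∑ a, post ω a = 1)
    (hPJ : ∀ ω a, (∑ b, ν b * ∏ i, A b (ω i)) * post ω a = ν a * ∏ i, A a (ω i)) (hk : 1 ≤ k)
    {f g : α → ℝ} (hf0 : ∀ a, 0 ≤ f a) (hf1 : ∀ a, f a ≤ 1)
    (hg : ∀ a, g a = f a - ∑ ω : Fin k → α, (∏ i, A a (ω i)) * ∑ a', post ω a' * f a') :
    ∑ b, ν b * g b * ∑ a, A b a * g a ≤ 1 / √k := by
  have hk' : (0 : ℝ) < k := by exact_mod_cast hk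
  have hs : 0 < √(k : ℝ) := Real.sqrt_pos.2 hk'
  have hW : ∀ b (ω : Fin k → α), 0 ≤ ∏ i, A b (ω i) := fun b ω =>
    prod_nonneg fun i _ => hA0 _ _
  obtain ⟨F, hF⟩ : ∃ F : (Fin k → α) → ℝ, ∀ ω, F ω = ∑ a', post ω a' * f a' := ⟨_, fun _ => rfl⟩
  simp only [← hF] at hg
  have hF0 : ∀ ω, 0 ≤ F ω := fun ω => by
    rw [hF]
    exact sum_nonneg fun a _ => mul_nonneg (hP0 _ _) (hf0 _)
  have hF1 : ∀ ω, F ω ≤ 1 := fun ω => by
    rw [hF, ← hP1 ω]
    exact sum_le_sum fun a _ => mul_le_of_le_one_right (hP0 _ _) (hf1 _)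
  have hd : ∀ b ω, |f b - F ω| ≤ 1 := fun b ω =>
    abs_le.2 ⟨by linarith [hf0 b, hF1 ω], by linarith [hf1 b, hF0 ω]⟩
  have hg' : ∀ b, g b = ∑ ω : Fin k → α, (∏ i, A b (ω i)) * (f b - F ω) := fun b => by
    simp only [hg, mul_sub, sum_sub_distrib, ← sum_mul, sum_W (hA1 b), one_mul]
  have hg1 : ∀ b, |g b| ≤ 1 := fun b => by
    rw [hg', ← sum_W (hA1 b) k]
    refine (abs_sum_le_sum_abs _ _).trans (sum_le_sum fun ω _ => ?_)
    rw [abs_mul, abs_of_nonneg (hW b ω)]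
    exact mul_le_of_le_one_right (hW b ω) (hd b ω)
  have hz : ∀ ω : Fin k → α, ∑ b, ν b * (∏ i, A b (ω i)) * (f b - F ω) = 0 := fun ω => by
    simp only [mul_sub, sum_sub_distrib, ← sum_mul]
    rw [hF, mul_sum, sub_eq_zero]
    exact sum_congr rfl fun a _ => by rw [← mul_assoc, hPJ]
  have hz' : ∑ b, ν b * ∑ ω : Fin k → α, (∏ i, A b (ω i)) *
      ((f b - F ω) * ((∑ i, g (ω i)) / k)) = 0 := by
    rw [swap0]
    refine sum_eq_zero fun ω _ => ?_
    simp only [← mul_assoc, ← sum_mul, hz, zero_mul]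
  have key : ∀ b, g b * ∑ a, A b a * g a - ∑ ω : Fin k → α, (∏ i, A b (ω i)) *
      ((f b - F ω) * ((∑ i, g (ω i)) / k)) ≤ 1 / √k := by
    intro b
    have hv := var_le (hA0 b) (hA1 b) hg1 hk
    generalize ∑ a, A b a * g a = φ at hv ⊢
    rw [hg' b, sum_mul, ← sum_sub_distrib]
    calc _ ≤ ∑ ω : Fin k → α, (∏ i, A b (ω i)) *
            ((√k * (φ - (∑ i, g (ω i)) / k) ^ 2 + 1 / √k) / 2) := by
          refine sum_le_sum fun ω _ => ?_
          rw [mul_assoc, ← mul_sub, ← mul_sub]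
          exact mul_le_mul_of_nonneg_left (amgm (hd b ω) hs) (hW b ω)
      _ = (√k * ∑ ω : Fin k → α, (∏ i, A b (ω i)) * (φ - (∑ i, g (ω i)) / k) ^ 2 +
            (∑ ω : Fin k → α, ∏ i, A b (ω i)) * (1 / √k)) / 2 := by
          rw [mul_sum, sum_mul, ← sum_add_distrib, sum_div]
          exact sum_congr rfl fun ω _ => by ring
      _ ≤ (√k * (1 / k) + 1 * (1 / √k)) / 2 := by
          rw [sum_W (hA1 b)]
          gcongr
      _ = 1 / √k := by
          have := Real.mul_self_sqrt hk'.le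
          field_simp
          nlinarith
  calc _ = ∑ b, ν b * (g b * ∑ a, A b a * g a - ∑ ω : Fin k → α, (∏ i, A b (ω i)) *
          ((f b - F ω) * ((∑ i, g (ω i)) / k))) := by
        simp only [mul_sub (ν _), sum_sub_distrib, hz', sub_zero, mul_assoc]
    _ ≤ ∑ b, ν b * (1 / √k) := sum_le_sum fun b _ => mul_le_mul_of_nonneg_left (key b) (hν0 b)
    _ = _ := by rw [← sum_mul, hν1, one_mul]

/-- Averaging the posterior gives back the joint law. -/
theorem swap (hPJ : ∀ ω a, (∑ b, ν b * ∏ i, A b (ω i)) * post ω a = ν a * ∏ i, A a (ω i))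
    (G : (Fin k → α) → α → ℝ) :
    ∑ b, ν b * ∑ ω : Fin k → α, (∏ i, A b (ω i)) * ∑ a, post ω a * G ω a =
      ∑ a, ν a * ∑ ω : Fin k → α, (∏ i, A a (ω i)) * G ω a := by
  calc _ = ∑ ω : Fin k → α, (∑ b, ν b * ∏ i, A b (ω i)) * ∑ a, post ω a * G ω a := by
        rw [swap0]
        simp only [← sum_mul]
    _ = ∑ ω : Fin k → α, ∑ a, ν a * ((∏ i, A a (ω i)) * G ω a) := by
        refine sum_congr rfl fun ω _ => ?_
        rw [mul_sum]
        exact sum_congr rfl fun a _ => by rw [← mul_assoc, hPJ, mul_assoc]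
    _ = _ := by
        rw [sum_comm]
        simp only [← mul_sum]

open Classical in
/-- The three exceptional events. -/
theorem bad_le (hA1 : ∀ b, ∑ a, A b a = 1)
    {β ε : ℝ} (hε : 0 < ε) (hm : 0 < (Fintype.card α : ℝ)) (hβ : ∑ a, ν a * A a a ≤ β) :
    ∑ a, ν a * ∑ ω : Fin k → α, (∏ i, A a (ω i)) *
      ((∑ i, if ω i = a then 1 else 0) + (if ν a < ε / Fintype.card α then 1 else 0) +
        if ∑ b, ν b * ∏ i, A b (ω i) < ε / Fintype.card α ^ k then 1 else 0) ≤ k * β + 2 * ε := by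
  have h1 : ∑ a, ν a * ∑ ω : Fin k → α, (∏ i, A a (ω i)) * ∑ i, (if ω i = a then 1 else 0 : ℝ)
      ≤ k * β := by
    have e : ∀ a, ∑ ω : Fin k → α, (∏ i, A a (ω i)) * ∑ i, (if ω i = a then 1 else 0 : ℝ) =
        k * A a a := fun a => by
      rw [sum_lin (hA1 a) fun x => if x = a then 1 else 0]
      simp
    simp only [e, mul_left_comm _ (k : ℝ), ← mul_sum]
    exact mul_le_mul_of_nonneg_left hβ (Nat.cast_nonneg k)
  have h2 : ∑ a, ν a * ∑ ω : Fin k → α, (∏ i, A a (ω i)) *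
      (if ν a < ε / Fintype.card α then 1 else 0 : ℝ) ≤ ε := by
    simp only [← sum_mul, sum_W (hA1 _), one_mul]
    refine (sum_le_card_nsmul _ _ (ε / Fintype.card α) fun a _ => ?_).trans (le_of_eq ?_)
    · split_ifs with h
      · simpa using h.le
      · simpa using by positivity
    · rw [card_univ, nsmul_eq_mul]
      field_simp
  have h3 : ∑ a, ν a * ∑ ω : Fin k → α, (∏ i, A a (ω i)) *
      (if ∑ b, ν b * ∏ i, A b (ω i) < ε / Fintype.card α ^ k then 1 else 0 : ℝ) ≤ ε := by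
    rw [swap0]
    simp only [← sum_mul]
    refine (sum_le_card_nsmul _ _ (ε / Fintype.card α ^ k) fun a _ => ?_).trans (le_of_eq ?_)
    · split_ifs with h
      · simpa using h.le
      · simpa using by positivity
    · rw [card_univ, nsmul_eq_mul, Fintype.card_fun, Fintype.card_fin]
      push_cast
      field_simp
  simp only [mul_add, sum_add_distrib]
  linarith

open Classical in
/-- Off the exceptional events the posterior is small. -/
theorem post_le (hA0 : ∀ b a, 0 ≤ A b a)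
    (hP0 : ∀ ω a, 0 ≤ post ω a)
    (hPJ : ∀ ω a, (∑ b, ν b * ∏ i, A b (ω i)) * post ω a = ν a * ∏ i, A a (ω i))
    {ε θ : ℝ} (hε : 0 < ε) (hθ : 0 < θ) (hm : 0 < (Fintype.card α : ℝ))
    (hν : ∀ a, ν a * (θ * Fintype.card α) ≤ 4)
    (hp : ∀ a b, a ≠ b → ν b * A b a * (θ * Fintype.card α ^ 2) ≤ 2) (ω : Fin k → α) (a : α) :
    post ω a ≤ post ω a *
      ((∑ i, if ω i = a then 1 else 0) + (if ν a < ε / Fintype.card α then 1 else 0) +
        if ∑ b, ν b * ∏ i, A b (ω i) < ε / Fintype.card α ^ k then 1 else 0) +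
      4 * 2 ^ k / (ε * θ) ^ (k + 1) / Fintype.card α := by
  have hB : 0 ≤ 4 * 2 ^ k / (ε * θ) ^ (k + 1) / (Fintype.card α : ℝ) := by positivity
  have n1 : (0 : ℝ) ≤ ∑ i, if ω i = a then 1 else 0 :=
    sum_nonneg fun i _ => by split_ifs <;> norm_num
  have hP := hP0 ω a
  by_cases h1 : ∃ i, ω i = a
  · obtain ⟨i, hi⟩ := h1
    have : (1 : ℝ) ≤ ∑ i, if ω i = a then 1 else 0 := by
      refine le_trans (by simp [hi]) (single_le_sum (f := fun i => if ω i = a then (1 : ℝ) else 0)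
        (fun i _ => by split_ifs <;> norm_num) (mem_univ i))
    split_ifs <;> nlinarith
  by_cases h2 : ν a < ε / Fintype.card α
  · rw [if_pos h2]
    split_ifs <;> nlinarith
  by_cases h3 : ∑ b, ν b * ∏ i, A b (ω i) < ε / Fintype.card α ^ k
  · rw [if_neg h2, if_pos h3]
    nlinarith
  rw [if_neg h2, if_neg h3]
  push Not at h1 h2 h3
  have a1 : ∀ i, A a (ω i) ≤ 2 / (ε * θ * Fintype.card α) := by
    intro i
    have b1 := hp _ _ (h1 i)
    have b2 : ε ≤ ν a * Fintype.card α := (div_le_iff₀ hm).1 h2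
    rw [le_div_iff₀ (by positivity)]
    have b3 := mul_le_mul_of_nonneg_left b2
      (show 0 ≤ A a (ω i) * (θ * Fintype.card α) from mul_nonneg (hA0 _ _) (by positivity))
    nlinarith
  have a2 : ∏ i, A a (ω i) ≤ (2 / (ε * θ * Fintype.card α)) ^ k := by
    refine (prod_le_prod (fun i _ => hA0 _ _) fun i _ => a1 i).trans (le_of_eq ?_)
    rw [prod_const, card_univ, Fintype.card_fin]
  have a3 : ν a ≤ 4 / (θ * Fintype.card α) := (le_div_iff₀ (by positivity)).2 (hν a)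
  have a4 : ε / Fintype.card α ^ k * post ω a ≤
      4 / (θ * Fintype.card α) * (2 / (ε * θ * Fintype.card α)) ^ k := by
    refine (mul_le_mul_of_nonneg_right h3 hP).trans ?_
    rw [hPJ]
    exact mul_le_mul a3 a2 (prod_nonneg fun i _ => hA0 _ _) (by positivity)
  have a5 : post ω a ≤ 4 * 2 ^ k / (ε * θ) ^ (k + 1) / Fintype.card α := by
    refine le_of_mul_le_mul_left (a4.trans (le_of_eq ?_))
      (show 0 < ε / Fintype.card α ^ k by positivity)
    rw [div_pow, mul_pow (ε * θ), pow_succ (ε * θ)]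
    field_simp
  nlinarith

end

end Crest.Agent.R33.PiAux
end

-- ▼ part PVc/R33/Pi
section

/-! The posterior resampling trick. -/

set_option autoImplicit false

open Finset
open scoped Classical

namespace Crest.Agent.R33

namespace PiAux
variable {α ι : Type} [Fintype α] [Fintype ι] [DecidableEq α] {β : ℝ} {E : ℕ}
  (M : Model α ι β E)

/-- The uniform distribution on a class. -/
noncomputable def kp (q : ι) (a : α) : ℝ := if a ∈ M.C q then 1 / (M.C q).card else 0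

theorem kp_nonneg (q : ι) (a : α) : 0 ≤ kp M q a := by
  unfold kp
  split_ifs <;> positivity

theorem kp_le (q : ι) (a : α) : kp M q a ≤ β := by
  unfold kp
  split_ifs
  · exact (div_le_iff₀ (M.card_C_pos q)).2 (M.big q)
  · exact M.β_pos.le

theorem sum_kp_ind (q : ι) (S : Finset α) :
    ∑ a, kp M q a * (if a ∈ S then 1 else 0) = M.kap q S := by
  have : ∀ a, kp M q a * (if a ∈ S then 1 else 0) =
      if a ∈ M.C q ∩ S then 1 / ((M.C q).card : ℝ) else 0 := by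
    intro a
    by_cases h1 : a ∈ M.C q <;> by_cases h2 : a ∈ S <;> simp [kp, h1, h2]
  simp only [this]
  rw [sum_ite_mem, univ_inter, sum_const, nsmul_eq_mul, Model.kap, mul_one_div]

theorem sum_kp (q : ι) : ∑ a, kp M q a = 1 := by
  have := sum_kp_ind M q univ
  simpa [Model.kap, (M.card_C_pos q).ne'] using this

theorem nu_eq (a : α) : M.nu a = ∑ q, M.π q * kp M q a := by
  refine sum_congr rfl fun q _ => ?_
  unfold Model.e kp
  split_ifs <;> simp [div_eq_mul_inv]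

theorem avg (G : α → ℝ) : ∑ q, M.π q * ∑ a, kp M q a * G a = ∑ a, M.nu a * G a := by
  rw [swap0]
  simp only [nu_eq, sum_mul]

/-- The two-step joint law. -/
noncomputable def pp (a b : α) : ℝ := ∑ q, M.π q * kp M q a * kp M q b

theorem pp_nonneg (a b : α) : 0 ≤ pp M a b :=
  sum_nonneg fun q _ => mul_nonneg (mul_nonneg (M.π_pos q).le (kp_nonneg M q a)) (kp_nonneg M q b)

theorem sum_pp (b : α) : ∑ a, pp M a b = M.nu b := by
  unfold pp
  rw [sum_comm, nu_eq]
  refine sum_congr rfl fun q _ => ?_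
  rw [← sum_mul, ← mul_sum, sum_kp, mul_one]

theorem sum_pp_diag : ∑ a, pp M a a ≤ β := by
  have : ∀ a, pp M a a ≤ M.nu a * β := fun a => by
    rw [nu_eq, sum_mul]
    exact sum_le_sum fun q _ => mul_le_mul_of_nonneg_left (kp_le M q a)
      (mul_nonneg (M.π_pos q).le (kp_nonneg M q a))
  refine (sum_le_sum fun a _ => this a).trans ?_
  rw [← sum_mul, M.sum_nu, one_mul]

theorem pp_le {a b : α} (h : a ≠ b) : pp M a b * (M.θ * Fintype.card α ^ 2) ≤ 2 := by
  have h1 : ∀ q, M.π q * kp M q a * kp M q b * (M.θ * Fintype.card α ^ 2) ≤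
      if a ∈ M.C q ∧ b ∈ M.C q then 1 else 0 := by
    intro q
    have h2 := M.π_le q
    have h3 := M.card_C_pos q
    by_cases ha : a ∈ M.C q <;> by_cases hb : b ∈ M.C q <;> simp only [kp, ha, hb] <;> simp
    calc _ = M.π q * (M.θ * Fintype.card α ^ 2) / (M.C q).card ^ 2 := by field_simp
      _ ≤ 1 := (div_le_one (by positivity)).2 h2
  rw [pp, sum_mul]
  refine (sum_le_sum fun q _ => h1 q).trans ?_
  rw [sum_boole]
  exact_mod_cast M.two a b h

theorem sq_eq (g : α → ℝ) :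
    ∑ q, M.π q * (∑ a, kp M q a * g a) ^ 2 = ∑ b, g b * ∑ a, pp M a b * g a := by
  simp only [pp, sq, sum_mul, mul_sum]
  rw [sum_comm]
  refine sum_congr rfl fun b _ => ?_
  rw [sum_comm]
  exact sum_congr rfl fun a _ => sum_congr rfl fun q _ => by ring

end PiAux

open PiAux in
/-- `p a b = ∑_q π q κ_q a κ_q b`, `A b a = p a b / ν b`, `J b ω = ν b ∏ A b (ω i)` for
`ω : Fin k → α`, `post ω a' = J a' ω / ∑_b J b ω`,
`ρ q a' = ∑_{a ∈ C q} (1/|C q|) ∑_ω (∏ A a (ω i)) post ω a'`.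
(iv): with `f = 1_S`, `g = f - Πf`, `φ = A g`, `φ̂ ω = (1/k) ∑ g (ω i)`:
`∑ π (κ_q g)² = E[(f b - f b') φ b] = E[(f b - f b')(φ b - φ̂ ω)] ≤ E|φ b - φ̂ ω| ≤ 1/√k`
(`b, b'` are exchangeable given `ω`).
(v): off the events `a' ∈ ω` (`≤ kβ`), `ν a' < ε/m` (`≤ ε`), `∑_b J b ω < ε/m^k` (`≤ ε`) the
posterior is `≤ (4/(θm)) (2/(εθm))^k / (ε/m^k)` (`nu_le`, `π_le`, `two`). -/
theorem pi_lemma {α ι : Type} [Fintype α] [Fintype ι] [DecidableEq α] {β : ℝ} {E : ℕ}
    (M : Model α ι β E) (hβ : β ≤ 1 / 2) (k : ℕ) (hk : 1 ≤ k) (ε : ℝ) (hε : 0 < ε) :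
    ∃ ρ : ι → α → ℝ, (∀ q a, 0 ≤ ρ q a) ∧ (∀ q, ∑ a, ρ q a = 1) ∧
      (∀ a, ∑ q, M.π q * ρ q a = M.nu a) ∧
      (∀ S : Finset α, ∑ q, M.π q * (M.kap q S - ∑ a ∈ S, ρ q a) ^ 2 ≤ 1 / √k) ∧
      (∀ Z : ι → Finset α, ∑ q, M.π q * ∑ a ∈ Z q, ρ q a ≤ k * β + 2 * ε +
        4 * 2 ^ k / (ε * M.θ) ^ (k + 1) * ∑ q, M.π q * (((Z q).card : ℝ) / Fintype.card α)) := by
  choose A hA0 hA1 hA using fun b => exists_cond M.nu_nonneg M.sum_nu fun a => pp_nonneg M a b
  simp only [sum_pp] at hA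
  have hW : ∀ b (ω : Fin k → α), 0 ≤ ∏ i, A b (ω i) := fun b ω => prod_nonneg fun i _ => hA0 _ _
  choose post hP0 hP1 hPJ using fun ω : Fin k → α =>
    exists_cond M.nu_nonneg M.sum_nu fun b => mul_nonneg (M.nu_nonneg b) (hW b ω)
  let ρ : ι → α → ℝ := fun q a' =>
    ∑ a, kp M q a * ∑ ω : Fin k → α, (∏ i, A a (ω i)) * post ω a'
  have hρ : ∀ q (G : α → ℝ), ∑ a', ρ q a' * G a' =
      ∑ a, kp M q a * ∑ ω : Fin k → α, (∏ i, A a (ω i)) * ∑ a', post ω a' * G a' := by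
    intro q G
    simp only [ρ, sum_mul, mul_sum]
    rw [sum_comm]
    refine sum_congr rfl fun a _ => ?_
    rw [sum_comm]
    exact sum_congr rfl fun ω _ => sum_congr rfl fun a' _ => by ring
  have hind : ∀ q (S : Finset α), ∑ a ∈ S, ρ q a = ∑ a, ρ q a * if a ∈ S then 1 else 0 := by
    intro q S
    simp
  refine ⟨ρ, fun q a' => sum_nonneg fun a _ => mul_nonneg (kp_nonneg M q a)
    (sum_nonneg fun ω _ => mul_nonneg (hW a ω) (hP0 ω a')), fun q => ?_, fun a' => ?_, fun S => ?_,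
    fun Z => ?_⟩
  · have := hρ q fun _ => 1
    simpa only [mul_one, hP1, sum_W (hA1 _), sum_kp] using this
  · have := swap hPJ fun _ a => if a = a' then 1 else 0
    simp only [mul_ite, mul_one, mul_zero, sum_ite_eq', mem_univ, if_true, sum_ite_irrel,
      sum_const_zero, sum_W (hA1 _)] at this
    rw [← this, ← avg]
  · obtain ⟨g, hg⟩ : ∃ g : α → ℝ, ∀ a, g a = (if a ∈ S then 1 else 0) -
        ∑ ω : Fin k → α, (∏ i, A a (ω i)) * ∑ a', post ω a' * if a' ∈ S then 1 else 0 :=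
      ⟨_, fun _ => rfl⟩
    have h1 : ∀ q, M.kap q S - ∑ a ∈ S, ρ q a = ∑ a, kp M q a * g a := by
      intro q
      rw [hind, hρ, ← sum_kp_ind, ← sum_sub_distrib]
      simp only [hg, mul_sub]
    have h2 := four M.nu_nonneg M.sum_nu hA0 hA1 hP0 hP1 hPJ hk
      (f := fun a => if a ∈ S then 1 else 0) (fun a => by split_ifs <;> norm_num)
      (fun a => by split_ifs <;> norm_num) hg
    simp only [h1]
    rw [sq_eq]
    refine le_of_eq_of_le (sum_congr rfl fun b _ => ?_) h2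
    simp only [← hA, mul_assoc, ← mul_sum]
    ring
  · have hm := M.card_pos
    obtain ⟨G, hG⟩ : ∃ G : (Fin k → α) → α → ℝ, ∀ ω a, G ω a =
        (∑ i, if ω i = a then 1 else 0) + (if M.nu a < ε / Fintype.card α then 1 else 0) +
          if ∑ b, M.nu b * ∏ i, A b (ω i) < ε / Fintype.card α ^ k then 1 else 0 :=
      ⟨_, fun _ _ => rfl⟩
    obtain ⟨B, hB⟩ : ∃ B : ℝ, B = 4 * 2 ^ k / (ε * M.θ) ^ (k + 1) := ⟨_, rfl⟩
    have h1 : ∑ a, M.nu a * ∑ ω : Fin k → α, (∏ i, A a (ω i)) * G ω a ≤ k * β + 2 * ε := by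
      have := bad_le (ν := M.nu) (k := k) hA1 hε hm (by simpa only [hA] using sum_pp_diag M)
      simp only [hG]
      convert this
    have h2 : ∀ ω a, post ω a ≤ post ω a * G ω a + B / Fintype.card α := by
      intro ω a
      have := post_le hA0 hP0 hPJ hε M.θ_pos hm (M.nu_le hβ)
        (fun a b h => by rw [hA]; exact pp_le M h) ω a
      rw [hG, hB]
      convert this
    have hG0 : ∀ ω a, 0 ≤ G ω a := fun ω a => by
      rw [hG]
      refine add_nonneg (add_nonneg (sum_nonneg fun i _ => ?_) ?_) ?_ <;> split_ifs <;> norm_num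
    have h3 : ∀ q ω, ∑ a', post ω a' * (if a' ∈ Z q then 1 else 0) ≤
        ∑ a', post ω a' * G ω a' + B * (((Z q).card : ℝ) / Fintype.card α) := by
      intro q ω
      have e : B * (((Z q).card : ℝ) / Fintype.card α) =
          ∑ a', if a' ∈ Z q then B / Fintype.card α else 0 := by
        rw [sum_ite_mem, univ_inter, sum_const, nsmul_eq_mul]
        ring
      rw [e, ← sum_add_distrib]
      refine sum_le_sum fun a _ => ?_
      split_ifs
      · simpa using h2 ω a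
      · simpa using mul_nonneg (hP0 ω a) (hG0 ω a)
    have h4 : ∀ q, ∑ a ∈ Z q, ρ q a ≤
        ∑ a, kp M q a * ∑ ω : Fin k → α, (∏ i, A a (ω i)) * ∑ a', post ω a' * G ω a' +
          B * (((Z q).card : ℝ) / Fintype.card α) := by
      intro q
      rw [hind, hρ]
      refine (sum_le_sum fun a _ => mul_le_mul_of_nonneg_left (sum_le_sum fun ω _ =>
        mul_le_mul_of_nonneg_left (h3 q ω) (hW a ω)) (kp_nonneg M q a)).trans (le_of_eq ?_)
      simp only [mul_add, sum_add_distrib, ← sum_mul, sum_W (hA1 _), sum_kp, one_mul]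
    refine (sum_le_sum fun q _ => mul_le_mul_of_nonneg_left (h4 q) (M.π_pos q).le).trans ?_
    simp only [mul_add, sum_add_distrib]
    rw [avg, swap hPJ, ← hB, mul_sum]
    exact add_le_add h1 (le_of_eq (sum_congr rfl fun q _ => by ring))

end Crest.Agent.R33
end

-- ▼ part PVc/R33/Circ
section

/-! Rich circles carry little weight. -/

set_option autoImplicit false

open Finset
open scoped Classical

namespace Crest.Agent.R33

namespace CircAux

variable {α ι : Type} [Fintype α] [Fintype ι] [DecidableEq α] {β : ℝ} {E : ℕ}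
    {M : Model α ι β E} {K : Type} [Field K] {R : Subring K}

theorem pi_le (M : Model α ι β E) (hE : 1 ≤ E) (q : ι) :
    M.π q * Fintype.card α ≤ β * M.θ ^ (E - 1) * (M.C q).card := by
  have hm := M.card_pos
  have hθ := M.θ_pos
  have hc := M.card_C_pos q
  have h1 := M.π_le q
  have h2 := M.small q
  have hE' : M.θ ^ E = M.θ ^ (E - 1) * M.θ := by
    rw [← pow_succ]; congr 1; omega
  have h3 : ((M.C q).card : ℝ) ^ 2 ≤ (M.C q).card * (β * M.θ ^ E * Fintype.card α) := by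
    rw [sq]; exact mul_le_mul_of_nonneg_left h2 hc.le
  have h4 : (M.π q * Fintype.card α) * (M.θ * Fintype.card α) ≤
      (β * M.θ ^ (E - 1) * (M.C q).card) * (M.θ * Fintype.card α) := by
    calc (M.π q * Fintype.card α) * (M.θ * Fintype.card α)
        = M.π q * (M.θ * (Fintype.card α : ℝ) ^ 2) := by ring
      _ ≤ (M.C q).card * (β * M.θ ^ E * Fintype.card α) := h1.trans h3
      _ = _ := by rw [hE']; ring
  exact le_of_mul_le_mul_right h4 (mul_pos hθ hm)

theorem mass (G : Geo M R) (hE : 1 ≤ E) (S : Finset ι) (z : K × K) (hS : ∀ q ∈ S, G.ctr q = z) :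
    ∑ q ∈ S, M.π q ≤ β * M.θ ^ (E - 1) := by
  have hm := M.card_pos
  have hρ : 0 ≤ β * M.θ ^ (E - 1) := mul_nonneg M.β_pos.le (pow_nonneg M.θ_pos.le _)
  have hd : (S : Set ι).PairwiseDisjoint M.C := by
    intro q hq q' hq' hne
    exact G.disj q q' hne ((hS q hq).trans (hS q' hq').symm)
  have hc : ∑ q ∈ S, ((M.C q).card : ℝ) ≤ Fintype.card α := by
    have h1 := Finset.card_biUnion hd
    have h2 : (S.biUnion M.C).card ≤ Fintype.card α := Finset.card_le_univ _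
    rw [h1] at h2
    exact_mod_cast h2
  have h : (∑ q ∈ S, M.π q) * Fintype.card α ≤ β * M.θ ^ (E - 1) * Fintype.card α := by
    calc (∑ q ∈ S, M.π q) * Fintype.card α = ∑ q ∈ S, M.π q * Fintype.card α := by
          rw [Finset.sum_mul]
      _ ≤ ∑ q ∈ S, β * M.θ ^ (E - 1) * (M.C q).card :=
          Finset.sum_le_sum fun q _ => pi_le M hE q
      _ = β * M.θ ^ (E - 1) * ∑ q ∈ S, ((M.C q).card : ℝ) := by rw [Finset.mul_sum]
      _ ≤ _ := mul_le_mul_of_nonneg_left hc hρ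
  exact le_of_mul_le_mul_right h hm

theorem pair (G : Geo M R) (hE : 1 ≤ E) (a b : α) (hab : a ≠ b) (S : Finset ι)
    (hS : ∀ q ∈ S, Dd (G.pt a) (G.ctr q) = 1 ∧ Dd (G.pt b) (G.ctr q) = 1) :
    ∑ q ∈ S, M.π q ≤ 2 * (β * M.θ ^ (E - 1)) := by
  have hρ : 0 ≤ β * M.θ ^ (E - 1) := mul_nonneg M.β_pos.le (pow_nonneg M.θ_pos.le _)
  have hne : G.pt a ≠ G.pt b := fun h => hab (G.pt_inj h)
  have h1 : (G.pt a).1 ≠ (G.pt b).1 := G.gen1.inj _ (G.pt_mem a) _ (G.pt_mem b) hne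
  have h2 : (G.pt a).2 ≠ (G.pt b).2 := G.gen2.inj _ (G.pt_mem a) _ (G.pt_mem b) hne
  have hZ : (S.image G.ctr).card ≤ 2 := by
    refine two_centres _ _ h1 h2 _ ?_
    intro z hz
    obtain ⟨q, hq, rfl⟩ := Finset.mem_image.1 hz
    exact hS q hq
  have hZ' : ((S.image G.ctr).card : ℝ) ≤ 2 := by exact_mod_cast hZ
  rw [← Finset.sum_fiberwise_of_maps_to (s := S) (t := S.image G.ctr) (g := G.ctr)
    (fun q hq => Finset.mem_image_of_mem _ hq)]
  calc ∑ z ∈ S.image G.ctr, ∑ q ∈ S with G.ctr q = z, M.π q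
      ≤ ∑ _z ∈ S.image G.ctr, β * M.θ ^ (E - 1) :=
        Finset.sum_le_sum fun z _ => mass G hE _ z fun q hq => (Finset.mem_filter.1 hq).2
    _ = (S.image G.ctr).card * (β * M.θ ^ (E - 1)) := by rw [Finset.sum_const, nsmul_eq_mul]
    _ ≤ _ := mul_le_mul_of_nonneg_right hZ' hρ

theorem offdiag (T : Finset α) :
    (T.card : ℝ) * (T.card - 1) =
      ∑ p ∈ (univ : Finset α).offDiag, if p.1 ∈ T ∧ p.2 ∈ T then (1 : ℝ) else 0 := by
  rw [Finset.sum_boole]
  have : ((univ : Finset α).offDiag.filter fun p => p.1 ∈ T ∧ p.2 ∈ T) = T.offDiag := by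
    ext p
    simp only [Finset.mem_filter, Finset.mem_offDiag, Finset.mem_univ, true_and]
    tauto
  rw [this, Finset.offDiag_card, Nat.cast_sub (Nat.le_mul_self _)]
  push_cast
  ring

theorem le_sqrt (n : ℕ) : (n : ℝ) ≤ 1 + √((n : ℝ) * (n - 1)) := by
  rcases Nat.eq_zero_or_pos n with rfl | hn
  · simp
  · have h1 : (1 : ℝ) ≤ n := by exact_mod_cast hn
    have : (n : ℝ) - 1 ≤ √((n : ℝ) * (n - 1)) := by
      apply Real.le_sqrt_of_sq_le
      nlinarith
    linarith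

theorem mul_nonneg' (n : ℕ) : 0 ≤ (n : ℝ) * (n - 1) := by
  rcases Nat.eq_zero_or_pos n with rfl | hn
  · simp
  · have h1 : (1 : ℝ) ≤ n := by exact_mod_cast hn
    nlinarith

end CircAux

open CircAux in
/-- Cauchy–Schwarz: `∑_z n(z)(n(z)-1) ≤ 2m²` over the centres (`two_centres`), and the `π`-mass of
one centre is `≤ β θ^{E-1}` (`disj`, `π_le`, `small`). -/
theorem circ_mean {α ι : Type} [Fintype α] [Fintype ι] [DecidableEq α] {β : ℝ} {E : ℕ}
    {M : Model α ι β E} {K : Type} [Field K] {R : Subring K} (G : Geo M R) (hE : 1 ≤ E) :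
    ∑ q, M.π q * (((univ.filter fun a => Dd (G.pt a) (G.ctr q) = 1).card : ℝ) / Fintype.card α) ≤
      β * M.θ ^ E + √(2 * β * M.θ ^ (E - 1)) := by
  have hm := M.card_pos
  have hρ : 0 ≤ β * M.θ ^ (E - 1) := mul_nonneg M.β_pos.le (pow_nonneg M.θ_pos.le _)
  set T : ι → Finset α := fun q => univ.filter fun a => Dd (G.pt a) (G.ctr q) = 1 with hT
  set m : ℝ := (Fintype.card α : ℝ) with hmdef
  have h2 : ∑ q, M.π q * (((T q).card : ℝ) * ((T q).card - 1)) ≤
      2 * (β * M.θ ^ (E - 1)) * m ^ 2 := by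
    calc ∑ q, M.π q * (((T q).card : ℝ) * ((T q).card - 1))
        = ∑ q, ∑ p ∈ (univ : Finset α).offDiag, if p.1 ∈ T q ∧ p.2 ∈ T q then M.π q else 0 := by
          refine Finset.sum_congr rfl fun q _ => ?_
          rw [offdiag, Finset.mul_sum]
          refine Finset.sum_congr rfl fun p _ => ?_
          split_ifs <;> simp
      _ = ∑ p ∈ (univ : Finset α).offDiag,
            ∑ q ∈ univ.filter (fun q => p.1 ∈ T q ∧ p.2 ∈ T q), M.π q := by
          rw [Finset.sum_comm]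
          refine Finset.sum_congr rfl fun p _ => ?_
          rw [Finset.sum_filter]
      _ ≤ ∑ _p ∈ (univ : Finset α).offDiag, 2 * (β * M.θ ^ (E - 1)) := by
          refine Finset.sum_le_sum fun p hp => ?_
          refine pair G hE p.1 p.2 (Finset.mem_offDiag.1 hp).2.2 _ fun q hq => ?_
          have := (Finset.mem_filter.1 hq).2
          exact ⟨(Finset.mem_filter.1 this.1).2, (Finset.mem_filter.1 this.2).2⟩
      _ = ((univ : Finset α).offDiag.card : ℝ) * (2 * (β * M.θ ^ (E - 1))) := by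
          rw [Finset.sum_const, nsmul_eq_mul]
      _ ≤ m ^ 2 * (2 * (β * M.θ ^ (E - 1))) := by
          refine mul_le_mul_of_nonneg_right ?_ (by positivity)
          have : (univ : Finset α).offDiag.card ≤ Fintype.card α ^ 2 := by
            rw [Finset.offDiag_card, Finset.card_univ, sq]; exact Nat.sub_le _ _
          rw [hmdef]; exact_mod_cast this
      _ = _ := by ring
  have hcs := Finset.sum_sq_le_sum_mul_sum_of_sq_eq_mul (univ : Finset ι)
    (r := fun q => M.π q * √(((T q).card : ℝ) * ((T q).card - 1)))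
    (f := M.π) (g := fun q => M.π q * (((T q).card : ℝ) * ((T q).card - 1)))
    (fun q _ => (M.π_pos q).le) (fun q _ => mul_nonneg (M.π_pos q).le (mul_nonneg' _))
    (fun q _ => by rw [mul_pow, Real.sq_sqrt (mul_nonneg' _)]; ring)
  rw [M.π_sum, one_mul] at hcs
  have h3 : ∑ q, M.π q * √(((T q).card : ℝ) * ((T q).card - 1)) ≤
      √(2 * β * M.θ ^ (E - 1)) * m := by
    have h4 : √(2 * β * M.θ ^ (E - 1)) * m = √(2 * (β * M.θ ^ (E - 1)) * m ^ 2) := by
      rw [Real.sqrt_mul' _ (sq_nonneg m), Real.sqrt_sq hm.le, mul_assoc]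
    rw [h4]
    exact Real.le_sqrt_of_sq_le (hcs.trans h2)
  have h5 : ∑ q, M.π q * ((T q).card : ℝ) ≤ 1 + √(2 * β * M.θ ^ (E - 1)) * m := by
    calc ∑ q, M.π q * ((T q).card : ℝ)
        ≤ ∑ q, (M.π q + M.π q * √(((T q).card : ℝ) * ((T q).card - 1))) := by
          refine Finset.sum_le_sum fun q _ => ?_
          have := mul_le_mul_of_nonneg_left (le_sqrt (T q).card) (M.π_pos q).le
          linarith
      _ = 1 + ∑ q, M.π q * √(((T q).card : ℝ) * ((T q).card - 1)) := by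
          rw [Finset.sum_add_distrib, M.π_sum]
      _ ≤ _ := by linarith
  have h6 := M.one_le_small
  have h7 : ∑ q, M.π q * (((T q).card : ℝ) / m) = (∑ q, M.π q * ((T q).card : ℝ)) / m := by
    rw [Finset.sum_div]
    refine Finset.sum_congr rfl fun q _ => ?_
    ring
  show ∑ q, M.π q * (((T q).card : ℝ) / m) ≤ _
  rw [h7, div_le_iff₀ hm]
  rw [← hmdef] at h6
  linarith [add_mul (β * M.θ ^ E) (√(2 * β * M.θ ^ (E - 1))) m]

end Crest.Agent.R33
end

-- ▼ part PVc/R33/Public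

/-! The case of bounded heights: product formula for `D(a',q) - 1`. -/

set_option autoImplicit false

open Finset
open scoped Classical

namespace Crest.Agent.R33

/-- Averaging a pointwise bound against a probability weight. -/
theorem pub_avg {V ι α : Type} [Fintype V] [Fintype ι] [Fintype α] (W : ι → α → ℝ)
    (hW : ∀ q a, 0 ≤ W q a) (hsum : ∑ q, ∑ a, W q a = 1) (c : V → ℝ) (hc : ∀ v, 0 ≤ c v)
    (good : ι → α → Prop) (S : V → ι → α → Prop) (B δ : ℝ) (hB : 0 ≤ B)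
    (hpt : ∀ q a, good q a → ∑ v, (if S v q a then c v else 0) ≤ B)
    (hS : ∀ v, δ ≤ ∑ q, ∑ a, if good q a ∧ S v q a then W q a else 0) :
    δ * ∑ v, c v ≤ B := by
  calc δ * ∑ v, c v = ∑ v, c v * δ := by
        rw [Finset.mul_sum]; exact Finset.sum_congr rfl fun v _ => mul_comm _ _
    _ ≤ ∑ v, c v * ∑ q, ∑ a, (if good q a ∧ S v q a then W q a else 0) :=
        Finset.sum_le_sum fun v _ => mul_le_mul_of_nonneg_left (hS v) (hc v)
    _ = ∑ v, ∑ q, ∑ a, c v * (if good q a ∧ S v q a then W q a else 0) := by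
        simp only [Finset.mul_sum]
    _ = ∑ q, ∑ a, ∑ v, c v * (if good q a ∧ S v q a then W q a else 0) := by
        rw [Finset.sum_comm]
        exact Finset.sum_congr rfl fun q _ => Finset.sum_comm
    _ ≤ ∑ q, ∑ a, W q a * B := by
        refine Finset.sum_le_sum fun q _ => Finset.sum_le_sum fun a _ => ?_
        by_cases hg : good q a
        · calc ∑ v, c v * (if good q a ∧ S v q a then W q a else 0)
              = W q a * ∑ v, (if S v q a then c v else 0) := by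
                rw [Finset.mul_sum]
                refine Finset.sum_congr rfl fun v _ => ?_
                by_cases hs : S v q a
                · simp [hg, hs, mul_comm]
                · simp [hs]
            _ ≤ W q a * B := mul_le_mul_of_nonneg_left (hpt q a hg) (hW q a)
        · simp only [hg, false_and, if_false, mul_zero, Finset.sum_const_zero]
          exact mul_nonneg (hW q a) hB
    _ = B := by
        simp only [← Finset.sum_mul]
        rw [hsum, one_mul]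

/-- A second-moment bound gives a first-moment bound. -/
theorem pub_cs {ι : Type} [Fintype ι] (p x : ι → ℝ) (hp : ∀ q, 0 ≤ p q) (hs : ∑ q, p q = 1)
    (δ : ℝ) (hδ : 0 < δ) (h : ∑ q, p q * x q ^ 2 ≤ δ ^ 2) : ∑ q, p q * x q ≤ δ := by
  have h1 : ∀ q, p q * x q * (2 * δ) ≤ p q * x q ^ 2 + p q * δ ^ 2 := fun q => by
    have := mul_nonneg (hp q) (sq_nonneg (x q - δ))
    nlinarith
  have h2 : (∑ q, p q * x q) * (2 * δ) ≤ ∑ q, p q * x q ^ 2 + δ ^ 2 := by
    rw [Finset.sum_mul]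
    calc ∑ q, p q * x q * (2 * δ) ≤ ∑ q, (p q * x q ^ 2 + p q * δ ^ 2) :=
          Finset.sum_le_sum fun q _ => h1 q
      _ = ∑ q, p q * x q ^ 2 + δ ^ 2 := by
          rw [Finset.sum_add_distrib, ← Finset.sum_mul, hs, one_mul]
  by_contra hlt
  push Not at hlt
  nlinarith

/-- A family taking at most `n` values. -/
theorem pub_few {ι T : Type} [Fintype ι] [DecidableEq T] (p : ι → ℝ) (hp : ∀ q, 0 ≤ p q)
    (S : ι → T) (n : ℕ) (hn : (univ.image S).card ≤ n) (f : ι → T → ℝ) (r : ℝ) (hr : 0 ≤ r)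
    (h : ∀ t, ∑ q, p q * f q t ^ 2 ≤ r) : ∑ q, p q * f q (S q) ^ 2 ≤ n * r := by
  calc ∑ q, p q * f q (S q) ^ 2 ≤ ∑ q, ∑ t ∈ univ.image S, p q * f q t ^ 2 := by
        refine Finset.sum_le_sum fun q _ => ?_
        exact Finset.single_le_sum (f := fun t => p q * f q t ^ 2)
          (fun t _ => mul_nonneg (hp q) (sq_nonneg _)) (Finset.mem_image_of_mem S (mem_univ q))
    _ = ∑ t ∈ univ.image S, ∑ q, p q * f q t ^ 2 := Finset.sum_comm
    _ ≤ ∑ _t ∈ univ.image S, r := Finset.sum_le_sum fun t _ => h t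
    _ = ((univ.image S).card : ℝ) * r := by rw [Finset.sum_const, nsmul_eq_mul]
    _ ≤ n * r := mul_le_mul_of_nonneg_right (by exact_mod_cast hn) hr

/-- Removing the bad events. -/
theorem pub_good {ι α : Type} [Fintype ι] [Fintype α] (W : ι → α → ℝ) (hW : ∀ q a, 0 ≤ W q a)
    (S B₁ B₂ B₃ g : ι → α → Prop) [∀ q a, Decidable (S q a)] [∀ q a, Decidable (B₁ q a)]
    [∀ q a, Decidable (B₂ q a)] [∀ q a, Decidable (B₃ q a)] [∀ q a, Decidable (g q a)]
    (hg : ∀ q a, S q a → ¬B₁ q a → ¬B₂ q a → ¬B₃ q a → g q a) :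
    (∑ q, ∑ a, if S q a then W q a else 0) ≤
      (∑ q, ∑ a, if g q a then W q a else 0) +
      (∑ q, ∑ a, if B₁ q a then W q a else 0) + (∑ q, ∑ a, if B₂ q a then W q a else 0) +
      (∑ q, ∑ a, if B₃ q a then W q a else 0) := by
  simp only [← Finset.sum_add_distrib]
  refine Finset.sum_le_sum fun q _ => Finset.sum_le_sum fun a _ => ?_
  have h := hW q a
  have h' := hg q a
  split_ifs <;> first | linarith | tauto

/-- The weight of the circles. -/
theorem pub_circ (k E : ℕ) (hE : 2 * k + 3 ≤ E) (β θ ε X : ℝ) (hβ0 : 0 < β) (hβ : β ≤ 1 / 2)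
    (hθ : 0 < θ) (hθ1 : θ ≤ 1) (hε : 0 < ε) (hX : X ≤ β * θ ^ E + √(2 * β * θ ^ (E - 1))) :
    k * β + 4 * 2 ^ k / (ε * θ) ^ (k + 1) * X ≤
      (k + 2 * (4 * 2 ^ k / ε ^ (k + 1))) * √(2 * β) := by
  have hs : β ≤ √(2 * β) := by
    apply Real.le_sqrt_of_sq_le
    nlinarith
  have hs0 : 0 ≤ √(2 * β) := Real.sqrt_nonneg _
  have h1 : θ ^ E ≤ θ ^ (k + 1) := pow_le_pow_of_le_one hθ.le hθ1 (by omega)
  have h2 : θ ^ (E - 1) ≤ (θ ^ (k + 1)) ^ 2 := by
    rw [← pow_mul]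
    exact pow_le_pow_of_le_one hθ.le hθ1 (by omega)
  have hk : 0 < θ ^ (k + 1) := pow_pos hθ _
  have h3 : √(2 * β * θ ^ (E - 1)) ≤ √(2 * β) * θ ^ (k + 1) := by
    calc √(2 * β * θ ^ (E - 1)) ≤ √(2 * β * (θ ^ (k + 1)) ^ 2) :=
          Real.sqrt_le_sqrt (mul_le_mul_of_nonneg_left h2 (by positivity))
      _ = √(2 * β) * θ ^ (k + 1) := by
          rw [Real.sqrt_mul (by positivity), Real.sqrt_sq hk.le]
  have h4 : X ≤ 2 * √(2 * β) * θ ^ (k + 1) := by
    have : β * θ ^ E ≤ √(2 * β) * θ ^ (k + 1) :=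
      mul_le_mul hs h1 (by positivity) hs0
    linarith
  have h5 : 4 * 2 ^ k / (ε * θ) ^ (k + 1) * X ≤ 2 * (4 * 2 ^ k / ε ^ (k + 1)) * √(2 * β) := by
    calc 4 * 2 ^ k / (ε * θ) ^ (k + 1) * X
        ≤ 4 * 2 ^ k / (ε * θ) ^ (k + 1) * (2 * √(2 * β) * θ ^ (k + 1)) :=
          mul_le_mul_of_nonneg_left h4 (by positivity)
      _ = 2 * (4 * 2 ^ k / ε ^ (k + 1)) * √(2 * β) := by
          rw [mul_pow]
          field_simp
  have h6 : (k : ℝ) * β ≤ k * √(2 * β) := mul_le_mul_of_nonneg_left hs (Nat.cast_nonneg k)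
  linarith

/-- Order of the constants: `J` with `J η/1000 > 10 + 10 log (10/η) + 5 + 2 K₀`, `n` from
`gain_place`, `k` with `√(n/√k) ≤ η/1000`, `ε = η/4000`, `E₁ = 2k + 3`, `β₁` small.  Weight
`π q * ρ q a'` (`pi_lemma`), event `𝒢 = {D ≠ 1, hgt a' ≤ Kb, hgt q ≤ Kb}` of complement
`≤ 3η/1000`; `∑ π ρ(S_v q) ≥ η/200 - √(n/√k)`; on `𝒢` use `pf` for `D - 1`, `Frame.cost` outside
`S_v q` and `gain_place` inside. -/
theorem public_case : ∃ η₀ > 0, ∀ η : ℝ, 0 < η → η ≤ η₀ → ∀ K₀ : ℝ, ∃ β₁ > 0, ∃ E₁ : ℕ,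
    ∀ (α ι : Type) [Fintype α] [Fintype ι] [DecidableEq α] (β : ℝ) (E : ℕ) (M : Model α ι β E)
      (K : Type) [Field K] (R : Subring K) (G : Geo M R) (P : Places K R)
      (F : ∀ v, Frame (P.pl v)) (Kb : ℝ), β ≤ β₁ → E₁ ≤ E → (∀ v, GoodFrame G (F v) η) →
      Kb ≤ K₀ * (Lam P F + 1) → M.nuP (fun a => Kb < hgt P F (G.pt a)) ≤ η / 1000 →
      M.piP (fun q => Kb < hgt P F (G.ctr q)) ≤ η / 1000 → False := by
  obtain ⟨η₀, hη₀, hgain⟩ := gain_place
  refine ⟨min η₀ 1, lt_min hη₀ one_pos, fun η hη hηle K₀ => ?_⟩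
  have hη1 : η ≤ 1 := hηle.trans (min_le_right _ _)
  have hL : 0 ≤ Real.log (10 / η) := by
    apply Real.log_nonneg
    rw [le_div_iff₀ hη]
    linarith
  obtain ⟨B, hBdef⟩ : ∃ B : ℝ, B = 15 + 10 * Real.log (10 / η) + 2 * |K₀| := ⟨_, rfl⟩
  have hB : 0 ≤ B := by rw [hBdef]; positivity
  obtain ⟨J, hJdef⟩ : ∃ J : ℝ, J = (B + 1) * 1000 / η := ⟨_, rfl⟩
  have hJ : 0 ≤ J := by rw [hJdef]; positivity
  have hJB : η / 1000 * J = B + 1 := by rw [hJdef]; field_simp
  obtain ⟨n, β₂, hβ₂, hg⟩ := hgain η hη (hηle.trans (min_le_left _ _)) J hJ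
  obtain ⟨k, hk1, hk⟩ : ∃ k : ℕ, 1 ≤ k ∧ (n : ℝ) * (1 / √k) ≤ (η / 1000) ^ 2 := by
    refine ⟨⌈((n : ℝ) / (η / 1000) ^ 2) ^ 2⌉₊ + 1, by omega, ?_⟩
    have h1 : (n : ℝ) / (η / 1000) ^ 2 ≤ √((⌈((n : ℝ) / (η / 1000) ^ 2) ^ 2⌉₊ + 1 : ℕ) : ℝ) := by
      apply Real.le_sqrt_of_sq_le
      push_cast
      linarith [Nat.le_ceil (((n : ℝ) / (η / 1000) ^ 2) ^ 2)]
    have h2 : 0 < √((⌈((n : ℝ) / (η / 1000) ^ 2) ^ 2⌉₊ + 1 : ℕ) : ℝ) := by
      apply Real.sqrt_pos.2
      positivity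
    rw [mul_one_div, div_le_iff₀ h2]
    rw [div_le_iff₀ (by positivity)] at h1
    linarith
  obtain ⟨A, hAdef⟩ : ∃ A : ℝ, A = k + 2 * (4 * 2 ^ k / (η / 4000) ^ (k + 1)) := ⟨_, rfl⟩
  have hA : 0 < A := by rw [hAdef]; positivity
  refine ⟨min β₂ (min (1 / 2) ((η / 2000 / A) ^ 2 / 2)),
    lt_min hβ₂ (lt_min (by norm_num) (by positivity)), 2 * k + 3, ?_⟩
  intro α ι _ _ _ β E M K _ R G P F Kb hβ hE hF hKb hnu hpi
  have hβa : β ≤ β₂ := hβ.trans (min_le_left _ _)
  have hβb : β ≤ 1 / 2 := hβ.trans ((min_le_right _ _).trans (min_le_left _ _))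
  have hβc : β ≤ (η / 2000 / A) ^ 2 / 2 := hβ.trans ((min_le_right _ _).trans (min_le_right _ _))
  have hβ0 : 0 < β := M.β_pos
  have hsq : A * √(2 * β) ≤ η / 2000 := by
    have : √(2 * β) ≤ η / 2000 / A := by
      apply Real.sqrt_le_iff.2
      exact ⟨by positivity, by linarith⟩
    rw [le_div_iff₀ hA] at this
    linarith
  choose S hSn hSm hSg using fun v => hg α ι β E M K R G (P.pl v) (F v) hβa (hF v)
  obtain ⟨ρ, hρ0, hρ1, hρν, hρ2, hρZ⟩ := pi_lemma M hβb k hk1 (η / 4000) (by positivity)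
  have hπ : ∀ q, 0 ≤ M.π q := fun q => (M.π_pos q).le
  have hW : ∀ q a, 0 ≤ M.π q * ρ q a := fun q a => mul_nonneg (hπ q) (hρ0 q a)
  have hsum : ∑ q, ∑ a, M.π q * ρ q a = 1 := by
    simp only [← Finset.mul_sum, hρ1, mul_one, M.π_sum]
  have hind : ∀ Z : ι → Finset α, (∑ q, ∑ a, if a ∈ Z q then M.π q * ρ q a else 0) =
      ∑ q, M.π q * ∑ a ∈ Z q, ρ q a := fun Z => by
    refine Finset.sum_congr rfl fun q _ => ?_
    rw [Finset.sum_ite_mem, Finset.univ_inter, Finset.mul_sum]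
  -- the three bad events
  have hB1 : (∑ q, ∑ a, if Dd (G.pt a) (G.ctr q) = 1 then M.π q * ρ q a else 0) ≤ η / 1000 := by
    have h1 := hρZ fun q => univ.filter fun a => Dd (G.pt a) (G.ctr q) = 1
    have h2 := pub_circ k E hE β M.θ (η / 4000) _ hβ0 hβb M.θ_pos M.θ_le (by positivity)
      (circ_mean G (by omega))
    rw [← hind] at h1
    simp only [Finset.mem_filter, Finset.mem_univ, true_and] at h1
    rw [← hAdef] at h2
    linarith
  have hB2 : (∑ q, ∑ a, if Kb < hgt P F (G.pt a) then M.π q * ρ q a else 0) ≤ η / 1000 := by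
    refine le_trans (le_of_eq ?_) hnu
    rw [Finset.sum_comm, Model.nuP]
    refine Finset.sum_congr rfl fun a _ => ?_
    by_cases h : Kb < hgt P F (G.pt a)
    · simp only [h, if_true, hρν]
    · simp only [h, if_false, Finset.sum_const_zero]
  have hB3 : (∑ q, ∑ a, if Kb < hgt P F (G.ctr q) then M.π q * ρ q a else 0) ≤ η / 1000 := by
    refine le_trans (le_of_eq ?_) hpi
    rw [Model.piP]
    refine Finset.sum_congr rfl fun q _ => ?_
    by_cases h : Kb < hgt P F (G.ctr q)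
    · simp only [h, if_true, ← Finset.mul_sum, hρ1, mul_one]
    · simp only [h, if_false, Finset.sum_const_zero]
  -- the mass of the sets `S v q`
  have hS : ∀ v, η / 200 - η / 1000 ≤ ∑ q, ∑ a, if a ∈ S v q then M.π q * ρ q a else 0 := by
    intro v
    rw [hind]
    have h1 := pub_few M.π hπ (S v) n (by convert hSn v)
      (fun q T => M.kap q T - ∑ a ∈ T, ρ q a) (1 / √k) (by positivity) hρ2
    have h2 := pub_cs M.π (fun q => M.kap q (S v q) - ∑ a ∈ S v q, ρ q a) hπ M.π_sum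
      (η / 1000) (by positivity) (h1.trans hk)
    simp only [mul_sub, Finset.sum_sub_distrib] at h2
    linarith [hSm v]
  have hLam : 0 ≤ Lam P F := Lam_nonneg P F
  have hwid : ∑ v, P.N v * (F v).wid ≤ Lam P F + Real.log (10 / η) :=
    sum_wid_le P F _ fun v => (hF v).logc
  have key := pub_avg (fun q a => M.π q * ρ q a) hW hsum
    (fun v => J * (P.N v * ((F v).hw + (P.pl v).ar)))
    (fun v => mul_nonneg hJ (mul_nonneg (P.N_nonneg v)
      (add_nonneg (F v).hw_nonneg (P.pl v).ar_nonneg)))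
    (fun q a => ¬Dd (G.pt a) (G.ctr q) = 1 ∧ ¬Kb < hgt P F (G.pt a) ∧ ¬Kb < hgt P F (G.ctr q))
    (fun v q a => a ∈ S v q) (B * (Lam P F + 1)) (η / 1000) (by positivity) ?_ ?_
  · have h1 : ∑ v, J * (P.N v * ((F v).hw + (P.pl v).ar)) = J * (Lam P F + 1) := by
      rw [← Finset.mul_sum]
      congr 1
      simp only [mul_add, Finset.sum_add_distrib, P.sum_ar, Lam]
    rw [h1, ← mul_assoc, hJB] at key
    nlinarith
  · rintro q a ⟨hD, ha, hq⟩
    push Not at ha hq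
    have hmem : Dd (G.pt a) (G.ctr q) - 1 ∈ R :=
      R.sub_mem (R.mul_mem (G.gen1.mem _ (G.pt_mem a) _ (G.ctr_mem q))
        (G.gen2.mem _ (G.pt_mem a) _ (G.ctr_mem q))) R.one_mem
    have h0 := P.pf _ hmem (sub_ne_zero.2 hD)
    have h1 : ∀ v, P.N v * Real.log ((P.pl v).abv (Dd (G.pt a) (G.ctr q) - 1)) +
        (if a ∈ S v q then J * (P.N v * ((F v).hw + (P.pl v).ar)) else 0) ≤
        10 * (P.N v * (F v).wid) + 5 * (P.N v * (P.pl v).ar) + P.N v * (F v).al (G.pt a) +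
          P.N v * (F v).al (G.ctr q) := by
      intro v
      have hN := P.N_nonneg v
      split_ifs with hs
      · have := mul_le_mul_of_nonneg_left (hSg v q a hs hD) hN
        linarith
      · have h2 := mul_le_mul_of_nonneg_left ((F v).cost hD) hN
        have h3 := mul_nonneg hN (F v).wid_nonneg
        have h4 := mul_nonneg hN (P.pl v).ar_nonneg
        linarith
    have h2 := Finset.sum_le_sum fun v (_ : v ∈ (univ : Finset P.V)) => h1 v
    simp only [Finset.sum_add_distrib, ← Finset.mul_sum] at h2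
    rw [P.sum_ar] at h2
    have h3 : ∑ v, P.N v * (F v).al (G.pt a) ≤ Kb := ha
    have h4 : ∑ v, P.N v * (F v).al (G.ctr q) ≤ Kb := hq
    have h5 : K₀ * (Lam P F + 1) ≤ |K₀| * (Lam P F + 1) :=
      mul_le_mul_of_nonneg_right (le_abs_self _) (by linarith)
    have h6 : 0 ≤ Real.log (10 / η) * Lam P F := mul_nonneg hL hLam
    have h7 : B * (Lam P F + 1) = 15 * Lam P F + 15 + 10 * (Real.log (10 / η) * Lam P F) +
        10 * Real.log (10 / η) + 2 * (|K₀| * (Lam P F + 1)) := by rw [hBdef]; ring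
    refine le_trans (le_of_eq ?_) (?_ : (∑ v, if a ∈ S v q then
      J * (P.N v * ((F v).hw + (P.pl v).ar)) else 0) ≤ _)
    · refine Finset.sum_congr rfl fun v _ => ?_
      congr
    · linarith
  · intro v
    have h1 := pub_good (fun q a => M.π q * ρ q a) hW (fun q a => a ∈ S v q)
      (fun q a => Dd (G.pt a) (G.ctr q) = 1) (fun _ a => Kb < hgt P F (G.pt a))
      (fun q _ => Kb < hgt P F (G.ctr q))
      (fun q a => (¬Dd (G.pt a) (G.ctr q) = 1 ∧ ¬Kb < hgt P F (G.pt a) ∧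
        ¬Kb < hgt P F (G.ctr q)) ∧ a ∈ S v q) (fun q a h0 h1 h2 h3 => ⟨⟨h1, h2, h3⟩, h0⟩)
    have h2 := hS v
    have h3 : η / 1000 ≤ ∑ q, ∑ a, if (¬Dd (G.pt a) (G.ctr q) = 1 ∧ ¬Kb < hgt P F (G.pt a) ∧
        ¬Kb < hgt P F (G.ctr q)) ∧ a ∈ S v q then M.π q * ρ q a else 0 := by
      linarith
    convert h3

end Crest.Agent.R33
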