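import Crest.Agent.PVc.R33.Defs

-- ▼ part PVc/R33/SpecPl
section

/-! The places of a number field. -/

set_option autoImplicit false

open Finset
open scoped Classical

namespace Crest.Agent.R33

namespace SpecPl
open NumberField

variable {K : Type} [Field K] [NumberField K]

theorem finite_bad (Z : Finset K) : {w : FinitePlace K | ∃ z ∈ Z, 1 < w z}.Finite := by
  have : {w : FinitePlace K | ∃ z ∈ Z, 1 < w z} ⊆
      ⋃ z ∈ (Z.filter (· ≠ 0) : Finset K), Function.mulSupport fun w : FinitePlace K => w z := by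
    rintro w ⟨z, hz, h⟩
    simp only [Set.mem_iUnion]
    refine ⟨z, mem_filter.mpr ⟨hz, ?_⟩, h.ne'⟩
    rintro rfl
    rw [map_zero] at h
    linarith
  refine Set.Finite.subset (Set.Finite.biUnion (Finset.finite_toSet _) fun z hz => ?_) this
  exact FinitePlace.hasFiniteMulSupport (mem_filter.mp hz).2

theorem le_one (Z : Finset K) (w : FinitePlace K) (hw : ∀ z ∈ Z, w z ≤ 1) {z : K}
    (hz : z ∈ Subring.closure (Z : Set K)) : w z ≤ 1 := by
  induction hz using Subring.closure_induction with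
  | mem x hx => exact hw x hx
  | zero => simp
  | one => simp
  | add x y _ _ hx hy => exact (w.add_le x y).trans (max_le hx hy)
  | neg x _ hx => rwa [map_neg_eq_map]
  | mul x y _ _ hx hy =>
    rw [map_mul]
    exact mul_le_one₀ hx (apply_nonneg _ _) hy

theorem log_pf {z : K} (hz : z ≠ 0) (S : Finset (FinitePlace K)) (hS : ∀ w ∉ S, w z ≤ 1) :
    0 ≤ ∑ w : InfinitePlace K, (w.mult : ℝ) * Real.log (w z) + ∑ w ∈ S, Real.log (w z) := by
  have hfin := FinitePlace.hasFiniteMulSupport hz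
  have h := prod_abs_eq_one hz
  rw [finprod_eq_prod_of_mulSupport_subset (s := S ∪ hfin.toFinset) _ (by
    intro w hw
    simp only [coe_union, Set.mem_union]
    exact Or.inr (by simpa using hw))] at h
  have h1 := congrArg Real.log h
  have p1 : ∀ w : InfinitePlace K, w z ≠ 0 := fun w => (InfinitePlace.pos_iff.mpr hz).ne'
  have p2 : ∀ w : FinitePlace K, w z ≠ 0 := fun w => (FinitePlace.pos_iff.mpr hz).ne'
  rw [Real.log_mul (prod_ne_zero_iff.mpr fun w _ => pow_ne_zero _ (p1 w))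
    (prod_ne_zero_iff.mpr fun w _ => p2 w), Real.log_prod (fun w _ => pow_ne_zero _ (p1 w)),
    Real.log_prod (fun w _ => p2 w), Real.log_one,
    ← sum_sdiff (subset_union_left : S ⊆ S ∪ hfin.toFinset)] at h1
  simp only [Real.log_pow] at h1
  have h2 : ∑ w ∈ (S ∪ hfin.toFinset) \ S, Real.log (w z) ≤ 0 :=
    sum_nonpos fun w hw => Real.log_nonpos (apply_nonneg _ _) (hS w (mem_sdiff.mp hw).2)
  linarith

end SpecPl

open NumberField SpecPl in
/-- Places of a number field: all infinite places (weight `mult / [K:ℚ]`) and the finite places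
(weight `1 / [K:ℚ]`) where some element of `Z` is not integral; `NumberField.prod_abs_eq_one`. -/
theorem exists_places (K : Type) [Field K] [NumberField K] (Z : Finset K) :
    Nonempty (Places K (Subring.closure (Z : Set K))) := by
  set S := (finite_bad Z).toFinset with hS
  have hd : (0 : ℝ) < Module.finrank ℚ K := by exact_mod_cast Module.finrank_pos
  refine ⟨⟨InfinitePlace K ⊕ S, inferInstance,
    Sum.elim (fun w => (w.mult : ℝ) / Module.finrank ℚ K) (fun _ => 1 / Module.finrank ℚ K),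
    Sum.elim (fun w => ⟨w.1, 1, Or.inr ⟨rfl, w.embedding, fun z => (w.norm_embedding_eq z).symm⟩⟩)
      (fun w => ⟨w.1.1, 0, Or.inl ⟨rfl, fun x y => w.1.add_le x y⟩⟩), ?_, ?_, ?_⟩⟩
  · rintro (w | w)
    · exact div_nonneg (Nat.cast_nonneg _) hd.le
    · exact div_nonneg zero_le_one hd.le
  · rw [Fintype.sum_sum_type]
    simp only [Sum.elim_inl, Sum.elim_inr, mul_one, mul_zero, sum_const_zero, add_zero]
    rw [← sum_div, ← Nat.cast_sum, InfinitePlace.sum_mult_eq, div_self hd.ne']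
  · intro z hz h0
    have h := log_pf h0 S fun w hw => le_one Z w (fun x hx => by
      by_contra hc
      exact hw (by simpa [hS] using ⟨x, hx, not_le.mp hc⟩)) hz
    rw [Fintype.sum_sum_type]
    simp only [Sum.elim_inl, Sum.elim_inr]
    rw [← sum_coe_sort S] at h
    have h2 := div_nonneg h hd.le
    rw [add_div, sum_div, sum_div] at h2
    refine h2.trans_eq (congrArg₂ _ (sum_congr rfl fun w _ => ?_) (sum_congr rfl fun w _ => ?_))
    · rw [InfinitePlace.coe_apply]; ring
    · rw [FinitePlace.coe_apply]; ring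

end Crest.Agent.R33
end

-- ▼ part PVc/R33/Spec

/-! Specialisation to a number field. -/

set_option autoImplicit false

open Finset
open scoped Classical

namespace Crest.Agent.R33

/-- A finitely generated subalgebra of `ℂ` maps to a number field. -/
theorem spec_exists_hom (Z : Finset ℂ) :
    ∃ (K : Type) (_ : Field K) (_ : NumberField K),
      Nonempty (Algebra.adjoin ℚ (Z : Set ℂ) →+* K) := by
  set A := Algebra.adjoin ℚ (Z : Set ℂ)
  have : Algebra.FiniteType ℚ A := (Subalgebra.fg_iff_finiteType A).mp (Subalgebra.fg_adjoin_finset Z)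
  obtain ⟨m, hm⟩ := Ideal.exists_maximal A
  let := Ideal.Quotient.field m
  have hfin : Module.Finite ℚ (A ⧸ m) := finite_of_finite_type_of_isJacobsonRing ℚ (A ⧸ m)
  have : CharZero (A ⧸ m) := algebraRat.charZero (A ⧸ m)
  refine ⟨A ⧸ m, inferInstance, @NumberField.mk _ _ inferInstance ?_, ⟨Ideal.Quotient.mk m⟩⟩
  convert hfin using 1
  exact Subsingleton.elim _ _

/-- first complex coordinate -/
noncomputable def specX (p : E2) : ℂ := p 0 + p 1 * Complex.I

/-- second complex coordinate -/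
noncomputable def specY (p : E2) : ℂ := p 0 - p 1 * Complex.I

theorem spec_DD (p q : E2) :
    (specX p - specX q) * (specY p - specY q) = ((dist p q ^ 2 : ℝ) : ℂ) := by
  rw [EuclideanSpace.dist_eq, Real.sq_sqrt (by positivity), Fin.sum_univ_two, Real.dist_eq,
    Real.dist_eq, sq_abs, sq_abs]
  simp only [specX, specY]
  push_cast
  linear_combination (-((p 1 : ℂ) - q 1) ^ 2) * Complex.I_sq

theorem spec_ne {p q : E2} (h : p ≠ q) : specX p - specX q ≠ 0 ∧ specY p - specY q ≠ 0 := by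
  rw [← mul_ne_zero_iff, spec_DD]
  exact_mod_cast pow_ne_zero 2 (dist_ne_zero.mpr h)

/-- Zariski's lemma: `A = ℚ[x_p, y_p, 1/(x_p - x_q), 1/(y_p - y_q)] ⊆ ℂ` with `x = a + i b`,
`y = a - i b`, modulo a maximal ideal (`finite_of_finite_type_of_isJacobsonRing`). -/
theorem exists_numberField (P : Finset E2) :
    ∃ (K : Type) (_ : Field K) (_ : NumberField K) (X Y : E2 → K),
      (∀ p ∈ P, ∀ q ∈ P, p ≠ q → X p ≠ X q) ∧ (∀ p ∈ P, ∀ q ∈ P, p ≠ q → Y p ≠ Y q) ∧
      (∀ p ∈ P, ∀ q ∈ P, ∀ r ∈ P, dist p q = dist p r → DD X Y p q = DD X Y p r) ∧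
      (∀ p ∈ P, ∀ q ∈ P, dist p q = 1 → DD X Y p q = 1) := by
  set Z : Finset ℂ := P.image specX ∪ P.image specY ∪
    (P ×ˢ P).image (fun t => ((specX t.1 - specX t.2) * (specY t.1 - specY t.2))⁻¹) with hZ
  obtain ⟨K, _, _, ⟨φ⟩⟩ := spec_exists_hom Z
  set A := Algebra.adjoin ℚ (Z : Set ℂ)
  have hX : ∀ p ∈ P, specX p ∈ A := fun p hp => Algebra.subset_adjoin (by
    simp only [hZ, coe_union, coe_image, Set.mem_union]
    exact Or.inl (Or.inl ⟨p, hp, rfl⟩))
  have hY : ∀ p ∈ P, specY p ∈ A := fun p hp => Algebra.subset_adjoin (by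
    simp only [hZ, coe_union, coe_image, Set.mem_union]
    exact Or.inl (Or.inr ⟨p, hp, rfl⟩))
  have hI : ∀ p ∈ P, ∀ q ∈ P, ((specX p - specX q) * (specY p - specY q))⁻¹ ∈ A :=
    fun p hp q hq => Algebra.subset_adjoin (by
      simp only [hZ, coe_union, coe_image, Set.mem_union]
      exact Or.inr ⟨(p, q), by simp [hp, hq], rfl⟩)
  set X : E2 → K := fun p => if h : specX p ∈ A then φ ⟨specX p, h⟩ else 0 with hXd
  set Y : E2 → K := fun p => if h : specY p ∈ A then φ ⟨specY p, h⟩ else 0 with hYd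
  have hD : ∀ p (hp : p ∈ P) q (hq : q ∈ P), DD X Y p q =
      φ ((⟨specX p, hX p hp⟩ - ⟨specX q, hX q hq⟩) * (⟨specY p, hY p hp⟩ - ⟨specY q, hY q hq⟩)) := by
    intro p hp q hq
    simp only [DD, hXd, hYd, dif_pos (hX p hp), dif_pos (hX q hq), dif_pos (hY p hp),
      dif_pos (hY q hq), map_mul, map_sub]
  have hne : ∀ p ∈ P, ∀ q ∈ P, p ≠ q → DD X Y p q ≠ 0 := by
    intro p hp q hq hpq
    have : DD X Y p q * φ ⟨_, hI p hp q hq⟩ = 1 := by
      rw [hD p hp q hq, ← map_mul, ← map_one φ]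
      congr 1
      exact Subtype.ext (mul_inv_cancel₀ (mul_ne_zero (spec_ne hpq).1 (spec_ne hpq).2))
    exact left_ne_zero_of_mul_eq_one this
  refine ⟨K, inferInstance, inferInstance, X, Y, fun p hp q hq hpq => ?_, fun p hp q hq hpq => ?_,
    fun p hp q hq r hr h => ?_, fun p hp q hq h => ?_⟩
  · exact sub_ne_zero.mp (left_ne_zero_of_mul (hne p hp q hq hpq))
  · exact sub_ne_zero.mp (right_ne_zero_of_mul (hne p hp q hq hpq))
  · rw [hD p hp q hq, hD p hp r hr]
    congr 1
    refine Subtype.ext ?_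
    change (specX p - specX q) * (specY p - specY q) = (specX p - specX r) * (specY p - specY r)
    rw [spec_DD, spec_DD, h]
  · rw [hD p hp q hq, ← map_one φ]
    congr 1
    refine Subtype.ext ?_
    change (specX p - specX q) * (specY p - specY q) = 1
    rw [spec_DD, h]; simp

theorem exists_spec (P : Finset E2) :
    ∃ (K : Type) (_ : Field K) (_ : CharZero K) (R : Subring K) (_ : Places K R) (X Y : E2 → K),
      GenX R X P ∧ GenX R Y P ∧
      (∀ p ∈ P, ∀ q ∈ P, ∀ r ∈ P, dist p q = dist p r → DD X Y p q = DD X Y p r) ∧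
      (∀ p ∈ P, ∀ q ∈ P, dist p q = 1 → DD X Y p q = 1) := by
  obtain ⟨K, _, _, X, Y, h1, h2, h3, h4⟩ := exists_numberField P
  set Z : Finset K := (P ×ˢ P).biUnion fun t =>
    {X t.1 - X t.2, (X t.1 - X t.2)⁻¹, Y t.1 - Y t.2, (Y t.1 - Y t.2)⁻¹} with hZ
  obtain ⟨Pl⟩ := exists_places K Z
  have hm : ∀ p ∈ P, ∀ q ∈ P, ∀ z ∈ ({X p - X q, (X p - X q)⁻¹, Y p - Y q, (Y p - Y q)⁻¹} : Finset K),
      z ∈ Subring.closure (Z : Set K) := fun p hp q hq z hz =>
    Subring.subset_closure (mem_coe.mpr (mem_biUnion.mpr ⟨(p, q), mem_product.mpr ⟨hp, hq⟩, hz⟩))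
  exact ⟨K, inferInstance, inferInstance, _, Pl, X, Y,
    ⟨h1, fun p hp q hq => hm p hp q hq _ (by simp), fun p hp q hq => hm p hp q hq _ (by simp)⟩,
    ⟨h2, fun p hp q hq => hm p hp q hq _ (by simp), fun p hp q hq => hm p hp q hq _ (by simp)⟩,
    h3, h4⟩

end Crest.Agent.R33
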