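import Crest.Agent.PVc.R33.Noeth_Mg
import Crest.Agent.PVc.R33.GenPos
import Crest.Agent.PVc.R33.Basic
import Crest.Agent.PVc.R33.Curve
import Crest.Agent.PVc.R33.Expand
import Crest.Agent.PVc.R33.Frame
import Crest.Agent.PVc.R33.Public_Mg
import Crest.Agent.PVc.R33.Spec
import Mathlib
import Crest.Agent.PVc.R33.Defs

-- ▼ part PVc/R33/LemZ
section

/-! Small cross ratios force small angles. -/

set_option autoImplicit false

open Finset
open scoped Classical

namespace Crest.Agent.R33

namespace LemZ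

/-- The names of the points. -/
abbrev Pt (N : ℕ) : Type := Idx N ⊕ Fin 4 ⊕ (Idx N × Fin 4)

/-- The coordinate ring. -/
abbrev Rg (N : ℕ) : Type := MvPolynomial (Pt N ⊕ Pt N) ℚ

section ring
variable {B B' : Type} [CommRing B] [CommRing B'] {N : ℕ}

/-- squared distance minus one -/
def dP (z : Pt N → B × B) (s t : Pt N) : B := ((z s).1 - (z t).1) * ((z s).2 - (z t).2) - 1

/-- polynomial form of `uu` -/
def uP (z : Pt N → B × B) (i : Idx N) (j : Fin 4) : B :=
  ((z (.inl i)).1 - (z (.inr (.inr (i, j)))).1) *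
    ((z (.inr (.inl j))).2 - (z (.inr (.inr (i, j)))).2)

/-- polynomial form of `uu⁻¹` -/
def vP (z : Pt N → B × B) (i : Idx N) (j : Fin 4) : B :=
  ((z (.inr (.inl j))).1 - (z (.inr (.inr (i, j)))).1) *
    ((z (.inl i)).2 - (z (.inr (.inr (i, j)))).2)

/-- polynomial form of `Om` -/
def oP (z : Pt N → B × B) (x : Idx N × Fin 4) : B :=
  uP z x.1 x.2 * uP z 0 0 * (vP z x.1 0 * vP z 0 x.2)

/-- the determinant of general position -/
noncomputable def detP (z : Pt N → B × B) : B :=
  (Matrix.of fun i ik : Idx N => (z (.inl i)).1 ^ (ik.1 : ℕ) * (z (.inl i)).2 ^ (ik.2 : ℕ)).det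

/-- the witness equation -/
noncomputable def eP (z : Pt N → B × B)
    (w : Idx N × Polynomial (MvPolynomial (Idx N × Fin 4) ℤ)) : B :=
  w.2.eval₂ (MvPolynomial.aeval (oP z) : MvPolynomial (Idx N × Fin 4) ℤ →ₐ[ℤ] B).toRingHom
    (uP z w.1 0)

/-- its leading coefficient -/
noncomputable def cP (z : Pt N → B × B)
    (w : Idx N × Polynomial (MvPolynomial (Idx N × Fin 4) ℤ)) : B :=
  MvPolynomial.aeval (oP z) w.2.leadingCoeff

/-- image of a configuration -/
def mp (φ : B →+* B') (z : Pt N → B × B) (s : Pt N) : B' × B' := (φ (z s).1, φ (z s).2)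

variable (φ : B →+* B') (z : Pt N → B × B)

theorem map_dP (s t : Pt N) : φ (dP z s t) = dP (mp φ z) s t := by simp [dP, mp]

theorem map_uP (i : Idx N) (j : Fin 4) : φ (uP z i j) = uP (mp φ z) i j := by simp [uP, mp]

theorem map_vP (i : Idx N) (j : Fin 4) : φ (vP z i j) = vP (mp φ z) i j := by simp [vP, mp]

theorem map_oP (x : Idx N × Fin 4) : φ (oP z x) = oP (mp φ z) x := by
  simp only [oP, map_mul, map_uP, map_vP]

theorem map_detP : φ (detP z) = detP (mp φ z) := by
  unfold detP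
  rw [RingHom.map_det]
  congr 1
  ext i ik
  simp [mp]

theorem comp_aeval : φ.comp
    (MvPolynomial.aeval (oP z) : MvPolynomial (Idx N × Fin 4) ℤ →ₐ[ℤ] B).toRingHom =
    (MvPolynomial.aeval (oP (mp φ z)) : MvPolynomial (Idx N × Fin 4) ℤ →ₐ[ℤ] B').toRingHom := by
  refine MvPolynomial.ringHom_ext (fun r => ?_) fun x => ?_
  · simp
  · simp [map_oP]

theorem map_eP (w : Idx N × Polynomial (MvPolynomial (Idx N × Fin 4) ℤ)) :
    φ (eP z w) = eP (mp φ z) w := by
  unfold eP
  rw [Polynomial.hom_eval₂, comp_aeval, map_uP]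

theorem map_cP (w : Idx N × Polynomial (MvPolynomial (Idx N × Fin 4) ℤ)) :
    φ (cP z w) = cP (mp φ z) w :=
  DFunLike.congr_fun (comp_aeval φ z) w.2.leadingCoeff

end ring

section field
variable {L : Type} [Field L] {N : ℕ}

theorem uu_eq {a b q : L × L} (hb : Dd b q = 1) : uu a b q = (a.1 - q.1) * (b.2 - q.2) := by
  unfold uu
  rw [div_eq_mul_inv, inv_eq_of_mul_eq_one_right hb]

theorem uu_inv {a b q : L × L} (ha : Dd a q = 1) : (uu a b q)⁻¹ = (b.1 - q.1) * (a.2 - q.2) := by
  unfold uu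
  rw [inv_div, div_eq_mul_inv, inv_eq_of_mul_eq_one_right ha]

variable (z : Pt N → L × L)
  (ha : ∀ i j, Dd (z (.inl i)) (z (.inr (.inr (i, j)))) = 1)
  (hb : ∀ i j, Dd (z (.inr (.inl j))) (z (.inr (.inr (i, j)))) = 1)

include hb in
theorem uP_eq (i : Idx N) (j : Fin 4) :
    uP z i j = uu (z (.inl i)) (z (.inr (.inl j))) (z (.inr (.inr (i, j)))) :=
  (uu_eq (hb i j)).symm

include ha hb in
theorem oP_eq : oP z = fun x : Idx N × Fin 4 => Om (fun i => z (.inl i)) (fun j => z (.inr (.inl j)))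
    (fun i j => z (.inr (.inr (i, j)))) x.1 x.2 := by
  funext x
  unfold Om oP
  rw [div_eq_mul_inv, mul_inv, uu_inv (ha _ _), uu_inv (ha _ _), uP_eq z hb, uP_eq z hb]
  rfl

end field

/-- the generic configuration -/
noncomputable def gen (N : ℕ) (s : Pt N) : Rg N × Rg N :=
  (MvPolynomial.X (.inl s), MvPolynomial.X (.inr s))

/-- the equations -/
def Eqs (N : ℕ) : Set (Rg N) :=
  {g | ∃ i j, g = dP (gen N) (.inl i) (.inr (.inr (i, j))) ∨
    g = dP (gen N) (.inr (.inl j)) (.inr (.inr (i, j)))}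

/-- the inequations -/
def Nes (N : ℕ) : Set (Rg N) :=
  {g | g = detP (gen N) ∨
    ∃ j k : Fin 4, j ≠ k ∧ g = (gen N (.inr (.inl j))).1 - (gen N (.inr (.inl k))).1}

variable {L : Type} [Field L] {N : ℕ} (φ : Rg N →+* L)

theorem eqs_iff : (∀ g ∈ Eqs N, g ∈ RingHom.ker φ) ↔
    (∀ i j, Dd (mp φ (gen N) (.inl i)) (mp φ (gen N) (.inr (.inr (i, j)))) = 1) ∧
    ∀ i j, Dd (mp φ (gen N) (.inr (.inl j))) (mp φ (gen N) (.inr (.inr (i, j)))) = 1 := by
  have key : ∀ s t, dP (gen N) s t ∈ RingHom.ker φ ↔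
      Dd (mp φ (gen N) s) (mp φ (gen N) t) = 1 := fun s t => by
    rw [RingHom.mem_ker, map_dP, dP, sub_eq_zero, Dd]
  constructor
  · intro h
    exact ⟨fun i j => (key _ _).1 (h _ ⟨i, j, Or.inl rfl⟩),
      fun i j => (key _ _).1 (h _ ⟨i, j, Or.inr rfl⟩)⟩
  · rintro ⟨h1, h2⟩ g ⟨i, j, rfl | rfl⟩
    · exact (key _ _).2 (h1 i j)
    · exact (key _ _).2 (h2 i j)

theorem nes_iff : (∀ g ∈ Nes N, g ∉ RingHom.ker φ) ↔
    (GenPos N fun i => mp φ (gen N) (.inl i)) ∧
    Function.Injective fun j : Fin 4 => (mp φ (gen N) (.inr (.inl j))).1 := by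
  have k1 : detP (gen N) ∉ RingHom.ker φ ↔ GenPos N fun i => mp φ (gen N) (.inl i) := by
    rw [RingHom.mem_ker, map_detP, genPos_iff_det]
    rfl
  have k2 : ∀ s t, (gen N s).1 - (gen N t).1 ∈ RingHom.ker φ ↔
      (mp φ (gen N) s).1 = (mp φ (gen N) t).1 := fun s t => by
    rw [RingHom.mem_ker, map_sub, sub_eq_zero]
    rfl
  constructor
  · intro h
    refine ⟨k1.1 (h _ (Or.inl rfl)), fun j k hjk => ?_⟩
    by_contra hne
    exact h _ (Or.inr ⟨j, k, hne, rfl⟩) ((k2 _ _).2 hjk)
  · rintro ⟨h1, h2⟩ g (rfl | ⟨j, k, hne, rfl⟩)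
    · exact k1.2 h1
    · exact fun h => hne (h2 ((k2 _ _).1 h))

theorem ht_nonneg {K : Type} [Field K] {R : Subring K} (P : Places K R) (z : K) : 0 ≤ ht P z :=
  sum_nonneg fun v _ => mul_nonneg (P.N_nonneg v) Real.posLog_nonneg

end LemZ

open LemZ in
/-- `noeth_cover` in `ℚ[coordinates, u, Ω]` (equations: the unit distances,
`u (x_b - x_q) = x_a - x_q`, `Ω u u = u u`; inequations: `x_{b_j} - x_{b_k}` and the determinant of
`genPos_iff_det`); at a prime use `lemZ_generic` in the fraction field of the quotient; at a point use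
the kernel of the evaluation and `ht_root`. -/
theorem lemZ : ∃ (N₀ : ℕ) (CZ : ℝ), 0 < CZ ∧ ∀ (K : Type) [Field K] [CharZero K] (R : Subring K)
    (P : Places K R) (A : Finset (K × K)) (a : Idx N₀ → K × K) (b : Fin 4 → K × K)
    (q : Idx N₀ → Fin 4 → K × K), GenX R Prod.fst A → (∀ i, a i ∈ A) → (∀ j, b j ∈ A) →
    (∀ i j, q i j ∈ A) → Function.Injective b → (∀ i j, Dd (a i) (q i j) = 1) →
    (∀ i j, Dd (b j) (q i j) = 1) → GenPos N₀ a →
    ∃ i, ht P (uu (a i) (b 0) (q i 0)) ≤ CZ * (1 + ∑ x : Idx N₀ × Fin 4, ht P (Om a b q x.1 x.2)) := by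
  obtain ⟨N, hN⟩ := lemZ_generic
  obtain ⟨s, hs⟩ := noeth_cover (Eqs N) (Nes N) (eP (gen N)) (cP (gen N)) (by
    intro 𝔭 h𝔭 h1 h2
    let L := FractionRing (Rg N ⧸ 𝔭)
    have : CharZero L := algebraRat.charZero L
    let φ : Rg N →+* L := (algebraMap (Rg N ⧸ 𝔭) L).comp (Ideal.Quotient.mk 𝔭)
    have hker : RingHom.ker φ = 𝔭 := by
      rw [RingHom.ker_comp_of_injective _ (IsFractionRing.injective (Rg N ⧸ 𝔭) L), Ideal.mk_ker]
    rw [← hker] at h1 h2
    obtain ⟨ha, hb⟩ := (eqs_iff φ).1 h1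
    obtain ⟨hg, hi⟩ := (nes_iff φ).1 h2
    obtain ⟨i, Q, hQ1, hQ2⟩ := hN L _ _ (fun i j => mp φ (gen N) (.inr (.inr (i, j)))) hi ha hb hg
    refine ⟨(i, Q), ?_, ?_⟩
    · rw [← hker, RingHom.mem_ker, map_eP, eP, oP_eq _ ha hb, uP_eq _ hb]
      exact hQ1
    · rw [← hker, RingHom.mem_ker, map_cP, cP, oP_eq _ ha hb]
      exact hQ2)
  choose C hC0 hC using fun Q : Polynomial (MvPolynomial (Idx N × Fin 4) ℤ) => ht_root Q
  have hsum : 0 ≤ ∑ w ∈ s, C w.2 := sum_nonneg fun w _ => (hC0 _).le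
  refine ⟨N, 1 + ∑ w ∈ s, C w.2, by linarith, ?_⟩
  intro K _ _ R P A a b q hA haA hbA hqA hb ha1 hb1 hg
  let z : Pt N → K × K := Sum.elim a (Sum.elim b fun x => q x.1 x.2)
  let φ : Rg N →+* K :=
    (MvPolynomial.aeval (Sum.elim (fun s => (z s).1) fun s => (z s).2) : Rg N →ₐ[ℚ] K).toRingHom
  have hz : mp φ (gen N) = z := by
    funext s
    simp [mp, gen, φ]
  obtain ⟨w, hw, h1, h2⟩ := hs (RingHom.ker φ) (RingHom.ker_isPrime φ)
    ((eqs_iff φ).2 (by rw [hz]; exact ⟨ha1, hb1⟩))
    ((nes_iff φ).2 (by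
      rw [hz]
      refine ⟨hg, fun j k hjk => ?_⟩
      by_contra hne
      exact hA.inj _ (hbA j) _ (hbA k) (fun h => hne (hb h)) hjk))
  rw [RingHom.mem_ker, map_eP, hz, eP, oP_eq z ha1 hb1, uP_eq z hb1] at h1
  rw [RingHom.mem_ker, map_cP, hz, cP, oP_eq z ha1 hb1] at h2
  have hu : ∀ i j, uu (a i) (b j) (q i j) ∈ R := fun i j => by
    rw [uu, div_eq_mul_inv]
    exact R.mul_mem (hA.mem _ (haA i) _ (hqA i j)) (hA.inv _ (hbA j) _ (hqA i j))
  have hu' : ∀ i j, (uu (a i) (b j) (q i j))⁻¹ ∈ R := fun i j => by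
    rw [uu, inv_div, div_eq_mul_inv]
    exact R.mul_mem (hA.mem _ (hbA j) _ (hqA i j)) (hA.inv _ (haA i) _ (hqA i j))
  have hO : ∀ x : Idx N × Fin 4, Om a b q x.1 x.2 ∈ R := fun x => by
    rw [Om, div_eq_mul_inv, mul_inv]
    exact R.mul_mem (R.mul_mem (hu _ _) (hu _ _)) (R.mul_mem (hu' _ _) (hu' _ _))
  refine ⟨w.1, (hC w.2 K R P (fun x => Om a b q x.1 x.2) _ hO h1 h2).trans ?_⟩
  refine mul_le_mul_of_nonneg_right ?_
    (add_nonneg zero_le_one (sum_nonneg fun x _ => ht_nonneg P _))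
  have := single_le_sum (f := fun w : Idx N × Polynomial (MvPolynomial (Idx N × Fin 4) ℤ) => C w.2)
    (fun w _ => (hC0 _).le) hw
  linarith

end Crest.Agent.R33
end

-- ▼ part PVc/R33/Count
section

/-! Finding a subdivided complete bipartite graph in general position. -/

set_option autoImplicit false

open Finset
open scoped Classical

namespace Crest.Agent.R33

namespace CountAux

variable {α ι : Type} [Fintype α] [Fintype ι] [DecidableEq α] {β : ℝ} {E : ℕ}
  (M : Model α ι β E) (Gd : α → ι → α → Prop)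

/-- Weight of one good path. -/
noncomputable def wt (a : α) (q : ι) (b : α) : ℝ :=
  if a ∈ M.C q ∧ b ∈ M.C q ∧ Gd a q b then M.π q / ((M.C q).card : ℝ) ^ 2 else 0


theorem P3_eq : M.P3 Gd = ∑ b, ∑ a, ∑ q, wt M Gd a q b := by
  have h : ∀ q, (∑ a ∈ M.C q, ∑ b ∈ M.C q,
      if Gd a q b then M.π q / ((M.C q).card : ℝ) ^ 2 else 0) = ∑ a, ∑ b, wt M Gd a q b := by
    intro q
    rw [← Finset.sum_subset (Finset.subset_univ (M.C q))]
    · refine Finset.sum_congr rfl fun a ha => ?_
      rw [← Finset.sum_subset (Finset.subset_univ (M.C q))]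
      · refine Finset.sum_congr rfl fun b hb => ?_
        simp [wt, ha, hb]
      · intro b _ hb
        simp [wt, hb]
    · intro a _ ha
      simp [wt, ha]
  rw [Model.P3]
  simp_rw [h]
  rw [Finset.sum_comm]
  simp_rw [Finset.sum_comm (s := (univ : Finset ι))]
  rw [Finset.sum_comm]

/-- The weight through `q` of the points of a set. -/
theorem sum_wt_le (S : Finset α) (q : ι) (b : α) :
    ∑ a ∈ S, wt M Gd a q b ≤ M.e b q * (((M.C q ∩ S).card : ℝ) / (M.C q).card) := by
  have hc := M.card_C_pos q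
  have hπ := M.π_pos q
  by_cases hb : b ∈ M.C q
  · have h1 : ∀ a ∈ S, wt M Gd a q b ≤
        if a ∈ M.C q then M.π q / ((M.C q).card : ℝ) ^ 2 else 0 := fun a _ => by
      unfold wt
      split_ifs with h1 h2
      · exact le_rfl
      · exact absurd h1.1 h2
      · positivity
      · exact le_rfl
    refine (Finset.sum_le_sum h1).trans_eq ?_
    rw [← Finset.sum_filter, Finset.filter_mem_eq_inter, Finset.sum_const, nsmul_eq_mul,
      Finset.inter_comm, Model.e, if_pos hb]
    field_simp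
  · rw [Finset.sum_eq_zero fun a _ => by simp [wt, hb], Model.e, if_neg hb, zero_mul]

theorem g_le_nu (b : α) : ∑ a, ∑ q, wt M Gd a q b ≤ M.nu b := by
  rw [Finset.sum_comm, Model.nu]
  refine Finset.sum_le_sum fun q _ => (sum_wt_le M Gd univ q b).trans_eq ?_
  rw [Finset.inter_univ, div_self (M.card_C_pos q).ne', mul_one]

theorem pair_le (hG : ∀ a q b, Gd a q b → a ≠ b) (a b : α) :
    (∑ q, wt M Gd a q b) * (M.θ * (Fintype.card α : ℝ) ^ 2) ≤ 2 := by
  by_cases hab : a = b
  · have h0 : ∑ q, wt M Gd a q b = 0 :=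
      Finset.sum_eq_zero fun q _ => if_neg fun h => hG _ _ _ h.2.2 hab
    rw [h0, zero_mul]
    norm_num
  · rw [Finset.sum_mul]
    have h1 : ∀ q ∈ (univ : Finset ι), wt M Gd a q b * (M.θ * (Fintype.card α : ℝ) ^ 2) ≤
        if a ∈ M.C q ∧ b ∈ M.C q then 1 else 0 := fun q _ => by
      unfold wt
      split_ifs with h1 h2
      · rw [div_mul_eq_mul_div, div_le_one (pow_pos (M.card_C_pos q) 2)]
        exact M.π_le q
      · exact absurd ⟨h1.1, h1.2.1⟩ h2
      · simp
      · simp
    refine (Finset.sum_le_sum h1).trans ?_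
    rw [Finset.sum_boole]
    exact_mod_cast M.two a b hab

/-- The weight of the paths starting on a curve. -/
theorem curve_le (hE : 1 ≤ E) {K : Type} [Field K] [CharZero K] {R : Subring K} (G : Geo M R)
    (N : ℕ) (c : Idx N → K) (hc : c ≠ 0) (b : α) :
    ∑ a ∈ univ.filter (fun a => ev N c (G.pt a) = 0), ∑ q, wt M Gd a q b ≤
      2 * N * β * M.nu b + N * β / Fintype.card α := by
  set S := univ.filter (fun a => ev N c (G.pt a) = 0) with hS
  set Q := univ.filter (fun q => b ∈ M.C q ∧ 2 * N < (M.C q ∩ S).card) with hQ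
  have hβ := M.β_pos
  have hm := M.card_pos
  have hinj : Set.InjOn G.ctr Q := fun q hq q' hq' h => by
    by_contra hne
    have h1 := (Finset.mem_filter.1 (Finset.mem_coe.1 hq)).2.1
    have h2 := (Finset.mem_filter.1 (Finset.mem_coe.1 hq')).2.1
    exact Finset.disjoint_left.1 (G.disj q q' hne h) h1 h2
  have hcard : Q.card ≤ N := by
    rw [← Finset.card_image_of_injOn hinj]
    refine curve_circle N c hc _ ?_ ?_
    · intro z hz z' hz' hne
      obtain ⟨q, -, rfl⟩ := Finset.mem_image.1 hz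
      obtain ⟨q', -, rfl⟩ := Finset.mem_image.1 hz'
      exact G.gen2.inj _ (G.ctr_mem q) _ (G.ctr_mem q') hne
    · intro z hz
      obtain ⟨q, hq, rfl⟩ := Finset.mem_image.1 hz
      refine ⟨(M.C q ∩ S).image G.pt, ?_, fun p hp => ?_⟩
      · rw [Finset.card_image_of_injective _ G.pt_inj]
        exact (Finset.mem_filter.1 hq).2.2
      · obtain ⟨a, ha, rfl⟩ := Finset.mem_image.1 hp
        rw [Finset.mem_inter] at ha
        exact ⟨G.unit q a ha.1, (Finset.mem_filter.1 ha.2).2⟩
  have h1 : ∀ q ∈ (univ : Finset ι), ∑ a ∈ S, wt M Gd a q b ≤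
      2 * N * β * M.e b q + if q ∈ Q then β / Fintype.card α else 0 := fun q _ => by
    refine (sum_wt_le M Gd S q b).trans ?_
    have he := M.e_nonneg b q
    have hc := M.card_C_pos q
    split_ifs with h
    · have h2 : ((M.C q ∩ S).card : ℝ) / (M.C q).card ≤ 1 := M.kap_le_one q S
      have h3 : M.e b q ≤ β / Fintype.card α := by
        rw [le_div_iff₀ hm]
        exact M.e_le hE b q
      have h4 : 0 ≤ 2 * N * β * M.e b q := by positivity
      nlinarith
    · by_cases hb : b ∈ M.C q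
      · have h2 : (M.C q ∩ S).card ≤ 2 * N := by
          by_contra h3
          exact h (Finset.mem_filter.2 ⟨Finset.mem_univ _, hb, not_le.1 h3⟩)
        have h3 : ((M.C q ∩ S).card : ℝ) ≤ 2 * N := by exact_mod_cast h2
        have h4 : ((M.C q ∩ S).card : ℝ) / (M.C q).card ≤ 2 * N * β := by
          rw [div_le_iff₀ hc]
          have h5 := M.big q
          have h6 : (0 : ℝ) ≤ 2 * N := by positivity
          nlinarith
        rw [add_zero, mul_comm]
        exact mul_le_mul_of_nonneg_right h4 he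
      · rw [Model.e, if_neg hb]
        simp
  rw [Finset.sum_comm]
  refine (Finset.sum_le_sum h1).trans ?_
  rw [Finset.sum_add_distrib, ← Finset.mul_sum, Finset.sum_ite_mem, Finset.univ_inter,
    Finset.sum_const, nsmul_eq_mul, mul_div_assoc]
  have h2 : (Q.card : ℝ) ≤ N := by exact_mod_cast hcard
  refine add_le_add le_rfl ?_
  gcongr

end CountAux

open CountAux in
/-- `g b` = path weight of the good triples ending at `b` (`≤ ν b ≤ 4/(θm)`); `b` is good if
`g b ≥ (γ/8) ν b` and `g b ≥ γ/(8m)`; there are `≥ 3γθm/16` good `b`.  For `c ≠ 0` the weight with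
`ev c a = 0` is `≤ 2Nβ ν b + N β/m` (`curve_circle` for the centres through `b`, `e_le`); each
`a ≠ b` carries `≤ 2/(θm²)`; so `Γ b` has `≥ γθm/64` points off the curve.  `count_genPos` and
pigeonhole over the `m^D` tuples (`one_le_small`, `E ≥ D + 1`). -/
theorem exists_K4 (γ : ℝ) (hγ : 0 < γ) (N : ℕ) : ∃ β₃ > 0, ∃ E₃ : ℕ, ∀ (α ι : Type) [Fintype α]
    [Fintype ι] [DecidableEq α] (β : ℝ) (E : ℕ) (M : Model α ι β E) (K : Type) [Field K]
    [CharZero K] (R : Subring K) (G : Geo M R) (Gd : α → ι → α → Prop), β ≤ β₃ → E₃ ≤ E →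
    (∀ a q b, Gd a q b → a ≠ b) → γ ≤ M.P3 Gd →
    ∃ (a : Idx N → α) (b : Fin 4 → α) (q : Idx N → Fin 4 → ι), Function.Injective b ∧
      GenPos N (fun i => G.pt (a i)) ∧
      ∀ i j, a i ∈ M.C (q i j) ∧ b j ∈ M.C (q i j) ∧ Gd (a i) (q i j) (b j) := by
  refine ⟨min (1 / 2) (min (γ / (64 * (N + 1))) ((γ / 32) ^ (Fintype.card (Idx N) + 1))),
    by positivity, Fintype.card (Idx N) + 1, ?_⟩
  intro α ι _ _ _ β E M K _ _ R G Gd hβ hE hG hP
  set D := Fintype.card (Idx N) with hD
  have hβ1 : β ≤ 1 / 2 := hβ.trans (min_le_left _ _)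
  have hβ2 : β ≤ γ / (64 * (N + 1)) := hβ.trans ((min_le_right _ _).trans (min_le_left _ _))
  have hβ3 : β ≤ (γ / 32) ^ (D + 1) := hβ.trans ((min_le_right _ _).trans (min_le_right _ _))
  have hβ0 := M.β_pos
  have hm := M.card_pos
  have hθ := M.θ_pos
  set m : ℝ := (Fintype.card α : ℝ) with hmd
  set g : α → ℝ := fun b => ∑ a, ∑ q, wt M Gd a q b with hg
  set B := univ.filter fun b => γ / 8 * M.nu b ≤ g b ∧ γ / 8 / m ≤ g b with hB
  -- many good end points
  have hB1 : 6 * (γ / 32) * M.θ * m ≤ B.card := by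
    have h1 : ∀ b ∈ (univ : Finset α), g b ≤
        (if b ∈ B then 4 / (M.θ * m) else 0) + (γ / 8 * M.nu b + γ / 8 / m) := fun b _ => by
      have n0 := M.nu_nonneg b
      have n1 : 0 ≤ γ / 8 * M.nu b := by positivity
      have n2 : 0 ≤ γ / 8 / m := by positivity
      split_ifs with h
      · have : g b ≤ 4 / (M.θ * m) := by
          refine (g_le_nu M Gd b).trans ?_
          rw [le_div_iff₀ (by positivity)]
          exact M.nu_le hβ1 b
        linarith
      · simp only [hB, Finset.mem_filter, Finset.mem_univ, true_and, not_and_or, not_le] at h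
        rcases h with h | h <;> linarith
    have h2 := Finset.sum_le_sum h1
    rw [← P3_eq, Finset.sum_add_distrib, Finset.sum_add_distrib, ← Finset.mul_sum, M.sum_nu,
      Finset.sum_ite_mem, Finset.univ_inter, Finset.sum_const, Finset.sum_const, nsmul_eq_mul,
      nsmul_eq_mul, Finset.card_univ, ← hmd, mul_div_cancel₀ _ hm.ne'] at h2
    have h3 : 3 / 4 * γ ≤ B.card * (4 / (M.θ * m)) := by linarith
    rw [← mul_div_assoc, le_div_iff₀ (by positivity)] at h3
    linarith
  set Γ : α → Finset α := fun b => univ.filter fun a => ∃ q, a ∈ M.C q ∧ b ∈ M.C q ∧ Gd a q b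
    with hΓ
  -- many points off each curve
  have hoff : ∀ b ∈ B, ∀ c : Idx N → K, c ≠ 0 →
      γ / 32 * M.θ * m ≤ (((Γ b).filter fun a => ev N c (G.pt a) ≠ 0).card : ℝ) := by
    intro b hb c hc
    obtain ⟨hb1, hb2⟩ := (Finset.mem_filter.1 hb).2
    have h1 := curve_le M Gd (by omega) G N c hc b
    have h2 := Finset.sum_filter_add_sum_filter_not univ (fun a => ev N c (G.pt a) = 0)
      fun a => ∑ q, wt M Gd a q b
    have n0 := M.nu_nonneg b
    have hN : (0 : ℝ) ≤ N := N.cast_nonneg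
    have h3 : N * β ≤ γ / 64 := by
      rw [le_div_iff₀ (by positivity)] at hβ2
      nlinarith
    have h4 : 2 * N * β * M.nu b ≤ g b / 4 := by nlinarith
    have h5 : N * β / m ≤ g b / 4 := by
      have : N * β / m ≤ γ / 64 / m := by gcongr
      have h6 : γ / 64 / m = γ / 8 / m / 8 := by ring
      have h7 : 0 ≤ γ / 8 / m := by positivity
      linarith
    have h6 : ∑ a ∈ univ.filter (fun a => ¬ev N c (G.pt a) = 0), ∑ q, wt M Gd a q b ≤
        (((Γ b).filter fun a => ev N c (G.pt a) ≠ 0).card : ℝ) * (2 / (M.θ * m ^ 2)) := by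
      rw [← nsmul_eq_mul, ← Finset.sum_const]
      rw [← Finset.sum_subset (s₁ := (Γ b).filter fun a => ev N c (G.pt a) ≠ 0)]
      · refine Finset.sum_le_sum fun a _ => ?_
        rw [le_div_iff₀ (by positivity)]
        exact pair_le M Gd hG a b
      · intro a ha
        exact Finset.mem_filter.2 ⟨Finset.mem_univ _, (Finset.mem_filter.1 ha).2⟩
      · intro a ha ha'
        refine Finset.sum_eq_zero fun q _ => if_neg fun h => ha' ?_
        exact Finset.mem_filter.2 ⟨Finset.mem_filter.2 ⟨Finset.mem_univ _, q, h⟩,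
          (Finset.mem_filter.1 ha).2⟩
    have h7 : γ / 8 / m / 2 ≤
        (((Γ b).filter fun a => ev N c (G.pt a) ≠ 0).card : ℝ) * (2 / (M.θ * m ^ 2)) := by
      have : g b = ∑ a, ∑ q, wt M Gd a q b := rfl
      linarith
    rw [← mul_div_assoc, le_div_iff₀ (by positivity)] at h7
    have h8 : γ / 8 / m / 2 * (M.θ * m ^ 2) = 2 * (γ / 32 * M.θ * m) := by
      field_simp
      norm_num
    linarith
  set T : α → Finset (Idx N → α) := fun b =>
    univ.filter fun a : Idx N → α => (∀ i, a i ∈ Γ b) ∧ GenPos N fun i => G.pt (a i) with hT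
  have hT1 : ∀ b ∈ B, (γ / 32 * M.θ * m) ^ D ≤ ((T b).card : ℝ) := fun b hb => by
    have := count_genPos N G.pt (Γ b) _ (by positivity) (hoff b hb)
    convert this
  -- pigeonhole
  have hpig : ∃ a : Idx N → α, 4 ≤ (B.filter fun b => a ∈ T b).card := by
    by_contra hcon
    simp only [not_exists, not_le] at hcon
    have h1 : ∑ b ∈ B, (T b).card = ∑ a : Idx N → α, (B.filter fun b => a ∈ T b).card := by
      simp_rw [Finset.card_filter]
      rw [Finset.sum_comm]
      refine Finset.sum_congr rfl fun b _ => ?_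
      simp
    have h2 : ∑ a : Idx N → α, (B.filter fun b => a ∈ T b).card ≤ Fintype.card α ^ D * 3 := by
      refine (Finset.sum_le_card_nsmul _ _ 3 fun a _ => Nat.lt_succ_iff.1 (hcon a)).trans_eq ?_
      rw [Finset.card_univ, Fintype.card_fun, smul_eq_mul]
    have h3 : ((∑ b ∈ B, (T b).card : ℕ) : ℝ) ≤ m ^ D * 3 := by
      rw [h1, hmd]
      exact_mod_cast h2
    have h4 : (B.card : ℝ) * (γ / 32 * M.θ * m) ^ D ≤ ((∑ b ∈ B, (T b).card : ℕ) : ℝ) := by
      rw [Nat.cast_sum, ← nsmul_eq_mul]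
      exact Finset.card_nsmul_le_sum _ _ _ hT1
    have h5 : 1 ≤ (γ / 32) ^ (D + 1) * M.θ ^ (D + 1) * m := by
      refine M.one_le_small.trans ?_
      have := pow_le_pow_of_le_one hθ.le M.θ_le hE
      gcongr
    have h6 : 6 * (γ / 32) * M.θ * m * (γ / 32 * M.θ * m) ^ D ≤
        (B.card : ℝ) * (γ / 32 * M.θ * m) ^ D := by gcongr
    have h7 : 6 * (γ / 32) * M.θ * m * (γ / 32 * M.θ * m) ^ D =
        6 * m ^ D * ((γ / 32) ^ (D + 1) * M.θ ^ (D + 1) * m) := by
      rw [mul_pow, mul_pow]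
      ring
    have h8 : 0 < m ^ D := by positivity
    nlinarith
  obtain ⟨a, ha⟩ := hpig
  obtain ⟨f, hf⟩ := Function.Embedding.exists_of_card_le_finset (α := Fin 4)
    (s := B.filter fun b => a ∈ T b) (by simpa using ha)
  have hmem : ∀ j, a ∈ T (f j) := fun j =>
    (Finset.mem_filter.1 (Finset.mem_coe.1 (hf ⟨j, rfl⟩))).2
  have hq : ∀ i j, ∃ q, a i ∈ M.C q ∧ f j ∈ M.C q ∧ Gd (a i) q (f j) := fun i j =>
    (Finset.mem_filter.1 ((Finset.mem_filter.1 (hmem j)).2.1 i)).2
  choose q hq using hq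
  exact ⟨a, f, q, f.injective, (Finset.mem_filter.1 (hmem 0)).2.2, hq⟩

end Crest.Agent.R33
end

-- ▼ part PVc/R33/Private
section

/-! The case of large heights. -/

set_option autoImplicit false

open Finset
open scoped Classical

namespace Crest.Agent.R33

section aux
variable {K : Type} [Field K] {R : Subring K}

/-- Common depth outside the giant cells. -/
noncomputable def mn (P : Places K R) (F : ∀ v, Frame (P.pl v)) (p p' : K × K) : ℝ :=
  ∑ v, P.N v * min ((F v).al p) ((F v).al p')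

/-- Error in the additive approximation of `tau`. -/
noncomputable def err (P : Places K R) (F : ∀ v, Frame (P.pl v)) (a q : K × K) : ℝ :=
  ∑ v, P.N v * |tau (P.pl v) a q - (F v).mid - (F v).w a - (F v).w q|

theorem err_le (P : Places K R) (F : ∀ v, Frame (P.pl v)) (Lc : ℝ)
    (hc : ∀ v, Real.log (F v).c ≤ (P.pl v).ar * Lc) {a q : K × K} (h : Dd a q = 1) :
    err P F a q ≤ Lam P F + Lc + 3 * mn P F a q + 3 := by
  have h1 := sum_wid_le P F Lc hc
  have h2 : err P F a q ≤ ∑ v, P.N v * ((F v).wid + 3 * min ((F v).al a) ((F v).al q) +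
      3 * (P.pl v).ar) :=
    sum_le_sum fun v _ => mul_le_mul_of_nonneg_left ((F v).tau_approx h) (P.N_nonneg v)
  have h3 : ∑ v, P.N v * ((F v).wid + 3 * min ((F v).al a) ((F v).al q) + 3 * (P.pl v).ar) =
      ∑ v, P.N v * (F v).wid + 3 * mn P F a q + 3 * ∑ v, P.N v * (P.pl v).ar := by
    simp only [mn, mul_sum, ← sum_add_distrib]
    exact sum_congr rfl fun v _ => by ring
  rw [h3, P.sum_ar] at h2
  linarith

theorem fst_ne_of_Dd {a q : K × K} (h : Dd a q = 1) : a.1 - q.1 ≠ 0 := by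
  intro h0
  simp [Dd, h0] at h

theorem uu_ne {a b q : K × K} (ha : Dd a q = 1) (hb : Dd b q = 1) : uu a b q ≠ 0 :=
  div_ne_zero (fst_ne_of_Dd ha) (fst_ne_of_Dd hb)

theorem log_uu (P : Pl K) {a b q : K × K} (ha : Dd a q = 1) (hb : Dd b q = 1) :
    Real.log (P.abv (uu a b q)) = tau P a q - tau P b q := by
  unfold uu tau
  rw [map_div₀, Real.log_div (P.abv.ne_zero (fst_ne_of_Dd ha)) (P.abv.ne_zero (fst_ne_of_Dd hb))]

theorem ht_Om_le (P : Places K R) (F : ∀ v, Frame (P.pl v)) {N : ℕ} (a : Idx N → K × K)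
    (b : Fin 4 → K × K) (q : Idx N → Fin 4 → K × K) (ha : ∀ i j, Dd (a i) (q i j) = 1)
    (hb : ∀ i j, Dd (b j) (q i j) = 1) (B : ℝ) (h1 : ∀ i j, err P F (a i) (q i j) ≤ B)
    (h2 : ∀ i j, err P F (b j) (q i j) ≤ B) (i : Idx N) (j : Fin 4) :
    ht P (Om a b q i j) ≤ 8 * B := by
  refine (ht_le_abs P _).trans ?_
  have key : ∑ v, P.N v * |Real.log ((P.pl v).abv (Om a b q i j))| ≤
      err P F (a i) (q i j) + err P F (b j) (q i j) + err P F (a 0) (q 0 0) +
        err P F (b 0) (q 0 0) + err P F (a i) (q i 0) + err P F (b 0) (q i 0) +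
        err P F (a 0) (q 0 j) + err P F (b j) (q 0 j) := by
    simp only [err, ← sum_add_distrib, ← mul_add]
    refine sum_le_sum fun v _ => mul_le_mul_of_nonneg_left ?_ (P.N_nonneg v)
    have n1 := (P.pl v).abv.ne_zero (uu_ne (ha i j) (hb i j))
    have n2 := (P.pl v).abv.ne_zero (uu_ne (ha 0 0) (hb 0 0))
    have n3 := (P.pl v).abv.ne_zero (uu_ne (ha i 0) (hb i 0))
    have n4 := (P.pl v).abv.ne_zero (uu_ne (ha 0 j) (hb 0 j))
    unfold Om
    rw [map_div₀, map_mul, map_mul, Real.log_div (mul_ne_zero n1 n2) (mul_ne_zero n3 n4),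
      Real.log_mul n1 n2, Real.log_mul n3 n4, log_uu _ (ha i j) (hb i j),
      log_uu _ (ha 0 0) (hb 0 0), log_uu _ (ha i 0) (hb i 0), log_uu _ (ha 0 j) (hb 0 j)]
    set e1 := tau (P.pl v) (a i) (q i j) - (F v).mid - (F v).w (a i) - (F v).w (q i j) with he1
    set e2 := tau (P.pl v) (b j) (q i j) - (F v).mid - (F v).w (b j) - (F v).w (q i j) with he2
    set e3 := tau (P.pl v) (a 0) (q 0 0) - (F v).mid - (F v).w (a 0) - (F v).w (q 0 0) with he3
    set e4 := tau (P.pl v) (b 0) (q 0 0) - (F v).mid - (F v).w (b 0) - (F v).w (q 0 0) with he4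
    set e5 := tau (P.pl v) (a i) (q i 0) - (F v).mid - (F v).w (a i) - (F v).w (q i 0) with he5
    set e6 := tau (P.pl v) (b 0) (q i 0) - (F v).mid - (F v).w (b 0) - (F v).w (q i 0) with he6
    set e7 := tau (P.pl v) (a 0) (q 0 j) - (F v).mid - (F v).w (a 0) - (F v).w (q 0 j) with he7
    set e8 := tau (P.pl v) (b j) (q 0 j) - (F v).mid - (F v).w (b j) - (F v).w (q 0 j) with he8
    have : tau (P.pl v) (a i) (q i j) - tau (P.pl v) (b j) (q i j) +
        (tau (P.pl v) (a 0) (q 0 0) - tau (P.pl v) (b 0) (q 0 0)) -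
        (tau (P.pl v) (a i) (q i 0) - tau (P.pl v) (b 0) (q i 0) +
        (tau (P.pl v) (a 0) (q 0 j) - tau (P.pl v) (b j) (q 0 j))) =
        e1 - e2 + e3 - e4 - e5 + e6 - e7 + e8 := by
      simp only [he1, he2, he3, he4, he5, he6, he7, he8]; ring
    rw [this, abs_le]
    constructor <;> linarith [le_abs_self e1, le_abs_self e2, le_abs_self e3, le_abs_self e4,
      le_abs_self e5, le_abs_self e6, le_abs_self e7, le_abs_self e8, neg_abs_le e1,
      neg_abs_le e2, neg_abs_le e3, neg_abs_le e4, neg_abs_le e5, neg_abs_le e6, neg_abs_le e7,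
      neg_abs_le e8]
  linarith [h1 i j, h2 i j, h1 0 0, h2 0 0, h1 i 0, h2 i 0, h1 0 j, h2 0 j]

theorem two_ht_uu_ge (P : Places K R) (F : ∀ v, Frame (P.pl v)) {A : Finset (K × K)}
    (hA : GenX R Prod.fst A) {a b q : K × K} (haA : a ∈ A) (hbA : b ∈ A) (hqA : q ∈ A)
    (ha : Dd a q = 1) (hb : Dd b q = 1) :
    hgt P F a - 2 * mn P F a q - 2 - mn P F a b - err P F a q - err P F b q ≤
      2 * ht P (uu a b q) := by
  have hm : uu a b q ∈ R := by
    unfold uu; rw [div_eq_mul_inv]; exact R.mul_mem (hA.mem a haA q hqA) (hA.inv b hbA q hqA)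
  have hi : (uu a b q)⁻¹ ∈ R := by
    unfold uu; rw [inv_div, div_eq_mul_inv]
    exact R.mul_mem (hA.mem b hbA q hqA) (hA.inv a haA q hqA)
  rw [two_mul_ht P hm hi (uu_ne ha hb)]
  have e2 : (2 : ℝ) = ∑ v, P.N v * (2 * (P.pl v).ar) := by
    rw [show ∑ v, P.N v * (2 * (P.pl v).ar) = 2 * ∑ v, P.N v * (P.pl v).ar by
      rw [mul_sum]; exact sum_congr rfl fun v _ => by ring, P.sum_ar, mul_one]
  have e3 : hgt P F a - 2 * mn P F a q - 2 - mn P F a b - err P F a q - err P F b q =
      ∑ v, P.N v * ((F v).al a - 2 * min ((F v).al a) ((F v).al q) - 2 * (P.pl v).ar -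
        min ((F v).al a) ((F v).al b) -
        |tau (P.pl v) a q - (F v).mid - (F v).w a - (F v).w q| -
        |tau (P.pl v) b q - (F v).mid - (F v).w b - (F v).w q|) := by
    conv_lhs => rw [show hgt P F a - 2 * mn P F a q - 2 = hgt P F a - 2 * mn P F a q -
      ∑ v, P.N v * (2 * (P.pl v).ar) by rw [← e2]]
    simp only [hgt, mn, err, mul_sum, ← sum_sub_distrib]
    exact sum_congr rfl fun v _ => by ring
  rw [e3]
  refine sum_le_sum fun v _ => mul_le_mul_of_nonneg_left ?_ (P.N_nonneg v)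
  rw [log_uu _ ha hb]
  have h1 := (F v).al_le_abs_w ha
  have h2 := (F v).abs_w_le a
  have h3 := (F v).abs_w_le b
  have h4 : |(F v).w a| - min ((F v).al a) ((F v).al b) ≤ |(F v).w a - (F v).w b| := by
    rcases le_total ((F v).al a) ((F v).al b) with h | h
    · rw [min_eq_left h]; linarith [abs_nonneg ((F v).w a - (F v).w b)]
    · rw [min_eq_right h]; linarith [abs_sub_abs_le_abs_sub ((F v).w a) ((F v).w b)]
  set e1 := tau (P.pl v) a q - (F v).mid - (F v).w a - (F v).w q with he1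
  set e2 := tau (P.pl v) b q - (F v).mid - (F v).w b - (F v).w q with he2
  have h5 : (F v).w a - (F v).w b = (tau (P.pl v) a q - tau (P.pl v) b q) - e1 + e2 := by
    simp only [he1, he2]; ring
  have h6 : |(F v).w a - (F v).w b| ≤ |tau (P.pl v) a q - tau (P.pl v) b q| + |e1| + |e2| := by
    rw [h5]
    exact (abs_add_le _ _).trans (by linarith [abs_sub (tau (P.pl v) a q - tau (P.pl v) b q) e1])
  linarith

variable {α ι : Type} [Fintype α] [Fintype ι] [DecidableEq α] {β : ℝ} {E : ℕ}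
  {M : Model α ι β E}

theorem sum_cut_le (P : Places K R) (F : ∀ v, Frame (P.pl v)) (p : K × K) (Kb : ℝ)
    (hK : 0 ≤ Kb) : ∑ v, P.N v * (if hgt P F p ≤ Kb then (F v).al p else 0) ≤ Kb := by
  by_cases h : hgt P F p ≤ Kb
  · simp only [h, if_true]; exact h
  · simpa [h] using hK

theorem markov_edge (G : Geo M R) (P : Places K R) (F : ∀ v, Frame (P.pl v)) (hβ : β ≤ 1)
    (l Kb t : ℝ) (hl : 2 * β ≤ l) (hK : 0 ≤ Kb)
    (hS : ∀ v, M.muP (fun a => 0 < (F v).al (G.pt a)) ≤ l ^ 10 / 1024) :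
    M.P (fun a q => hgt P F (G.pt a) ≤ Kb ∧ hgt P F (G.ctr q) ≤ Kb ∧
      t < mn P F (G.pt a) (G.ctr q)) * t ≤ l * (2 * Kb) := by
  have hl0 : 0 ≤ l := by linarith [M.β_pos]
  set f : P.V → α → ℝ := fun v a => if hgt P F (G.pt a) ≤ Kb then (F v).al (G.pt a) else 0 with hf
  set g : P.V → ι → ℝ := fun v q => if hgt P F (G.ctr q) ≤ Kb then (F v).al (G.ctr q) else 0
    with hg
  have hf0 : ∀ v a, 0 ≤ f v a := fun v a => by
    simp only [hf]; split_ifs; exacts [(F v).al_nonneg _, le_rfl]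
  have hg0 : ∀ v q, 0 ≤ g v q := fun v q => by
    simp only [hg]; split_ifs; exacts [(F v).al_nonneg _, le_rfl]
  have h1 : ∀ v, ∑ a, ∑ q, M.e a q * min (f v a) (g v q) ≤
      l * (∑ q, M.π q * g v q + (∑ a, f v a) / Fintype.card α) := fun v =>
    M.min_edge hβ (f v) (g v) (hf0 v) (hg0 v) l hl ((M.muP_mono fun a ha => by
      simp only [hf] at ha; split_ifs at ha; exacts [ha, absurd ha (lt_irrefl _)]).trans (hS v))
  calc _ ≤ ∑ a, ∑ q, M.e a q * ∑ v, P.N v * min (f v a) (g v q) := by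
        unfold Model.P
        rw [sum_mul]
        refine sum_le_sum fun a _ => ?_
        rw [sum_mul]
        refine sum_le_sum fun q _ => ?_
        split_ifs with h
        · refine mul_le_mul_of_nonneg_left ?_ (M.e_nonneg a q)
          have : ∑ v, P.N v * min (f v a) (g v q) = mn P F (G.pt a) (G.ctr q) := by
            simp only [hf, hg, h.1, h.2.1, if_true, mn]
          rw [this]; exact h.2.2.le
        · rw [zero_mul]
          exact mul_nonneg (M.e_nonneg a q) (sum_nonneg fun v _ =>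
            mul_nonneg (P.N_nonneg v) (le_min (hf0 v a) (hg0 v q)))
    _ = ∑ v, P.N v * ∑ a, ∑ q, M.e a q * min (f v a) (g v q) := by
        simp only [mul_sum]
        rw [sum_comm (s := (univ : Finset P.V))]
        refine sum_congr rfl fun a _ => ?_
        rw [sum_comm (s := (univ : Finset P.V))]
        exact sum_congr rfl fun q _ => sum_congr rfl fun v _ => by ring
    _ ≤ ∑ v, P.N v * (l * (∑ q, M.π q * g v q + (∑ a, f v a) / Fintype.card α)) :=
        sum_le_sum fun v _ => mul_le_mul_of_nonneg_left (h1 v) (P.N_nonneg v)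
    _ = l * (∑ q, M.π q * ∑ v, P.N v * g v q + (∑ a, ∑ v, P.N v * f v a) / Fintype.card α) := by
        simp only [mul_add, sum_add_distrib, mul_sum, sum_div]
        congr 1
        · rw [sum_comm]; exact sum_congr rfl fun q _ => sum_congr rfl fun v _ => by ring
        · rw [sum_comm]; exact sum_congr rfl fun q _ => sum_congr rfl fun v _ => by ring
    _ ≤ l * (2 * Kb) := by
        refine mul_le_mul_of_nonneg_left ?_ hl0
        have a1 : ∑ q, M.π q * ∑ v, P.N v * g v q ≤ Kb := by
          calc _ ≤ ∑ q, M.π q * Kb := sum_le_sum fun q _ =>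
                mul_le_mul_of_nonneg_left (sum_cut_le P F _ Kb hK) (M.π_pos q).le
            _ = Kb := by rw [← sum_mul, M.π_sum, one_mul]
        have a2 : (∑ a, ∑ v, P.N v * f v a) / Fintype.card α ≤ Kb := by
          rw [div_le_iff₀ M.card_pos]
          calc _ ≤ ∑ _a : α, Kb := sum_le_sum fun a _ => sum_cut_le P F _ Kb hK
            _ = _ := by simp [mul_comm]
        linarith

theorem markov_path (G : Geo M R) (P : Places K R) (F : ∀ v, Frame (P.pl v)) (hβ : β ≤ 1)
    (l Kb t : ℝ) (hl : 2 * β ≤ l) (hK : 0 ≤ Kb)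
    (hS : ∀ v, M.muP (fun a => 0 < (F v).al (G.pt a)) ≤ l ^ 10 / 1024) :
    M.P3 (fun a _ b => hgt P F (G.pt a) ≤ Kb ∧ hgt P F (G.pt b) ≤ Kb ∧
      t < mn P F (G.pt a) (G.pt b)) * t ≤ l * (2 * Kb) := by
  have hl0 : 0 ≤ l := by linarith [M.β_pos]
  set f : P.V → α → ℝ := fun v a => if hgt P F (G.pt a) ≤ Kb then (F v).al (G.pt a) else 0 with hf
  have hf0 : ∀ v a, 0 ≤ f v a := fun v a => by
    simp only [hf]; split_ifs; exacts [(F v).al_nonneg _, le_rfl]
  have hw : ∀ q, 0 ≤ M.π q / ((M.C q).card : ℝ) ^ 2 := fun q =>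
    div_nonneg (M.π_pos q).le (by positivity)
  have h1 : ∀ v, ∑ q, ∑ a ∈ M.C q, ∑ b ∈ M.C q,
      M.π q / ((M.C q).card : ℝ) ^ 2 * min (f v a) (f v b) ≤
      l * (∑ a, M.nu a * f v a + (∑ a, f v a) / Fintype.card α) := fun v =>
    M.min_path hβ (f v) (hf0 v) l hl ((M.muP_mono fun a ha => by
      simp only [hf] at ha; split_ifs at ha; exacts [ha, absurd ha (lt_irrefl _)]).trans (hS v))
  calc _ ≤ ∑ q, ∑ a ∈ M.C q, ∑ b ∈ M.C q,
          M.π q / ((M.C q).card : ℝ) ^ 2 * ∑ v, P.N v * min (f v a) (f v b) := by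
        unfold Model.P3
        rw [sum_mul]
        refine sum_le_sum fun q _ => ?_
        rw [sum_mul]
        refine sum_le_sum fun a _ => ?_
        rw [sum_mul]
        refine sum_le_sum fun b _ => ?_
        split_ifs with h
        · refine mul_le_mul_of_nonneg_left ?_ (hw q)
          have : ∑ v, P.N v * min (f v a) (f v b) = mn P F (G.pt a) (G.pt b) := by
            simp only [hf, h.1, h.2.1, if_true, mn]
          rw [this]; exact h.2.2.le
        · rw [zero_mul]
          exact mul_nonneg (hw q) (sum_nonneg fun v _ =>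
            mul_nonneg (P.N_nonneg v) (le_min (hf0 v a) (hf0 v b)))
    _ = ∑ v, P.N v * ∑ q, ∑ a ∈ M.C q, ∑ b ∈ M.C q,
          M.π q / ((M.C q).card : ℝ) ^ 2 * min (f v a) (f v b) := by
        simp only [mul_sum]
        rw [sum_comm (s := (univ : Finset P.V))]
        refine sum_congr rfl fun q _ => ?_
        rw [sum_comm (s := (univ : Finset P.V))]
        refine sum_congr rfl fun a _ => ?_
        rw [sum_comm (s := (univ : Finset P.V))]
        exact sum_congr rfl fun b _ => sum_congr rfl fun v _ => by ring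
    _ ≤ ∑ v, P.N v * (l * (∑ a, M.nu a * f v a + (∑ a, f v a) / Fintype.card α)) :=
        sum_le_sum fun v _ => mul_le_mul_of_nonneg_left (h1 v) (P.N_nonneg v)
    _ = l * (∑ a, M.nu a * ∑ v, P.N v * f v a + (∑ a, ∑ v, P.N v * f v a) / Fintype.card α) := by
        simp only [mul_add, sum_add_distrib, mul_sum, sum_div]
        congr 1
        · rw [sum_comm]; exact sum_congr rfl fun q _ => sum_congr rfl fun v _ => by ring
        · rw [sum_comm]; exact sum_congr rfl fun q _ => sum_congr rfl fun v _ => by ring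
    _ ≤ l * (2 * Kb) := by
        refine mul_le_mul_of_nonneg_left ?_ hl0
        have a1 : ∑ a, M.nu a * ∑ v, P.N v * f v a ≤ Kb := by
          calc _ ≤ ∑ a, M.nu a * Kb := sum_le_sum fun a _ =>
                mul_le_mul_of_nonneg_left (sum_cut_le P F _ Kb hK) (M.nu_nonneg a)
            _ = Kb := by rw [← sum_mul, M.sum_nu, one_mul]
        have a2 : (∑ a, ∑ v, P.N v * f v a) / Fintype.card α ≤ Kb := by
          rw [div_le_iff₀ M.card_pos]
          calc _ ≤ ∑ _a : α, Kb := sum_le_sum fun a _ => sum_cut_le P F _ Kb hK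
            _ = _ := by simp [mul_comm]
        linarith

end aux

/-- Good triple: `a ≠ b`, `H ≤ hgt a`, and the three sums `∑ N min (al ·) (al ·)` for `(a,q)`,
`(b,q)`, `(a,b)` are `≤ ε₁ H`, `ε₁ = 1/(1024 (CZ+1) D)`, `D = card (Idx N₀)`.  Its path weight is `≥ γ/2`:
Markov with `min_edge`, `min_path` for `al` cut off at `hgt ≤ C₂ H`, `l = ε₁ γ/(100 C₂)`,
`37 η ≤ l¹⁰/1024` (`out`, `muP_le`).  `exists_K4`, `lemZ`; `tau_approx` gives
`ht Ω ≤ 8 (Lam + log(10/η) + 3 + 3 ε₁ H) ≤ 32 ε₁ H` (`ht_le_abs`; the `mid`, `w` terms cancel) and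
`2 ht u ≥ H - 11 ε₁ H - 2` (`two_mul_ht`, `al_le_abs_w`, `|A - B| ≥ |A| - min (al a) (al b)`). -/
theorem private_case (γ C₂ : ℝ) (hγ : 0 < γ) (hC₂ : 1 ≤ C₂) : ∃ η₁ > 0, ∀ η : ℝ, 0 < η → η ≤ η₁ →
    ∃ R₀ : ℝ, ∃ β₁ > 0, ∃ E₁ : ℕ, ∀ (α ι : Type) [Fintype α] [Fintype ι] [DecidableEq α] (β : ℝ)
      (E : ℕ) (M : Model α ι β E) (K : Type) [Field K] [CharZero K] (R : Subring K) (G : Geo M R)
      (P : Places K R) (F : ∀ v, Frame (P.pl v)) (H : ℝ), β ≤ β₁ → E₁ ≤ E →
      (∀ v, GoodFrame G (F v) η) → R₀ * (Lam P F + 1) < H →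
      γ ≤ M.nuP (fun a => H ≤ hgt P F (G.pt a)) →
      M.nuP (fun a => C₂ * H < hgt P F (G.pt a)) ≤ γ / 50 →
      M.piP (fun q => C₂ * H < hgt P F (G.ctr q)) ≤ γ / 50 → False := by
  obtain ⟨N₀, CZ, hCZ, hZ⟩ := lemZ
  obtain ⟨β₃, hβ₃, E₃, hK4⟩ := exists_K4 (γ / 2) (by positivity) N₀
  set D : ℝ := (Fintype.card (Idx N₀) : ℝ) with hD
  have hD1 : 1 ≤ D := by
    rw [hD]; exact_mod_cast Fintype.card_pos
  set ε₁ : ℝ := 1 / (1024 * (CZ + 1) * D) with hε₁
  have hε₁0 : 0 < ε₁ := by positivity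
  have hε₁D : 1024 * (CZ + 1) * D * ε₁ = 1 := by rw [hε₁]; field_simp
  have hε₁1 : ε₁ ≤ 1 / 1024 := by
    rw [hε₁]
    exact one_div_le_one_div_of_le (by norm_num) (by nlinarith)
  set l : ℝ := ε₁ * γ / (100 * C₂) with hl
  have hl0 : 0 < l := by positivity
  refine ⟨min 1 (l ^ 10 / 1024 / 37), by positivity, fun η hη hη1 => ?_⟩
  have hηa : η ≤ 1 := hη1.trans (min_le_left _ _)
  have hηb : η ≤ l ^ 10 / 1024 / 37 := hη1.trans (min_le_right _ _)
  set Lc : ℝ := Real.log (10 / η) with hLc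
  have hLc0 : 0 ≤ Lc := Real.log_nonneg (by rw [le_div_iff₀ hη]; linarith)
  refine ⟨(4 + Lc) / ε₁ + 3 * (CZ + 1), min (min β₃ η) (min (l / 2) (γ / 4)), by positivity, E₃,
    fun α ι _ _ _ β E M K _ _ R G P F H hβ hE hF hH h1 h2 h3 => ?_⟩
  have hβa : β ≤ β₃ := hβ.trans ((min_le_left _ _).trans (min_le_left _ _))
  have hβb : β ≤ η := hβ.trans ((min_le_left _ _).trans (min_le_right _ _))
  have hβc : β ≤ l / 2 := hβ.trans ((min_le_right _ _).trans (min_le_left _ _))
  have hβd : β ≤ γ / 4 := hβ.trans ((min_le_right _ _).trans (min_le_right _ _))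
  have hΛ := Lam_nonneg P F
  have hq : 0 ≤ (4 + Lc) / ε₁ := by positivity
  have hH1 : 3 * (CZ + 1) < H := by nlinarith
  have hH0 : 0 < H := by linarith
  have hH2 : Lam P F + Lc + 3 ≤ ε₁ * H := by
    have a1 : (4 + Lc) / ε₁ * (Lam P F + 1) ≤ H := by nlinarith
    have a2 : ε₁ * ((4 + Lc) / ε₁ * (Lam P F + 1)) = (4 + Lc) * (Lam P F + 1) := by field_simp
    have a3 := mul_le_mul_of_nonneg_left a1 hε₁0.le
    nlinarith
  have hS : ∀ v, M.muP (fun a => 0 < (F v).al (G.pt a)) ≤ l ^ 10 / 1024 := fun v => by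
    have a1 := M.muP_le (fun a => 0 < (F v).al (G.pt a))
    have a2 := (hF v).out
    have a3 := M.piP_nonneg (fun q => 0 < (F v).al (G.ctr q))
    linarith
  have hKb : 0 ≤ C₂ * H := by positivity
  have hmk : ∀ x : ℝ, x * (ε₁ * H) ≤ l * (2 * (C₂ * H)) → x ≤ γ / 50 := fun x hx => by
    have a1 : l * (2 * (C₂ * H)) = γ / 50 * (ε₁ * H) := by rw [hl]; field_simp; ring
    rw [a1] at hx
    exact le_of_mul_le_mul_right hx (by positivity)
  have m1 := hmk _ (markov_edge G P F (hβb.trans hηa) l (C₂ * H) (ε₁ * H) (by linarith) hKb hS)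
  have m2 := hmk _ (markov_path G P F (hβb.trans hηa) l (C₂ * H) (ε₁ * H) (by linarith) hKb hS)
  set Gd : α → ι → α → Prop := fun a q b => a ≠ b ∧ H ≤ hgt P F (G.pt a) ∧
    mn P F (G.pt a) (G.ctr q) ≤ ε₁ * H ∧ mn P F (G.pt b) (G.ctr q) ≤ ε₁ * H ∧
    mn P F (G.pt a) (G.pt b) ≤ ε₁ * H with hGd
  have hmass : γ / 2 ≤ M.P3 Gd := by
    have u0 : M.P3 (fun a _ _ => H ≤ hgt P F (G.pt a)) = M.nuP fun a => H ≤ hgt P F (G.pt a) := by
      rw [← M.P_left, ← M.P3_fst]
    have u1 : M.P3 (fun a _ _ => C₂ * H < hgt P F (G.pt a)) =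
        M.nuP fun a => C₂ * H < hgt P F (G.pt a) := by rw [← M.P_left, ← M.P3_fst]
    have u2 : M.P3 (fun _ _ b => C₂ * H < hgt P F (G.pt b)) =
        M.nuP fun a => C₂ * H < hgt P F (G.pt a) := by rw [← M.P_left, ← M.P3_snd]
    have u3 : M.P3 (fun _ q _ => C₂ * H < hgt P F (G.ctr q)) =
        M.piP fun q => C₂ * H < hgt P F (G.ctr q) := by rw [← M.P_right, ← M.P3_fst]
    have u4 := M.P3_fst (fun a q => hgt P F (G.pt a) ≤ C₂ * H ∧ hgt P F (G.ctr q) ≤ C₂ * H ∧
      ε₁ * H < mn P F (G.pt a) (G.ctr q))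
    have u5 := M.P3_snd (fun a q => hgt P F (G.pt a) ≤ C₂ * H ∧ hgt P F (G.ctr q) ≤ C₂ * H ∧
      ε₁ * H < mn P F (G.pt a) (G.ctr q))
    have u6 := M.P3_diag
    have v0 : M.P3 (fun a _ _ => H ≤ hgt P F (G.pt a)) ≤ M.P3 (fun a q b => Gd a q b ∨
        (a = b ∨ (C₂ * H < hgt P F (G.pt a) ∨ (C₂ * H < hgt P F (G.pt b) ∨
        (C₂ * H < hgt P F (G.ctr q) ∨
        ((hgt P F (G.pt a) ≤ C₂ * H ∧ hgt P F (G.ctr q) ≤ C₂ * H ∧
          ε₁ * H < mn P F (G.pt a) (G.ctr q)) ∨
        ((hgt P F (G.pt b) ≤ C₂ * H ∧ hgt P F (G.ctr q) ≤ C₂ * H ∧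
          ε₁ * H < mn P F (G.pt b) (G.ctr q)) ∨
        (hgt P F (G.pt a) ≤ C₂ * H ∧ hgt P F (G.pt b) ≤ C₂ * H ∧
          ε₁ * H < mn P F (G.pt a) (G.pt b))))))))) := by
      refine M.P3_mono fun a q b _ _ h => ?_
      by_contra hcon
      simp only [hGd, not_or, not_and, not_lt, not_le] at hcon
      obtain ⟨c1, c2, c3, c4, c5, c6, c7, c8⟩ := hcon
      exact absurd (c1 c2 h (c6 c3 c5) (c7 c4 c5)) (not_lt.2 (c8 c3 c4))
    have v1 := v0.trans ((M.P3_or_le _ _).trans (add_le_add_right ((M.P3_or_le _ _).trans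
      (add_le_add_right ((M.P3_or_le _ _).trans (add_le_add_right ((M.P3_or_le _ _).trans
      (add_le_add_right ((M.P3_or_le _ _).trans (add_le_add_right ((M.P3_or_le _ _).trans
      (add_le_add_right (M.P3_or_le _ _) _)) _)) _)) _)) _)) _))
    have v2 : M.P3 (fun a q b => Gd a q b) = M.P3 Gd := rfl
    linarith
  obtain ⟨a, b, q, hb, hgp, hall⟩ := hK4 α ι β E M K R G Gd hβa hE (fun a q b h => h.1) hmass
  have ua : ∀ i j, Dd (G.pt (a i)) (G.ctr (q i j)) = 1 := fun i j => G.unit _ _ (hall i j).1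
  have ub : ∀ i j, Dd (G.pt (b j)) (G.ctr (q i j)) = 1 := fun i j => G.unit _ _ (hall i j).2.1
  obtain ⟨i, hi⟩ := hZ K R P G.A (fun i => G.pt (a i)) (fun j => G.pt (b j))
    (fun i j => G.ctr (q i j)) G.gen1 (fun i => G.pt_mem _) (fun j => G.pt_mem _)
    (fun i j => G.ctr_mem _) (G.pt_inj.comp hb) ua ub hgp
  have hc : ∀ v, Real.log (F v).c ≤ (P.pl v).ar * Lc := fun v => (hF v).logc
  have e1 : ∀ i j, err P F (G.pt (a i)) (G.ctr (q i j)) ≤ 4 * (ε₁ * H) := fun i j => by
    have := err_le P F Lc hc (ua i j)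
    have := (hall i j).2.2.2.2.1
    linarith
  have e2 : ∀ i j, err P F (G.pt (b j)) (G.ctr (q i j)) ≤ 4 * (ε₁ * H) := fun i j => by
    have := err_le P F Lc hc (ub i j)
    have := (hall i j).2.2.2.2.2.1
    linarith
  have o1 : ∑ x : Idx N₀ × Fin 4, ht P (Om (fun i => G.pt (a i)) (fun j => G.pt (b j))
      (fun i j => G.ctr (q i j)) x.1 x.2) ≤ D * 4 * (8 * (4 * (ε₁ * H))) := by
    calc _ ≤ ∑ _x : Idx N₀ × Fin 4, 8 * (4 * (ε₁ * H)) := sum_le_sum fun x _ =>
          ht_Om_le P F _ _ _ ua ub _ e1 e2 x.1 x.2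
      _ = _ := by
          rw [sum_const, card_univ, Fintype.card_prod, Fintype.card_fin, nsmul_eq_mul, hD]
          push_cast; ring
  have o2 := two_ht_uu_ge P F G.gen1 (G.pt_mem (a i)) (G.pt_mem (b 0)) (G.ctr_mem (q i 0))
    (ua i 0) (ub i 0)
  obtain ⟨-, g1, g2, -, g4⟩ := (hall i 0).2.2
  have o3 : CZ * (D * 4 * (8 * (4 * (ε₁ * H)))) ≤ H / 8 := by
    have : CZ * (D * 4 * (8 * (4 * (ε₁ * H)))) ≤ (CZ + 1) * (D * 4 * (8 * (4 * (ε₁ * H)))) :=
      mul_le_mul_of_nonneg_right (by linarith) (by positivity)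
    have h' : (CZ + 1) * (D * 4 * (8 * (4 * (ε₁ * H)))) =
        1024 * (CZ + 1) * D * ε₁ * (H / 8) := by ring
    rw [h', hε₁D] at this
    linarith
  have o4 := mul_le_mul_of_nonneg_left o1 hCZ.le
  have o5 : ε₁ * H ≤ 1 / 1024 * H := mul_le_mul_of_nonneg_right hε₁1 hH0.le
  have o6 := e1 i 0
  have o7 := e2 i 0
  rw [mul_add, mul_one] at hi
  linarith

end Crest.Agent.R33
end

-- ▼ part PVc/R33/Core
section

/-! No model exists; rich unit circles are few. -/

set_option autoImplicit false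

open Finset
open scoped Classical

namespace Crest.Agent.R33

/-- `γ = 1/(2·10¹²)`, `C₂ = 157`, `η` below the three thresholds, `exists_frame` at each place, `H`
the `γ`-quantile of `hgt` for `ν` (`exists_wquantile`), `B = 4 (Lam + log (10/η)) + 8`
(`hgt_centre_le`; distinct `q, q'` through `a` have distinct centres by `disj`).  If
`max R₀ (4 log(10/η) + 12) (Lam + 1) < H`: `heights_step` and `private_case`; otherwise
`heights_iter` and `public_case`. -/
theorem core : ∃ β : ℝ, 0 < β ∧ β ≤ 1 / 2 ∧ ∃ E : ℕ, ∀ (α ι : Type) [Fintype α] [Fintype ι]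
    [DecidableEq α] (M : Model α ι β E) (K : Type) [Field K] [CharZero K] (R : Subring K)
    (_ : Geo M R) (_ : Places K R), False := by
  obtain ⟨ηf, hηf, hfr⟩ := exists_frame
  obtain ⟨ηp, hηp, hpub⟩ := public_case
  set γ : ℝ := 1 / (2 * 10 ^ 12) with hγ
  have hγ0 : 0 < γ := by positivity
  obtain ⟨ηq, hηq, hpri⟩ := private_case γ 157 hγ0 (by norm_num)
  set η : ℝ := min (min ηf ηp) (min ηq 1) with hη
  have hη0 : 0 < η := by positivity
  have hη1 : η ≤ ηf := (min_le_left _ _).trans (min_le_left _ _)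
  have hη2 : η ≤ ηp := (min_le_left _ _).trans (min_le_right _ _)
  have hη3 : η ≤ ηq := (min_le_right _ _).trans (min_le_left _ _)
  have hη4 : η ≤ 1 := (min_le_right _ _).trans (min_le_right _ _)
  obtain ⟨R₀, βq, hβq, Eq, hpri⟩ := hpri η hη0 hη3
  set Lc : ℝ := Real.log (10 / η) with hLc
  have hLc0 : 0 ≤ Lc := Real.log_nonneg (by rw [le_div_iff₀ hη0]; linarith)
  set R₁ : ℝ := max R₀ (4 * Lc + 12) with hR₁
  obtain ⟨j, hj⟩ : ∃ j : ℕ, γ / 100 ^ j ≤ η / 2000 := by
    obtain ⟨j, hj⟩ := pow_unbounded_of_one_lt (γ / (η / 2000)) (by norm_num : (1 : ℝ) < 100)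
    refine ⟨j, ?_⟩
    rw [div_lt_iff₀ (by positivity)] at hj
    rw [div_le_iff₀ (by positivity)]
    linarith
  obtain ⟨βp, hβp, Ep, hpub⟩ := hpub η hη0 hη2 (13 * (200 ^ j * (R₁ + (4 * Lc + 12))))
  set β : ℝ := min (min βq βp) (min (η / 6000) (γ / 200)) with hβ
  have hβ0 : 0 < β := by positivity
  have hβ1 : β ≤ βq := (min_le_left _ _).trans (min_le_left _ _)
  have hβ2 : β ≤ βp := (min_le_left _ _).trans (min_le_right _ _)
  have hβ3 : β ≤ η / 6000 := (min_le_right _ _).trans (min_le_left _ _)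
  have hβ4 : β ≤ γ / 200 := (min_le_right _ _).trans (min_le_right _ _)
  refine ⟨β, hβ0, by linarith, max 1 (max Eq Ep), fun α ι _ _ _ M K _ _ R G P => ?_⟩
  have hE1 : 1 ≤ max 1 (max Eq Ep) := le_max_left _ _
  have hE2 : Eq ≤ max 1 (max Eq Ep) := (le_max_left _ _).trans (le_max_right _ _)
  have hE3 : Ep ≤ max 1 (max Eq Ep) := (le_max_right _ _).trans (le_max_right _ _)
  choose F hF using fun v : P.V => hfr η hη0 hη1 α ι β _ M K R G (P.pl v) (by linarith)
  have hc : ∀ v, Real.log (F v).c ≤ (P.pl v).ar * Lc := fun v => (hF v).logc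
  have hγ1 : γ ≤ 1 / 10 ^ 12 := by rw [hγ]; norm_num
  obtain ⟨a₀, -, hq1, hq2⟩ := exists_wquantile (univ : Finset α) M.nu
    (fun a => hgt P F (G.pt a)) (fun a _ => M.nu_nonneg a) γ hγ0
    (by rw [M.sum_nu]; exact hγ1.trans (by norm_num))
  set H := hgt P F (G.pt a₀) with hH
  have hH0 : 0 ≤ H := hgt_nonneg P F _
  have hq1' : γ ≤ M.nuP fun a => H ≤ hgt P F (G.pt a) := by
    unfold Model.nuP; convert hq1
  have hq2' : M.nuP (fun a => H < hgt P F (G.pt a)) ≤ γ := by
    unfold Model.nuP; convert hq2.le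
  have hΛ := Lam_nonneg P F
  set B : ℝ := 4 * (Lam P F + Lc) + 8 with hB
  have hB0 : 0 ≤ B := by positivity
  have hB1 : B ≤ (4 * Lc + 12) * (Lam P F + 1) := by nlinarith
  have h1 : ∀ q, ∀ a ∈ M.C q, ∀ b ∈ M.C q, a ≠ b →
      hgt P F (G.ctr q) ≤ B + 6 * (hgt P F (G.pt a) + hgt P F (G.pt b)) :=
    fun q a ha b hb hab => hgt_centre_le P F Lc hc G.gen1 G.gen2 (G.pt_mem a) (G.pt_mem b)
      (fun h => hab (G.pt_inj h)) (G.unit q a ha) (G.unit q b hb)
  have h2 : ∀ a q q', q ≠ q' → a ∈ M.C q → a ∈ M.C q' →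
      hgt P F (G.pt a) ≤ B + 6 * (hgt P F (G.ctr q) + hgt P F (G.ctr q')) :=
    fun a q q' hqq ha ha' => hgt_centre_le P F Lc hc G.gen1 G.gen2 (G.ctr_mem q) (G.ctr_mem q')
      (fun h => disjoint_left.1 (G.disj q q' hqq h) ha ha')
      (by rw [Dd_comm]; exact G.unit q a ha) (by rw [Dd_comm]; exact G.unit q' a ha')
  by_cases hcase : R₁ * (Lam P F + 1) < H
  · have c1 : R₀ * (Lam P F + 1) < H :=
      (mul_le_mul_of_nonneg_right (le_max_left _ _) (by linarith)).trans_lt hcase
    have c2 : B ≤ H := hB1.trans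
      ((mul_le_mul_of_nonneg_right (le_max_right _ _) (by linarith)).trans hcase.le)
    obtain ⟨s1, s2⟩ := heights_step M hE1 (fun a => hgt P F (G.pt a)) (fun q => hgt P F (G.ctr q))
      B H γ (by linarith) hγ1 h1 h2 hq2'
    refine hpri α ι β _ M K R G P F H hβ1 hE2 hF c1 hq1' ?_ ?_
    · refine (M.nuP_mono fun a ha => ?_).trans (s2.trans (by linarith))
      linarith
    · refine (M.piP_mono fun a ha => ?_).trans (s1.trans (by linarith))
      linarith
  · push Not at hcase
    obtain ⟨s1, s2⟩ := heights_iter M hE1 (fun a => hgt P F (G.pt a)) (fun q => hgt P F (G.ctr q))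
      B H γ hB0 hH0 (by rw [hγ] at hβ4 ⊢; norm_num at hβ4 ⊢; linarith) h1 h2 hq2' j
    refine hpub α ι β _ M K R G P F (13 * (200 ^ j * (H + B))) hβ2 hE3 hF ?_ ?_ ?_
    · have : H + B ≤ (R₁ + (4 * Lc + 12)) * (Lam P F + 1) := by linarith
      calc _ ≤ 13 * (200 ^ j * ((R₁ + (4 * Lc + 12)) * (Lam P F + 1))) := by gcongr
        _ = _ := by ring
    · refine (M.nuP_mono fun a ha => ?_).trans (s1.trans (by linarith))
      have : (0 : ℝ) ≤ 200 ^ j * (H + B) := by positivity
      linarith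
    · exact s2.trans (by linarith)

theorem thmU : ∃ κ > (0 : ℝ), ∃ sstar mstar : ℝ, ∀ (K : Type) [Field K] [CharZero K] (R : Subring K)
    (_ : Places K R) (A Y : Finset (K × K)) (ι : Type) [Fintype ι] (ctr : ι → K × K)
    (C : ι → Finset (K × K)) (s : ℕ) (m₀ : ℝ), Cfg R A Y ctr C s → 2 ≤ s → mstar ≤ m₀ →
    (Y.card : ℝ) ≤ m₀ → (s : ℝ) ≤ m₀ ^ κ → Fintype.card ι * (s : ℝ) ^ 4 ≤ sstar * m₀ ^ 2 := by
  obtain ⟨β, hβ0, hβ1, E, hcore⟩ := core
  obtain ⟨κ, hκ, sstar, mstar, hmod⟩ := exists_model β hβ0 hβ1 E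
  refine ⟨κ, hκ, sstar, mstar, fun K _ _ R P A Y ι _ ctr C s m₀ hcfg hs hm hY hsm => ?_⟩
  by_contra hcon
  obtain ⟨α, ι', _, _, _, M, ⟨G⟩⟩ := hmod K R A Y ι ctr C s m₀ hcfg hs hm hY hsm (not_le.1 hcon)
  exact hcore α ι' M K R G P

end Crest.Agent.R33
end

-- ▼ part PVc/R33/RealU
section

/-! Rich unit circles in the plane. -/

set_option autoImplicit false

open Finset
open scoped Classical

namespace Crest.Agent.R33

theorem exists_groups {α : Type} [DecidableEq α] (A : Finset α) (s : ℕ) (hs : 0 < s) :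
    ∃ g : Fin (A.card / s) → Finset α, (∀ i, g i ⊆ A ∧ (g i).card = s) ∧
      ∀ i i', i ≠ i' → Disjoint (g i) (g i') := by
  have hlt : ∀ (i : Fin (A.card / s)) (k : Fin s), (i : ℕ) * s + k < A.card := by
    intro i k
    have h1 : ((i : ℕ) + 1) * s ≤ A.card / s * s := Nat.mul_le_mul_right s i.2
    have h2 : A.card / s * s ≤ A.card := Nat.div_mul_le_self _ _
    have h3 := k.2
    nlinarith
  set f : Fin (A.card / s) → Fin s → α := fun i k => (A.equivFin.symm ⟨_, hlt i k⟩ : α) with hf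
  have key : ∀ i k i' k', f i k = f i' k' → i = i' ∧ k = k' := by
    intro i k i' k' h
    have h1 : (i : ℕ) * s + k = (i' : ℕ) * s + k' := by
      have := A.equivFin.symm.injective (Subtype.ext h)
      exact congrArg Fin.val this
    have h2 : ∀ (a : ℕ) (b : Fin s), (a * s + b) / s = a := fun a b => by
      rw [mul_comm, Nat.mul_add_div hs, Nat.div_eq_of_lt b.2, add_zero]
    have h3 : (i : ℕ) = i' := by rw [← h2 i k, h1, h2]
    refine ⟨Fin.ext h3, Fin.ext ?_⟩
    rw [h3] at h1
    omega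
  refine ⟨fun i => univ.image (f i), fun i => ⟨?_, ?_⟩, fun i i' hii => ?_⟩
  · intro a ha
    obtain ⟨k, _, rfl⟩ := mem_image.1 ha
    exact (A.equivFin.symm ⟨_, hlt i k⟩).2
  · rw [card_image_of_injective _ fun k k' h => (key i k i k' h).2, card_univ, Fintype.card_fin]
  · rw [disjoint_left]
    intro a ha ha'
    obtain ⟨k, _, rfl⟩ := mem_image.1 ha
    obtain ⟨k', _, h⟩ := mem_image.1 ha'
    exact hii (key i' k' i k h).1.symm

theorem genX_image {K : Type} [Field K] {R : Subring K} {α β : Type} [DecidableEq β]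
    {X : α → K} {P : Finset α} (h : GenX R X P) (φ : α → β) (π : β → K)
    (hπ : ∀ p, π (φ p) = X p) : GenX R π (P.image φ) := by
  refine ⟨fun p hp q hq hpq => ?_, fun p hp q hq => ?_, fun p hp q hq => ?_⟩
  all_goals
    obtain ⟨a, ha, rfl⟩ := mem_image.1 hp
    obtain ⟨b, hb, rfl⟩ := mem_image.1 hq
    rw [hπ, hπ]
  · exact h.inj a ha b hb fun hab => hpq (by rw [hab])
  · exact h.mem a ha b hb
  · exact h.inv a ha b hb

/-- `exists_spec`, `thmU` with `ι = Σ z : P, Fin (n z / s)` and `exists_groups`. -/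
theorem thmU_real : ∃ κ > (0 : ℝ), ∃ sstar mstar : ℝ, ∀ (P Y : Finset E2) (s : ℕ) (m₀ : ℝ), Y ⊆ P →
    2 ≤ s → mstar ≤ m₀ → (Y.card : ℝ) ≤ m₀ → (s : ℝ) ≤ m₀ ^ κ →
    ((∑ z ∈ P, (Y.filter fun p => dist p z = 1).card / s : ℕ) : ℝ) * (s : ℝ) ^ 4 ≤
      sstar * m₀ ^ 2 := by
  obtain ⟨κ, hκ, sstar, mstar, H⟩ := thmU
  refine ⟨κ, hκ, sstar, mstar, fun P Y s m₀ hYP hs hm hY hsm => ?_⟩
  obtain ⟨K, _, _, R, Pl, X, X', hX, hX', -, hunit⟩ := exists_spec P
  set φ : E2 → K × K := fun p => (X p, X' p) with hφ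
  have hinj : Set.InjOn φ P := fun p hp q hq h => by
    by_contra hpq
    exact hX.inj p hp q hq hpq (congrArg Prod.fst h)
  choose g hg1 hg2 using fun z : E2 =>
    exists_groups (Y.filter fun p => dist p z = 1) s (by omega)
  have hgY : ∀ z i, g z i ⊆ Y := fun z i => (hg1 z i).1.trans (filter_subset _ _)
  have hcfg : Cfg R (P.image φ) (Y.image φ)
      (ι := Σ z : P, Fin ((Y.filter fun p => dist p (z : E2) = 1).card / s))
      (fun q => φ q.1) (fun q => (g q.1 q.2).image φ) s := by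
    refine ⟨genX_image hX φ _ fun _ => rfl, genX_image hX' φ _ fun _ => rfl,
      image_subset_image hYP, fun q => mem_image_of_mem φ q.1.2,
      fun q => image_subset_image (hgY _ _), fun q => ?_, fun q a ha => ?_, ?_⟩
    · rw [card_image_of_injOn (hinj.mono (coe_subset.2 ((hgY _ _).trans hYP))), (hg1 _ _).2]
    · obtain ⟨p, hp, rfl⟩ := mem_image.1 ha
      have h1 := mem_filter.1 ((hg1 _ _).1 hp)
      exact hunit p (hYP h1.1) q.1 q.1.2 h1.2
    · rintro ⟨z, i⟩ ⟨z', i'⟩ hne heq
      have hz : z = z' := Subtype.ext (hinj z.2 z'.2 heq)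
      subst hz
      have hii : i ≠ i' := fun h => hne (by rw [h])
      rw [disjoint_left]
      intro a ha ha'
      obtain ⟨p, hp, rfl⟩ := mem_image.1 ha
      obtain ⟨p', hp', h⟩ := mem_image.1 ha'
      have hpp : p' = p := hinj (hYP (hgY _ _ hp')) (hYP (hgY _ _ hp)) h
      subst hpp
      exact disjoint_left.1 (hg2 z i i' hii) hp hp'
  have hcard : ((Y.image φ).card : ℝ) ≤ m₀ :=
    le_trans (by exact_mod_cast card_image_le) hY
  have h := H K R Pl _ _ _ _ _ s m₀ hcfg hs hm hcard hsm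
  rw [Fintype.card_sigma] at h
  simp only [Fintype.card_fin] at h
  rwa [sum_coe_sort P fun z => (Y.filter fun p => dist p z = 1).card / s] at h

end Crest.Agent.R33
end

-- ▼ part PVc/Lib/KyFan/Chains
section

/-!
Ordered cochains with coefficients in `ZMod 2`: a cochain on a type `X` is a function on lists of
points.  Coboundary, cup product, prism operator, and indicator cochains of finite label sets.
-/

namespace Crest.Agent.Lib.KyFan

abbrev F2 := ZMod 2

theorem F2.add_self (a : F2) : a + a = 0 := CharTwo.add_self_eq_zero a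

/-- Cochains: functions on lists. -/
abbrev Co (X : Type*) := List X → F2

variable {X Y : Type*}

/-- value of the coboundary of `φ` on a list: the sum of `φ` over all one-element deletions. -/
def cobAux : List X → Co X → F2
  | [], _ => 0
  | x :: l, φ => φ l + cobAux l (fun m => φ (x :: m))

/-- The coboundary. -/
def cob (φ : Co X) : Co X := fun l => cobAux l φ

@[simp] theorem cob_nil (φ : Co X) : cob φ [] = 0 := rfl

theorem cob_cons (φ : Co X) (x : X) (l : List X) :
    cob φ (x :: l) = φ l + cob (fun m => φ (x :: m)) l := rfl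

theorem cob_add (φ ψ : Co X) (l : List X) :
    cob (fun m => φ m + ψ m) l = cob φ l + cob ψ l := by
  induction l generalizing φ ψ with
  | nil => simp
  | cons x l ih => rw [cob_cons, cob_cons, cob_cons, ih]; ring

theorem cob_zero (l : List X) : cob (fun _ => 0) l = 0 := by
  induction l with
  | nil => simp
  | cons x l ih => rw [cob_cons, ih]; simp

theorem cob_mul (a : F2) (φ : Co X) (l : List X) :
    cob (fun m => a * φ m) l = a * cob φ l := by
  induction l generalizing φ with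
  | nil => simp
  | cons x l ih => rw [cob_cons, cob_cons, ih]; ring

theorem cob_map (f : X → Y) (φ : Co Y) (l : List X) :
    cob (fun m => φ (m.map f)) l = cob φ (l.map f) := by
  induction l generalizing φ with
  | nil => simp
  | cons x l ih =>
    rw [List.map_cons, cob_cons, cob_cons, ← ih]
    rfl

theorem cob_congr {φ ψ : Co X} {l : List X}
    (h : ∀ m, m.Sublist l → m.length + 1 = l.length → φ m = ψ m) : cob φ l = cob ψ l := by
  induction l generalizing φ ψ with
  | nil => simp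
  | cons x l ih =>
    rw [cob_cons, cob_cons, h l (List.sublist_cons_self x l) rfl]
    congr 1
    apply ih
    intro m hm hl
    exact h (x :: m) (hm.cons_cons x) (by simp [hl])


theorem cob_perm {φ : Co X} (hφ : ∀ l m : List X, l.Perm m → φ l = φ m) {l m : List X}
    (h : l.Perm m) : cob φ l = cob φ m := by
  induction h generalizing φ with
  | nil => rfl
  | cons x h ih =>
    rw [cob_cons, cob_cons, hφ _ _ h, ih]
    intro l m hlm
    exact hφ _ _ (hlm.cons x)
  | swap x y l =>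
    simp only [cob_cons]
    have : (fun m => φ (y :: x :: m)) = fun m => φ (x :: y :: m) :=
      funext fun m => hφ _ _ (List.Perm.swap x y m)
    rw [this]; ring
  | trans _ _ ih1 ih2 => rw [ih1 hφ, ih2 hφ]

theorem cob_dup {φ : Co X} (a : X) (l : List X) (hφ : ∀ m, φ (a :: a :: m) = 0) :
    cob φ (a :: a :: l) = 0 := by
  simp only [cob_cons, hφ, cob_zero, add_zero, F2.add_self]

theorem cob_sum {ι : Type*} (s : Finset ι) (φ : ι → Co X) (l : List X) :
    cob (fun m => ∑ i ∈ s, φ i m) l = ∑ i ∈ s, cob (φ i) l := by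
  classical
  induction s using Finset.induction_on with
  | empty => simp [cob_zero]
  | insert a s ha ih => simp only [Finset.sum_insert ha]; rw [cob_add, ih]

/-- for a list without duplicates the coboundary is the sum over erasures -/
theorem cob_nodup [DecidableEq X] (φ : Co X) {l : List X} (h : l.Nodup) :
    cob φ l = ∑ a ∈ l.toFinset, φ (l.erase a) := by
  induction l generalizing φ with
  | nil => simp
  | cons x l ih =>
    rw [List.nodup_cons] at h
    rw [cob_cons, ih _ h.2, List.toFinset_cons, Finset.sum_insert (by simpa using h.1)]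
    simp only [List.erase_cons_head]
    congr 1
    apply Finset.sum_congr rfl
    intro a ha
    have : x ≠ a := by
      rintro rfl
      exact h.1 (by simpa using ha)
    rw [List.erase_cons_tail (by simpa using this)]

/-! ### cup product -/

def cupAux : List X → Co X → Co X → F2
  | [], _, _ => 0
  | x :: l, φ, ψ => φ [x] * ψ (x :: l) + cupAux l (fun m => φ (x :: m)) ψ

/-- cup product: the sum over all overlapping splittings of a list -/
def cup (φ ψ : Co X) : Co X := fun l => cupAux l φ ψ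

@[simp] theorem cup_nil (φ ψ : Co X) : cup φ ψ [] = 0 := rfl











/-- the cochain supported on one-point lists given by a function -/
def pt (f : X → F2) : Co X
  | [x] => f x
  | _ => 0

@[simp] theorem pt_nil (f : X → F2) : pt f [] = 0 := rfl
@[simp] theorem pt_single (f : X → F2) (x : X) : pt f [x] = f x := rfl
@[simp] theorem pt_cons_cons (f : X → F2) (x y : X) (l : List X) : pt f (x :: y :: l) = 0 := rfl




/-! ### prism operator -/

def prismAux (f g : X → Y) : List X → Co Y → F2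
  | [], _ => 0
  | x :: l, φ => φ (f x :: g x :: l.map g) + prismAux f g l (fun m => φ (f x :: m))

/-- The prism operator (dual of the chain homotopy between `f` and `g`). -/
def prism (f g : X → Y) (φ : Co Y) : Co X := fun l => prismAux f g l φ

@[simp] theorem prism_nil (f g : X → Y) (φ : Co Y) : prism f g φ [] = 0 := rfl

theorem prism_cons (f g : X → Y) (φ : Co Y) (x : X) (l : List X) :
    prism f g φ (x :: l) = φ (f x :: g x :: l.map g) + prism f g (fun m => φ (f x :: m)) l := rfl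

theorem prism_add (f g : X → Y) (φ ψ : Co Y) (l : List X) :
    prism f g (fun m => φ m + ψ m) l = prism f g φ l + prism f g ψ l := by
  induction l generalizing φ ψ with
  | nil => simp
  | cons x l ih => rw [prism_cons, prism_cons, prism_cons, ih]; ring

theorem prism_cob (f g : X → Y) (φ : Co Y) (l : List X) :
    prism f g (cob φ) l = cob (prism f g φ) l + φ (l.map f) + φ (l.map g) := by
  induction l generalizing φ with
  | nil => simp [F2.add_self]
  | cons x l ih =>
    rw [prism_cons, cob_cons (prism f g φ)]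
    have h1 : (fun m => cob φ (f x :: m)) = fun m => φ m + cob (fun m => φ (f x :: m)) m := rfl
    have h2 : (fun m => prism f g φ (x :: m)) =
        fun m => (fun m' => φ (f x :: g x :: m')) (m.map g) + prism f g (fun m => φ (f x :: m)) m :=
      rfl
    rw [h1, prism_add, ih, h2, cob_add, cob_map g (fun m' => φ (f x :: g x :: m')), cob_cons, cob_cons]
    simp only [List.map_cons]
    have := F2.add_self (φ (f x :: l.map g))
    linear_combination (exp := 1) this

theorem prism_ne_zero {f g : X → Y} {φ : Co Y} {l : List X} (h : prism f g φ l ≠ 0) :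
    ∃ m : List Y, φ m ≠ 0 ∧ m.length = l.length + 1 ∧ ∀ y ∈ m, ∃ x ∈ l, y = f x ∨ y = g x := by
  induction l generalizing φ with
  | nil => simp at h
  | cons x l ih =>
    rw [prism_cons] at h
    by_cases h1 : φ (f x :: g x :: l.map g) = 0
    · rw [h1, zero_add] at h
      obtain ⟨m, a, b, c⟩ := ih h
      refine ⟨f x :: m, a, by simp [b], ?_⟩
      intro y hy
      rcases List.mem_cons.1 hy with rfl | hy
      · exact ⟨x, by simp, Or.inl rfl⟩
      · obtain ⟨z, hz, hz'⟩ := c y hy
        exact ⟨z, List.mem_cons_of_mem _ hz, hz'⟩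
    · refine ⟨_, h1, by simp, ?_⟩
      intro y hy
      simp only [List.mem_cons, List.mem_map] at hy
      rcases hy with rfl | rfl | ⟨z, hz, rfl⟩
      · exact ⟨x, by simp, Or.inl rfl⟩
      · exact ⟨x, by simp, Or.inr rfl⟩
      · exact ⟨z, List.mem_cons_of_mem _ hz, Or.inr rfl⟩

/-! ### indicator cochains -/

section ind
variable {L : Type*} [DecidableEq L]

/-- indicator of lists enumerating the finite set `Λ` without repetition -/
def ind (Λ : Finset L) : Co L := fun m => if m.Nodup ∧ m.toFinset = Λ then 1 else 0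

theorem ind_ne_zero {Λ : Finset L} {m : List L} (h : ind Λ m ≠ 0) :
    m.Nodup ∧ m.toFinset = Λ := by
  by_contra hc
  exact h (if_neg hc)

theorem ind_perm (Λ : Finset L) (l m : List L) (h : l.Perm m) : ind Λ l = ind Λ m := by
  unfold ind
  simp only [h.nodup_iff, List.toFinset_eq_of_perm _ _ h]


theorem exists_perm_dup {m : List L} (h : ¬ m.Nodup) : ∃ a r, m.Perm (a :: a :: r) := by
  rw [List.nodup_iff_count_le_one] at h
  push Not at h
  obtain ⟨a, ha⟩ := h
  have h1 : a ∈ m := List.count_pos_iff.1 (by omega)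
  have h2 : a ∈ m.erase a := List.count_pos_iff.1 (by rw [List.count_erase_self]; omega)
  exact ⟨a, _, (List.perm_cons_erase h1).trans ((List.perm_cons_erase h2).cons a)⟩

theorem cob_ind [Fintype L] (Λ : Finset L) (m : List L) :
    cob (ind Λ) m = ∑ j ∈ Λᶜ, ind (insert j Λ) m := by
  by_cases h : m.Nodup
  · rw [cob_nodup _ h]
    have e1 : ∀ a ∈ m.toFinset, ind Λ (m.erase a) = if m.toFinset.erase a = Λ then 1 else 0 := by
      intro a _
      unfold ind
      have : (m.erase a).toFinset = m.toFinset.erase a := by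
        ext b; simp [h.mem_erase_iff]
      simp [h.erase a, this]
    have e2 : ∀ j ∈ Λᶜ, ind (insert j Λ) m = if m.toFinset = insert j Λ then 1 else 0 := by
      intro j _
      unfold ind
      simp [h]
    rw [Finset.sum_congr rfl e1, Finset.sum_congr rfl e2, ← Finset.sum_filter, ← Finset.sum_filter]
    congr 1
    ext a
    simp only [Finset.mem_filter, Finset.mem_compl]
    constructor
    · rintro ⟨h1, rfl⟩
      exact ⟨Finset.notMem_erase a _, (Finset.insert_erase h1).symm⟩
    · rintro ⟨h1, h2⟩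
      rw [h2]
      exact ⟨Finset.mem_insert_self _ _, Finset.erase_insert h1⟩
  · obtain ⟨a, r, hp⟩ := exists_perm_dup h
    rw [cob_perm (ind_perm Λ) hp, cob_dup]
    · symm
      apply Finset.sum_eq_zero
      intro j _
      unfold ind
      simp [h]
    · intro m
      unfold ind
      simp

end ind

/-! ### alternating cochains -/

/-- `(w, ψ)`: `w` is the indicator of alternating sign lists, `ψ` of those starting with `1`. -/
def altP : List F2 → F2 × F2
  | [] => (0, 1)
  | s :: l => (s * (altP l).1 + (altP l).2, s * (s * (altP l).1 + (altP l).2))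

def altW : Co F2 := fun l => (altP l).1
def altS : Co F2 := fun l => (altP l).2

theorem altW_cons (s : F2) (l : List F2) : altW (s :: l) = s * altW l + altS l := rfl
theorem altS_cons (s : F2) (l : List F2) : altS (s :: l) = s * (s * altW l + altS l) := rfl

theorem cob_alt (l : List F2) : cob altW l = 0 ∧ cob altS l = altW l := by
  induction l with
  | nil => exact ⟨rfl, rfl⟩
  | cons s l ih =>
    have h1 : (fun m => altW (s :: m)) = fun m => s * altW m + altS m := rfl
    have h2 : (fun m => altS (s :: m)) = fun m => s * (s * altW m + altS m) := rfl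
    rw [cob_cons, cob_cons, h1, h2, cob_mul, cob_add, cob_mul, ih.1, ih.2, altW_cons]
    constructor
    · rw [mul_zero, zero_add, F2.add_self]
    · ring

theorem alt_flip (l : List F2) :
    altW (l.map (· + 1)) = altW l ∧ altS (l.map (· + 1)) = altS l + altW l := by
  induction l with
  | nil => exact ⟨rfl, by simp [altS, altW, altP]⟩
  | cons s l ih =>
    rw [List.map_cons, altW_cons, altS_cons, altW_cons, altS_cons, ih.1, ih.2]
    have := F2.add_self (altW l)
    constructor
    · linear_combination (exp := 1) this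
    · linear_combination (exp := 1) (s + 1) * this

section srt
variable {ι : Type*} [LinearOrder ι]

/-- signed labels -/
abbrev Lab (ι : Type*) := ι × F2

/-- the opposite label -/
def opp (a : Lab ι) : Lab ι := (a.1, a.2 + 1)

omit [LinearOrder ι] in
theorem opp_opp (a : Lab ι) : opp (opp a) = a := by
  rcases a with ⟨i, s⟩
  simp [opp, add_assoc, F2.add_self]

/-- sort a list of labels by colour -/
def srt (m : List (Lab ι)) : List (Lab ι) := m.insertionSort (fun a b => a.1 ≤ b.1)

theorem srt_perm (m : List (Lab ι)) : (srt m).Perm m := List.perm_insertionSort _ _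

theorem srt_pairwise (m : List (Lab ι)) : (srt m).Pairwise (fun a b => a.1 ≤ b.1) := by
  have : Std.Total (fun a b : Lab ι => a.1 ≤ b.1) := ⟨fun a b => le_total _ _⟩
  have : IsTrans (Lab ι) (fun a b : Lab ι => a.1 ≤ b.1) := ⟨fun a b c => le_trans⟩
  exact List.pairwise_insertionSort _ _

theorem srt_eq {l m : List (Lab ι)} (h : l.Perm m) (hn : (l.map Prod.fst).Nodup)
    (hm : m.Pairwise (fun a b => a.1 ≤ b.1)) : srt l = m := by
  refine List.Perm.eq_of_pairwise ?_ (srt_pairwise l) hm ((srt_perm l).trans h)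
  intro a b ha hb hab hba
  exact List.inj_on_of_nodup_map hn ((srt_perm l).subset ha) (h.symm.subset hb)
    (le_antisymm hab hba)

/-- the sorted extension of a cochain on labels -/
def ext (ψ : Co (Lab ι)) : Co (Lab ι) :=
  fun m => if (m.map Prod.fst).Nodup then ψ (srt m) else 0

theorem ext_perm (ψ : Co (Lab ι)) (l m : List (Lab ι)) (h : l.Perm m) : ext ψ l = ext ψ m := by
  unfold ext
  by_cases hn : (l.map Prod.fst).Nodup
  · rw [if_pos hn, if_pos ((h.map _).nodup_iff.1 hn),
      srt_eq (h.trans (srt_perm m).symm) hn (srt_pairwise m)]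
  · rw [if_neg hn, if_neg (fun h' => hn ((h.map _).nodup_iff.2 h'))]

theorem cob_ext (ψ : Co (Lab ι)) {m : List (Lab ι)} (hm : ∀ a ∈ m, ∀ b ∈ m, a.1 = b.1 → a = b) :
    cob (ext ψ) m = ext (cob ψ) m := by
  by_cases hn : (m.map Prod.fst).Nodup
  · rw [cob_perm (ext_perm ψ) (srt_perm m).symm]
    have : ext (cob ψ) m = cob ψ (srt m) := if_pos hn
    rw [this]
    apply cob_congr
    intro r hr _
    have hn' : (r.map Prod.fst).Nodup :=
      (((srt_perm m).map _).nodup_iff.2 hn).sublist (hr.map _)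
    unfold ext
    rw [if_pos hn', srt_eq (List.Perm.refl r) hn' ((srt_pairwise m).sublist hr)]
  · have : ext (cob ψ) m = 0 := if_neg hn
    rw [this]
    have hd : ¬ m.Nodup := fun h => hn (List.Nodup.map_on hm h)
    obtain ⟨a, r, hp⟩ := exists_perm_dup hd
    rw [cob_perm (ext_perm ψ) hp, cob_dup]
    intro m
    unfold ext
    simp

theorem ext_opp (ψ : Co (Lab ι)) (m : List (Lab ι)) :
    ext ψ (m.map opp) = ext (fun r => ψ (r.map opp)) m := by
  unfold ext
  have h1 : (m.map opp).map Prod.fst = m.map Prod.fst := by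
    rw [List.map_map]; rfl
  rw [h1]
  by_cases hn : (m.map Prod.fst).Nodup
  · rw [if_pos hn, if_pos hn, srt_eq ((srt_perm m).symm.map opp) (h1 ▸ hn)]
    rw [List.pairwise_map]
    exact srt_pairwise m
  · rw [if_neg hn, if_neg hn]

/-- Ky Fan's alternating cochain -/
def kf : Co (Lab ι) := ext (fun r => altS (r.map Prod.snd))

theorem kf_add_opp {m : List (Lab ι)} (hm : ∀ a ∈ m, ∀ b ∈ m, a.1 = b.1 → a = b) :
    kf m + kf (m.map opp) = cob kf m := by
  unfold kf
  rw [cob_ext _ hm, ext_opp]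
  unfold ext
  split_ifs with hn
  · rw [cob_map Prod.snd altS, (cob_alt _).2]
    have : ((srt m).map opp).map Prod.snd = ((srt m).map Prod.snd).map (· + 1) := by
      rw [List.map_map, List.map_map]; rfl
    simp only []
    rw [this, (alt_flip _).2, ← add_assoc, F2.add_self, zero_add]
  · simp

theorem kf_nil : kf ([] : List (Lab ι)) = 1 := by
  simp [kf, ext, srt, altS, altP]

/-- the facet of the cross-polytope given by a sign vector -/
def facet [Fintype ι] (σ : ι → F2) : Finset (Lab ι) :=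
  Finset.univ.image (fun i => (i, σ i))

theorem mem_facet [Fintype ι] {σ : ι → F2} {a : Lab ι} : a ∈ facet σ ↔ a.2 = σ a.1 := by
  unfold facet
  simp only [Finset.mem_image, Finset.mem_univ, true_and]
  constructor
  · rintro ⟨i, rfl⟩; rfl
  · intro h; exact ⟨a.1, by rw [← h]⟩

theorem facet_injective [Fintype ι] : Function.Injective (facet : (ι → F2) → _) := by
  intro σ τ h
  funext i
  have : (i, σ i) ∈ facet σ := mem_facet.2 rfl
  rw [h] at this
  exact mem_facet.1 this

/-- on lists of full length, `kf` is a combination of facet indicators -/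
theorem kf_eq_sum [Fintype ι] : ∃ c : (ι → F2) → F2, ∀ m : List (Lab ι),
    m.length = Fintype.card ι → kf m = ∑ σ, c σ * ind (facet σ) m := by
  classical
  refine ⟨fun σ => kf (facet σ).toList, fun m hm => ?_⟩
  by_cases hn : (m.map Prod.fst).Nodup
  · have hall : ∀ i, ∃ s, (i, s) ∈ m := by
      intro i
      have : (m.map Prod.fst).toFinset = Finset.univ := by
        apply Finset.eq_univ_of_card
        rw [List.toFinset_card_of_nodup hn, List.length_map, hm]
      have hi : i ∈ (m.map Prod.fst).toFinset := this ▸ Finset.mem_univ i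
      simp only [List.mem_toFinset, List.mem_map] at hi
      obtain ⟨⟨j, s⟩, h1, rfl⟩ := hi
      exact ⟨s, h1⟩
    choose σ hσ using hall
    have hmσ : m.toFinset = facet σ := by
      ext a
      rw [List.mem_toFinset, mem_facet]
      constructor
      · intro ha
        have := List.inj_on_of_nodup_map hn ha (hσ a.1) rfl
        rw [this]
      · intro ha
        have := hσ a.1
        rwa [← ha] at this
    have hnd : m.Nodup := hn.of_map _
    rw [Finset.sum_eq_single σ]
    · have : ind (facet σ) m = 1 := if_pos ⟨hnd, hmσ⟩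
      rw [this, mul_one]
      apply ext_perm
      rw [← hmσ]
      exact (List.toFinset_toList hnd).symm
    · intro τ _ hτ
      have : ind (facet τ) m = 0 := if_neg (fun h => hτ (facet_injective (h.2.symm.trans hmσ)))
      rw [this, mul_zero]
    · simp
  · have : kf m = 0 := if_neg hn
    rw [this]
    symm
    apply Finset.sum_eq_zero
    intro σ _
    have : ind (facet σ) m = 0 := by
      apply if_neg
      rintro ⟨h1, h2⟩
      apply hn
      apply List.Nodup.map_on _ h1
      intro a ha b hb hab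
      have ha' : a ∈ facet σ := h2 ▸ List.mem_toFinset.2 ha
      have hb' : b ∈ facet σ := h2 ▸ List.mem_toFinset.2 hb
      rw [mem_facet] at ha' hb'
      exact Prod.ext hab (by rw [ha', hb', hab])
    rw [this, mul_zero]

end srt

end Crest.Agent.Lib.KyFan
private theorem rz_11b173c962 : type_of% @_root_.Crest.Agent.Lib.KyFan.altP.eq_def := @_root_.Crest.Agent.Lib.KyFan.altP.eq_def -- L365
private theorem rz_47fa737368 : type_of% @_root_.Crest.Agent.Lib.KyFan.altP.eq_1 := @_root_.Crest.Agent.Lib.KyFan.altP.eq_1 -- L365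
end

-- ▼ part PVc/Lib/KyFan/Basic
section

/-!
The fundamental mod 2 cycle of the `ℓ¹` sphere at an arbitrarily fine scale, built from hemisphere
sweeps, and Ky Fan's parity theorem for antipodal labellings.
-/

namespace Crest.Agent.Lib.KyFan

open Finset

variable {N : ℕ}

/-- the `ℓ¹` unit sphere -/
def sph (N : ℕ) : Set (Fin N → ℝ) := {v | ∑ i, |v i| = 1}

theorem sph_abs_le {v : Fin N → ℝ} (hv : v ∈ sph N) (i : Fin N) : |v i| ≤ 1 := by
  have h : ∑ i, |v i| = 1 := hv
  rw [← h]
  exact Finset.single_le_sum (f := fun i => |v i|) (fun j _ => abs_nonneg _) (mem_univ i)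

theorem sph_neg {v : Fin N → ℝ} (hv : v ∈ sph N) : -v ∈ sph N := by
  have h : ∑ i, |v i| = 1 := hv
  simpa [sph] using h

theorem sph_ne_zero {v : Fin N → ℝ} (hv : v ∈ sph N) : v ≠ 0 := by
  rintro rfl
  simp [sph] at hv

theorem isClosed_sph : IsClosed (sph N) :=
  isClosed_eq (by fun_prop) continuous_const

theorem isCompact_sph : IsCompact (sph N) := by
  apply Metric.isCompact_of_isClosed_isBounded isClosed_sph
  apply (Metric.isBounded_closedBall (x := (0 : Fin N → ℝ)) (r := 1)).subset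
  intro v hv
  rw [mem_closedBall_zero_iff, pi_norm_le_iff_of_nonneg zero_le_one]
  exact fun i => sph_abs_le hv i

/-- the pole -/
def pole (N k : ℕ) : Fin N → ℝ := fun i => if (i : ℕ) = k then 1 else 0

/-- straight-line homotopy towards the pole -/
noncomputable def hmt (M k t : ℕ) (x : Fin N → ℝ) : Fin N → ℝ :=
  fun i => (1 - (t : ℝ) / M) * x i + (t : ℝ) / M * pole N k i

/-- the sweep (dual of the cone with apex the pole) -/
noncomputable def sweep (M k : ℕ) (φ : Co (Fin N → ℝ)) : Co (Fin N → ℝ) :=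
  fun l => ∑ t ∈ range M, prism (hmt M k t) (hmt M k (t + 1)) φ l

theorem sum_range_telescope (a : ℕ → F2) (M : ℕ) :
    ∑ t ∈ range M, (a t + a (t + 1)) = a 0 + a M := by
  induction M with
  | zero => simp [F2.add_self]
  | succ M ih =>
    rw [sum_range_succ, ih]
    have := F2.add_self (a M)
    linear_combination (exp := 1) this

theorem sweep_add (M k : ℕ) (φ ψ : Co (Fin N → ℝ)) (l : List (Fin N → ℝ)) :
    sweep M k (fun m => φ m + ψ m) l = sweep M k φ l + sweep M k ψ l := by
  simp only [sweep, prism_add, sum_add_distrib]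

theorem sweep_cob {M : ℕ} (hM : 0 < M) (k : ℕ) (φ : Co (Fin N → ℝ)) (l : List (Fin N → ℝ)) :
    sweep M k (cob φ) l = cob (sweep M k φ) l + φ l + φ (l.map (fun _ => pole N k)) := by
  have h0 : hmt (N := N) M k 0 = id := by
    funext x i; simp [hmt]
  have h1 : hmt (N := N) M k M = fun _ => pole N k := by
    funext x i
    have : (M : ℝ) ≠ 0 := by positivity
    simp [hmt, div_self this]
  unfold sweep
  rw [cob_sum]
  simp only [prism_cob, add_assoc]
  rw [sum_add_distrib, sum_range_telescope (fun t => φ (l.map (hmt M k t))), h0, h1, List.map_id]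

/-- evaluation on the `k`-dimensional upper hemisphere chain -/
noncomputable def hemi (M : ℕ) : ℕ → Co (Fin N → ℝ) → F2
  | 0, φ => φ [pole N 0]
  | k + 1, φ => hemi M k (sweep M (k + 1) φ) +
      hemi M k (fun l => sweep M (k + 1) φ (l.map Neg.neg))

/-- evaluation on the `k`-dimensional sphere cycle -/
noncomputable def cyc (M k : ℕ) (φ : Co (Fin N → ℝ)) : F2 :=
  hemi M k φ + hemi M k (fun l => φ (l.map Neg.neg))

theorem hemi_succ (M k : ℕ) (φ : Co (Fin N → ℝ)) :
    hemi M (k + 1) φ = cyc M k (sweep M (k + 1) φ) := rfl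

theorem hemi_add (M k : ℕ) (φ ψ : Co (Fin N → ℝ)) :
    hemi M k (fun m => φ m + ψ m) = hemi M k φ + hemi M k ψ := by
  induction k generalizing φ ψ with
  | zero => rfl
  | succ k ih =>
    simp only [hemi]
    have h1 : sweep M (k + 1) (fun m => φ m + ψ m) =
        fun m => sweep M (k + 1) φ m + sweep M (k + 1) ψ m := funext (sweep_add M _ φ ψ)
    rw [h1, ih, ih]; ring

theorem cyc_add (M k : ℕ) (φ ψ : Co (Fin N → ℝ)) :
    cyc M k (fun m => φ m + ψ m) = cyc M k φ + cyc M k ψ := by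
  unfold cyc
  rw [hemi_add, hemi_add]; ring

theorem cyc_of_even (M k : ℕ) {φ : Co (Fin N → ℝ)} (h : ∀ l, φ (l.map Neg.neg) = φ l) :
    cyc M k φ = 0 := by
  unfold cyc
  rw [funext h, F2.add_self]

theorem cyc_neg (M k : ℕ) (φ : Co (Fin N → ℝ)) :
    cyc M k (fun l => φ (l.map Neg.neg)) = cyc M k φ := by
  unfold cyc
  simp only [List.map_map]
  have : (Neg.neg ∘ Neg.neg : (Fin N → ℝ) → (Fin N → ℝ)) = id := by funext x; simp
  simp only [this, List.map_id]
  ring

theorem cyc_cob {M : ℕ} (hM : 0 < M) (k : ℕ) :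
    (∀ φ : Co (Fin N → ℝ), cyc M k (cob φ) = 0) ∧
      ∀ φ : Co (Fin N → ℝ), hemi M (k + 1) (cob φ) = cyc M k φ := by
  have step : ∀ k, (∀ φ : Co (Fin N → ℝ), cyc M k (cob φ) = 0) →
      ∀ φ : Co (Fin N → ℝ), hemi M (k + 1) (cob φ) = cyc M k φ := by
    intro k hk φ
    rw [hemi_succ, funext (sweep_cob hM (k + 1) φ), cyc_add, cyc_add, hk, zero_add,
      cyc_of_even M k (φ := fun l => φ (l.map (fun _ => pole N (k + 1)))), add_zero]
    intro l
    simp only [List.map_map]
    rfl
  induction k with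
  | zero =>
    have : ∀ φ : Co (Fin N → ℝ), cyc M 0 (cob φ) = 0 := by
      intro φ
      simp [cyc, hemi, cob_cons, F2.add_self]
    exact ⟨this, step 0 this⟩
  | succ k ih =>
    have : ∀ φ : Co (Fin N → ℝ), cyc M (k + 1) (cob φ) = 0 := by
      intro φ
      unfold cyc
      have : (fun l => cob φ (l.map Neg.neg)) = cob (fun m => φ (m.map Neg.neg)) :=
        funext fun l => (cob_map _ _ _).symm
      rw [this, ih.2, ih.2, cyc_neg, F2.add_self]
    exact ⟨this, step _ this⟩

/-- lists that can occur in the `k`-th hemisphere chain -/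
def Good (M k : ℕ) (l : List (Fin N → ℝ)) : Prop :=
  l.length = k + 1 ∧ (∀ x ∈ l, x ∈ sph N ∧ ∀ i : Fin N, k < (i : ℕ) → x i = 0) ∧
    ∀ x ∈ l, ∀ y ∈ l, dist x y ≤ 2 * k / M

theorem Good.neg {M k : ℕ} {l : List (Fin N → ℝ)} (h : Good M k l) :
    Good M k (l.map Neg.neg) := by
  refine ⟨by simpa using h.1, ?_, ?_⟩
  · intro x hx
    obtain ⟨y, hy, rfl⟩ := List.mem_map.1 hx
    exact ⟨sph_neg (h.2.1 y hy).1, fun i hi => by simp [(h.2.1 y hy).2 i hi]⟩
  · intro x hx y hy
    obtain ⟨x', hx', rfl⟩ := List.mem_map.1 hx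
    obtain ⟨y', hy', rfl⟩ := List.mem_map.1 hy
    rw [dist_neg_neg]
    exact h.2.2 _ hx' _ hy'

theorem hmt_mem {M k t : ℕ} (hM : 0 < M) (ht : t ≤ M) (hk : k + 1 < N) {x : Fin N → ℝ}
    (hx : x ∈ sph N ∧ ∀ i : Fin N, k < (i : ℕ) → x i = 0) :
    hmt M (k + 1) t x ∈ sph N ∧ ∀ i : Fin N, k + 1 < (i : ℕ) → hmt M (k + 1) t x i = 0 := by
  have hM' : (0 : ℝ) < M := by exact_mod_cast hM
  have h0 : 0 ≤ (t : ℝ) / M := by positivity
  have h1 : (t : ℝ) / M ≤ 1 := by rw [div_le_one hM']; exact_mod_cast ht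
  constructor
  · have h : ∑ i, |x i| = 1 := hx.1
    have e : ∀ i, |hmt M (k + 1) t x i| =
        (1 - (t : ℝ) / M) * |x i| + (t : ℝ) / M * (if i = ⟨k + 1, hk⟩ then 1 else 0) := by
      intro i
      unfold hmt pole
      by_cases hi : i = ⟨k + 1, hk⟩
      · subst hi
        simp [hx.2 ⟨k + 1, hk⟩ (by simp), abs_of_nonneg h0]
      · have : (i : ℕ) ≠ k + 1 := fun h => hi (Fin.ext h)
        simp [hi, this, abs_mul, abs_of_nonneg (sub_nonneg.2 h1)]
    change ∑ i, |hmt M (k + 1) t x i| = 1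
    simp only [e, sum_add_distrib, ← mul_sum, h]
    simp
  · intro i hi
    unfold hmt pole
    have : (i : ℕ) ≠ k + 1 := by omega
    simp [this, hx.2 i (by omega)]

theorem hmt_dist {M k s t : ℕ} (hM : 0 < M) (hs : s ≤ M) (hst : |(s : ℝ) - t| ≤ 1)
    {x y : Fin N → ℝ} (hy : y ∈ sph N) {r : ℝ} (hr : dist x y ≤ r) :
    dist (hmt M k s x) (hmt M k t y) ≤ r + 2 / M := by
  have hM' : (0 : ℝ) < M := by exact_mod_cast hM
  have h0 : 0 ≤ (s : ℝ) / M := by positivity
  have h1 : (s : ℝ) / M ≤ 1 := by rw [div_le_one hM']; exact_mod_cast hs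
  have hr0 : 0 ≤ r := dist_nonneg.trans hr
  rw [dist_pi_le_iff (by positivity)]
  intro i
  have h2 : |x i - y i| ≤ r := by
    rw [← Real.dist_eq]; exact (dist_le_pi_dist x y i).trans hr
  have h3 : |pole N k i - y i| ≤ 2 := by
    have := sph_abs_le hy i
    have h4 : |pole N k i| ≤ 1 := by unfold pole; split_ifs <;> simp
    calc |pole N k i - y i| ≤ |pole N k i| + |y i| := abs_sub _ _
      _ ≤ 2 := by linarith
  rw [Real.dist_eq]
  have e : hmt M k s x i - hmt M k t y i =
      (1 - (s : ℝ) / M) * (x i - y i) + ((s : ℝ) - t) * (pole N k i - y i) / M := by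
    unfold hmt; field_simp; ring
  rw [e]
  calc _ ≤ |(1 - (s : ℝ) / M) * (x i - y i)| + |((s : ℝ) - t) * (pole N k i - y i) / M| :=
        abs_add_le _ _
    _ = (1 - (s : ℝ) / M) * |x i - y i| + |(s : ℝ) - t| * |pole N k i - y i| / M := by
        rw [abs_mul, abs_div, abs_mul, abs_of_nonneg (sub_nonneg.2 h1), abs_of_pos hM']
    _ ≤ 1 * r + 1 * 2 / M := by
        gcongr
        linarith
    _ = r + 2 / M := by ring

theorem hemi_ne_zero {M : ℕ} (hM : 0 < M) {k : ℕ} (hk : k < N) {φ : Co (Fin N → ℝ)}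
    (h : hemi M k φ ≠ 0) : ∃ l, Good M k l ∧ φ l ≠ 0 := by
  induction k generalizing φ with
  | zero =>
    refine ⟨[pole N 0], ⟨rfl, ?_, ?_⟩, h⟩
    · intro x hx
      rw [List.mem_singleton] at hx
      subst hx
      constructor
      · change ∑ i, |pole N 0 i| = 1
        rw [Finset.sum_eq_single ⟨0, hk⟩]
        · simp [pole]
        · intro i _ hi
          have : (i : ℕ) ≠ 0 := fun h => hi (Fin.ext h)
          simp [pole, this]
        · simp
      · intro i hi
        have : (i : ℕ) ≠ 0 := by omega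
        simp [pole, this]
    · intro x hx y hy
      rw [List.mem_singleton] at hx hy
      simp [hx, hy]
  | succ k ih =>
    have key : ∃ l, Good M k l ∧ sweep M (k + 1) φ l ≠ 0 := by
      simp only [hemi] at h
      by_cases h1 : hemi M k (sweep M (k + 1) φ) = 0
      · rw [h1, zero_add] at h
        obtain ⟨l, hl, hl'⟩ := ih (by omega) h
        exact ⟨_, hl.neg, hl'⟩
      · exact ih (by omega) h1
    obtain ⟨l, hl, hl'⟩ := key
    obtain ⟨t, ht, ht'⟩ := Finset.exists_ne_zero_of_sum_ne_zero hl'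
    rw [mem_range] at ht
    obtain ⟨m, hm, hlen, hmem⟩ := prism_ne_zero ht'
    refine ⟨m, ⟨by rw [hlen, hl.1], ?_, ?_⟩, hm⟩
    · intro y hy
      obtain ⟨x, hx, rfl | rfl⟩ := hmem y hy
      · exact hmt_mem hM (by omega) hk (hl.2.1 x hx)
      · exact hmt_mem hM (by omega) hk (hl.2.1 x hx)
    · intro y hy y' hy'
      have e : (2 * ((k + 1 : ℕ) : ℝ) / M) = 2 * k / M + 2 / M := by push_cast; ring
      rw [e]
      obtain ⟨x, hx, rfl | rfl⟩ := hmem y hy <;> obtain ⟨x', hx', rfl | rfl⟩ := hmem y' hy' <;>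
        refine hmt_dist hM (by omega) ?_ (hl.2.1 x' hx').1 (hl.2.2 x hx x' hx') <;> simp

theorem cyc_ne_zero {M : ℕ} (hM : 0 < M) {k : ℕ} (hk : k < N) {φ : Co (Fin N → ℝ)}
    (h : cyc M k φ ≠ 0) : ∃ l, Good M k l ∧ φ l ≠ 0 := by
  unfold cyc at h
  by_cases h1 : hemi M k φ = 0
  · rw [h1, zero_add] at h
    obtain ⟨l, hl, hl'⟩ := hemi_ne_zero hM hk h
    exact ⟨_, hl.neg, hl'⟩
  · exact hemi_ne_zero hM hk h1

theorem F2.eq_of_add_eq_zero {a b : F2} (h : a + b = 0) : a = b := by
  have := F2.add_self b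
  linear_combination (exp := 1) h - this

theorem F2.eq_one_of_ne_zero {a : F2} (h : a ≠ 0) : a = 1 := by
  revert a; decide

theorem F2.eq_add_one_of_ne {a b : F2} (h : a ≠ b) : b = a + 1 := by
  revert a b; decide

theorem hemi_congr {M : ℕ} (hM : 0 < M) {k : ℕ} (hk : k < N) {φ ψ : Co (Fin N → ℝ)}
    (h : ∀ l, Good M k l → φ l = ψ l) : hemi M k φ = hemi M k ψ := by
  apply F2.eq_of_add_eq_zero
  rw [← hemi_add]
  by_contra hc
  obtain ⟨l, hl, hl'⟩ := hemi_ne_zero hM hk hc
  exact hl' (by rw [h l hl, F2.add_self])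

/-- A Lebesgue number for a finite family of closed sets. -/
theorem exists_lebesgue {Z : Type*} [PseudoMetricSpace Z] {K : Set Z} (hK : IsCompact K)
    {κ : Type*} [Finite κ] (G : κ → Set Z) (hG : ∀ k, IsClosed (G k)) :
    ∃ ε > 0, ∀ x ∈ K, ∃ v ∈ K, ∀ y, dist y x < ε → ∀ k, y ∈ G k → v ∈ G k := by
  have hopen : ∀ v : K, IsOpen (⋂ k : {k // (v : Z) ∉ G k}, (G k)ᶜ) := fun v =>
    isOpen_iInter_of_finite fun k => (hG k).isOpen_compl
  obtain ⟨ε, hε, h⟩ := lebesgue_number_lemma_of_metric hK hopen (by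
    intro x hx
    simp only [Set.mem_iUnion, Set.mem_iInter]
    exact ⟨⟨x, hx⟩, fun k => k.2⟩)
  refine ⟨ε, hε, fun x hx => ?_⟩
  obtain ⟨v, hv⟩ := h x hx
  refine ⟨v, v.2, fun y hy k hk => ?_⟩
  by_contra hc
  have := hv (Metric.mem_ball.2 hy)
  simp only [Set.mem_iInter] at this
  exact this ⟨k, hc⟩ hk

/-- Ky Fan's parity theorem at the level of the hemisphere chains. -/
theorem cyc_kf {M : ℕ} (hM : 0 < M) (lam : (Fin N → ℝ) → Lab (Fin N))
    (hodd : ∀ x ∈ sph N, lam (-x) = opp (lam x))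
    (hnc : ∀ k < N, ∀ l, Good M k l → ∀ x ∈ l, ∀ y ∈ l, (lam x).1 = (lam y).1 → lam x = lam y)
    {k : ℕ} (hk : k < N) : cyc M k (fun l => kf (l.map lam)) = 1 := by
  have key : ∀ k < N, cyc M k (fun l => kf (l.map lam)) =
      hemi M k (cob (fun l => kf (l.map lam))) := by
    intro k hk
    unfold cyc
    rw [← hemi_add]
    apply hemi_congr hM hk
    intro l hl
    rw [cob_map lam kf, ← kf_add_opp]
    · simp only []
      congr 2
      rw [List.map_map, List.map_map]
      apply List.map_congr_left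
      intro x hx
      exact hodd x (hl.2.1 x hx).1
    · intro a ha b hb hab
      obtain ⟨x, hx, rfl⟩ := List.mem_map.1 ha
      obtain ⟨y, hy, rfl⟩ := List.mem_map.1 hb
      exact hnc k hk l hl x hx y hy hab
  induction k with
  | zero =>
    rw [key 0 hk]
    simp [hemi, cob_cons, kf_nil]
  | succ k ih =>
    rw [key _ hk, (cyc_cob hM k).2, ih (by omega)]

theorem exists_odd_label (P : Lab (Fin N) → Set (Fin N → ℝ)) (hN : 0 < N)
    (cover : ∀ x ∈ sph N, ∃ a, x ∈ P a) (symm : ∀ a x, x ∈ P a → -x ∈ P (opp a)) :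
    ∃ lam : (Fin N → ℝ) → Lab (Fin N), (∀ x ∈ sph N, x ∈ P (lam x)) ∧
      ∀ x ∈ sph N, lam (-x) = opp (lam x) := by
  classical
  have : Nonempty (Lab (Fin N)) := ⟨(⟨0, hN⟩, 0)⟩
  choose! f hf using cover
  let rep : (Fin N → ℝ) → (Fin N → ℝ) := fun x => Classical.epsilon (fun y => y = x ∨ y = -x)
  have h1 : ∀ x, rep x = x ∨ rep x = -x := fun x =>
    Classical.epsilon_spec (p := fun y => y = x ∨ y = -x) ⟨x, Or.inl rfl⟩
  have h2 : ∀ x, rep (-x) = rep x := fun x => by
    simp only [rep, neg_neg, or_comm]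
  refine ⟨fun x => if rep x = x then f x else opp (f (-x)), ?_, ?_⟩
  · intro x hx
    dsimp only
    split_ifs
    · exact hf x hx
    · simpa using symm _ _ (hf _ (sph_neg hx))
  · intro x hx
    have hne : x ≠ -x := by
      intro h
      apply sph_ne_zero hx
      funext i
      have := congrFun h i
      simp only [Pi.neg_apply] at this
      simp only [Pi.zero_apply]
      linarith
    dsimp only
    rw [h2, neg_neg]
    rcases h1 x with h | h
    · rw [if_neg (by rw [h]; exact hne), if_pos h]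
    · rw [if_pos h, if_neg (by rw [h]; exact hne.symm), opp_opp]

/-- **Ky Fan's theorem, functional form.**  Let the `ℓ¹` sphere in `ℝ^N` be covered by closed sets
`P (i, s)`, with `P (i, s + 1) = - P (i, s)` disjoint from `P (i, s)`.  Then there is a labelling
and a mod 2 cycle, supported on lists that are small with respect to the sets `P` and any further
finite family of closed sets `G`, on which every facet indicator takes the value `1`. -/
theorem kyFan (hN : 0 < N) {κ : Type*} [Finite κ] (G : κ → Set (Fin N → ℝ))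
    (hG : ∀ k, IsClosed (G k)) (P : Lab (Fin N) → Set (Fin N → ℝ)) (hP : ∀ a, IsClosed (P a))
    (cover : ∀ x ∈ sph N, ∃ a, x ∈ P a) (symm : ∀ a x, x ∈ P a → -x ∈ P (opp a))
    (disj : ∀ a, ∀ x ∈ sph N, x ∈ P a → x ∉ P (opp a)) :
    ∃ (lam : (Fin N → ℝ) → Lab (Fin N)) (I : Co (Fin N → ℝ) →+ F2),
      (∀ φ, I (cob φ) = 0) ∧
      (∀ φ, I φ ≠ 0 → ∃ l, φ l ≠ 0 ∧ l ≠ [] ∧ (∀ x ∈ l, x ∈ sph N) ∧
        ∃ v ∈ sph N, ∀ x ∈ l, v ∈ P (lam x) ∧ ∀ k, x ∈ G k → v ∈ G k) ∧
      ∀ σ, I (fun l => ind (facet σ) (l.map lam)) = 1 := by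
  classical
  obtain ⟨lam, hlam, hodd⟩ := exists_odd_label P hN cover symm
  obtain ⟨ε, hε, hleb⟩ := exists_lebesgue (isCompact_sph (N := N)) (Sum.elim G P)
    (by rintro (k | a); exacts [hG k, hP a])
  obtain ⟨M, hM⟩ := exists_nat_gt (2 * N / ε)
  have hM0 : 0 < M := by
    have : (0 : ℝ) < M := lt_of_le_of_lt (by positivity) hM
    exact_mod_cast this
  have hsmall : ∀ k < N, ∀ l, Good M k l → l ≠ [] ∧ (∀ x ∈ l, x ∈ sph N) ∧
      ∃ v ∈ sph N, ∀ x ∈ l, v ∈ P (lam x) ∧ ∀ k, x ∈ G k → v ∈ G k := by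
    intro k hk l hl
    have hne : l ≠ [] := by
      rintro rfl
      simpa using hl.1
    refine ⟨hne, fun x hx => (hl.2.1 x hx).1, ?_⟩
    obtain ⟨x₀, hx₀⟩ := List.exists_mem_of_ne_nil l hne
    obtain ⟨v, hv, hv'⟩ := hleb x₀ (hl.2.1 x₀ hx₀).1
    refine ⟨v, hv, fun x hx => ?_⟩
    have hd : dist x x₀ < ε := by
      refine lt_of_le_of_lt (hl.2.2 x hx x₀ hx₀) ?_
      have hM' : (0 : ℝ) < M := by exact_mod_cast hM0
      rw [div_lt_iff₀ hε] at hM
      rw [div_lt_iff₀ hM']
      have : (k : ℝ) ≤ N := by exact_mod_cast hk.le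
      linarith
    exact ⟨hv' x hd (Sum.inr (lam x)) (hlam x (hl.2.1 x hx).1), fun k hk => hv' x hd (Sum.inl k) hk⟩
  have hopp : ∀ a b : Lab (Fin N), a.1 = b.1 → a ≠ b → b = opp a := by
    rintro ⟨i, s⟩ ⟨j, t⟩ h hne
    simp only at h
    subst h
    have : s ≠ t := fun h => hne (by rw [h])
    unfold opp
    simp only [Prod.mk.injEq, true_and]
    exact F2.eq_add_one_of_ne this
  have hnc : ∀ k < N, ∀ l, Good M k l → ∀ x ∈ l, ∀ y ∈ l, (lam x).1 = (lam y).1 →
      lam x = lam y := by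
    intro k hk l hl x hx y hy hxy
    obtain ⟨-, -, v, hv, hv'⟩ := hsmall k hk l hl
    by_contra hne
    exact disj _ v hv (hv' x hx).1 (hopp _ _ hxy hne ▸ (hv' y hy).1)
  have hk : N - 1 < N := by omega
  let I : Co (Fin N → ℝ) →+ F2 := AddMonoidHom.mk' (cyc M (N - 1)) (cyc_add M (N - 1))
  have hI : ∀ φ, I φ = cyc M (N - 1) φ := fun φ => rfl
  have hI0 : ∀ φ, (∀ l, Good M (N - 1) l → φ l = 0) → I φ = 0 := by
    intro φ hφ
    by_contra hc
    obtain ⟨l, hl, hl'⟩ := cyc_ne_zero hM0 hk hc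
    exact hl' (hφ l hl)
  have hIcongr : ∀ φ ψ, (∀ l, Good M (N - 1) l → φ l = ψ l) → I φ = I ψ := by
    intro φ ψ h
    apply F2.eq_of_add_eq_zero
    rw [← map_add]
    apply hI0
    intro l hl
    rw [Pi.add_apply, h l hl, F2.add_self]
  have hIsum : ∀ {ι : Type} (s : Finset ι) (φ : ι → Co (Fin N → ℝ)),
      I (fun l => ∑ i ∈ s, φ i l) = ∑ i ∈ s, I (φ i) := by
    intro ι s φ
    rw [← map_sum]
    congr 1
    funext l
    rw [Finset.sum_apply]
  refine ⟨lam, I, (cyc_cob hM0 _).1, ?_, ?_⟩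
  · intro φ hφ
    obtain ⟨l, hl, hl'⟩ := cyc_ne_zero hM0 hk hφ
    exact ⟨l, hl', hsmall _ hk l hl⟩
  · -- all facets have the same value
    let val : (Fin N → F2) → F2 := fun σ => I (fun l => ind (facet σ) (l.map lam))
    have flip : ∀ σ (m : Fin N), val σ = val (Function.update σ m (σ m + 1)) := by
      intro σ m
      set R : Finset (Lab (Fin N)) := (facet σ).erase (m, σ m) with hR
      have h0 : I (cob (fun l => ind R (l.map lam))) = 0 := (cyc_cob hM0 _).1 _
      have h1 : cob (fun l => ind R (l.map lam)) =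
          fun l => ∑ j ∈ Rᶜ, ind (insert j R) (l.map lam) := by
        funext l
        rw [cob_map lam (ind R), cob_ind]
      rw [h1, hIsum Rᶜ (fun j l => ind (insert j R) (l.map lam))] at h0
      have hne : ((m, σ m) : Lab (Fin N)) ≠ (m, σ m + 1) := by simp
      rw [Finset.sum_eq_add_of_mem (m, σ m) (m, σ m + 1) (by simp [hR])
        (by simp [hR, mem_facet]) hne] at h0
      · have e1 : insert (m, σ m) R = facet σ := Finset.insert_erase (mem_facet.2 rfl)
        have e2 : insert (m, σ m + 1) R = facet (Function.update σ m (σ m + 1)) := by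
          ext ⟨i, s⟩
          simp only [hR, mem_insert, mem_erase, mem_facet, Prod.mk.injEq, ne_eq]
          by_cases hi : i = m
          · subst hi
            simp only [true_and, Function.update_self]
            tauto
          · simp [hi]
        rw [e1, e2] at h0
        exact F2.eq_of_add_eq_zero h0
      · rintro ⟨i, s⟩ hj ⟨hj1, hj2⟩
        apply hI0
        intro l hl
        by_contra hc
        have hc' := (ind_ne_zero hc).2
        have him : i ≠ m := by
          rintro rfl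
          have a1 : s ≠ σ i := fun h => hj1 (by rw [h])
          have a2 : s ≠ σ i + 1 := fun h => hj2 (by rw [h])
          exact a2 (F2.eq_add_one_of_ne a1.symm)
        have hs : s ≠ σ i := by
          intro h
          simp [hR, mem_facet, h, him] at hj
        have m1 : ((i, s) : Lab (Fin N)) ∈ (l.map lam).toFinset := hc' ▸ mem_insert_self _ _
        have m2 : ((i, σ i) : Lab (Fin N)) ∈ (l.map lam).toFinset := by
          rw [hc']
          apply mem_insert_of_mem
          simp [hR, mem_facet, him]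
        simp only [List.mem_toFinset, List.mem_map] at m1 m2
        obtain ⟨x, hx, hx'⟩ := m1
        obtain ⟨y, hy, hy'⟩ := m2
        have := hnc _ hk l hl x hx y hy (by rw [hx', hy'])
        rw [hx', hy'] at this
        exact hs (Prod.ext_iff.1 this).2
    have allEq : ∀ σ τ, val σ = val τ := by
      intro σ τ
      have : ∀ s : Finset (Fin N), val (fun i => if i ∈ s then τ i else σ i) = val σ := by
        intro s
        induction s using Finset.induction_on with
        | empty => simp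
        | insert a s ha ih =>
          by_cases h : τ a = σ a
          · rw [← ih]
            congr 1
            funext i
            by_cases hi : i = a
            · subst hi; simp [ha, h]
            · simp [hi]
          · rw [← ih, flip (fun i => if i ∈ s then τ i else σ i) a]
            congr 1
            funext i
            by_cases hi : i = a
            · subst hi
              simp only [mem_insert_self, if_true, Function.update_self, ha, if_false]
              generalize τ i = u at h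
              generalize σ i = w at h
              revert u w; decide
            · simp [hi]
      simpa using (this univ).symm
    obtain ⟨c, hc⟩ := kf_eq_sum (ι := Fin N)
    have h1 : I (fun l => kf (l.map lam)) = 1 := cyc_kf hM0 lam hodd hnc hk
    rw [hIcongr _ (fun l => ∑ σ, c σ * ind (facet σ) (l.map lam)) (by
      intro l hl
      apply hc
      rw [List.length_map, hl.1, Fintype.card_fin]
      omega), hIsum univ (fun σ l => c σ * ind (facet σ) (l.map lam))] at h1
    intro σ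
    apply F2.eq_one_of_ne_zero
    intro h0
    rw [Finset.sum_eq_zero] at h1
    · exact zero_ne_one h1
    · intro τ _
      have hτ : val τ = 0 := (allEq τ σ).trans h0
      by_cases hcτ : c τ = 0
      · apply hI0
        intro l _
        simp only [hcτ, zero_mul]
      · simp only [F2.eq_one_of_ne_zero hcτ, one_mul]
        exact hτ

/-- **Colourful facet theorem** (a form of the Borsuk–Ulam theorem): under the hypotheses of
`kyFan`, for every sign vector `σ` the sets `P (i, σ i)` have a common point on the sphere. -/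
theorem exists_facet_point (hN : 0 < N) (P : Lab (Fin N) → Set (Fin N → ℝ))
    (hP : ∀ a, IsClosed (P a))
    (cover : ∀ x ∈ sph N, ∃ a, x ∈ P a) (symm : ∀ a x, x ∈ P a → -x ∈ P (opp a))
    (disj : ∀ a, ∀ x ∈ sph N, x ∈ P a → x ∉ P (opp a)) (σ : Fin N → F2) :
    ∃ v ∈ sph N, ∀ i, v ∈ P (i, σ i) := by
  obtain ⟨lam, I, -, h2, h3⟩ := kyFan hN (κ := Empty) (fun k => k.elim) (fun k => k.elim) P hP
    cover symm disj
  obtain ⟨l, hl, -, -, v, hv, hv'⟩ := h2 _ (by rw [h3 σ]; exact one_ne_zero)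
  refine ⟨v, hv, fun i => ?_⟩
  have : ((i, σ i) : Lab (Fin N)) ∈ (l.map lam).toFinset := by
    rw [(ind_ne_zero hl).2]; exact mem_facet.2 rfl
  simp only [List.mem_toFinset, List.mem_map] at this
  obtain ⟨x, hx, hx'⟩ := this
  exact hx' ▸ (hv' x hx).1

end Crest.Agent.Lib.KyFan
private theorem rz_280f663d42 : type_of% @_root_.Crest.Agent.Lib.KyFan.hemi.eq_def := @_root_.Crest.Agent.Lib.KyFan.hemi.eq_def -- L79
private theorem rz_e6da9502f3 : type_of% @_root_.Crest.Agent.Lib.KyFan.hemi.eq_1 := @_root_.Crest.Agent.Lib.KyFan.hemi.eq_1 -- L79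
end

-- ▼ part PVc/Lib/KyFan/BorsukUlam
section

/-!
The Borsuk–Ulam theorem, for the `ℓ¹` sphere and for the unit sphere of any finite-dimensional
normed space.
-/

namespace Crest.Agent.Lib.KyFan

/-- Borsuk–Ulam on the `ℓ¹` sphere: an odd continuous map `S^n → ℝ^n` has a zero. -/
theorem borsukUlam_sph {n : ℕ} (f : (Fin (n + 1) → ℝ) → (Fin n → ℝ))
    (hf : ContinuousOn f (sph (n + 1))) (hodd : ∀ x ∈ sph (n + 1), f (-x) = -f x) :
    ∃ x ∈ sph (n + 1), f x = 0 := by
  classical
  by_contra hc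
  push Not at hc
  let sg : F2 → ℝ := fun s => if s = 0 then 1 else -1
  have hsg : ∀ s, sg (s + 1) = -sg s := by
    intro s
    have : s = 0 ∨ s = 1 := by revert s; decide
    rcases this with rfl | rfl
    · simp [sg]
    · have : (1 + 1 : F2) = 0 := by decide
      simp [sg, this]
  have hsg0 : ∀ s, sg s ≠ 0 := by
    intro s; simp only [sg]; split_ifs <;> simp
  let P : Lab (Fin (n + 1)) → Set (Fin (n + 1) → ℝ) := fun a =>
    {x | x ∈ sph (n + 1) ∧ ∃ h : (a.1 : ℕ) < n, f x ⟨a.1, h⟩ = sg a.2 * ‖f x‖}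
  obtain ⟨v, -, hv⟩ := exists_facet_point (Nat.succ_pos n) P (by
      intro a
      by_cases h : (a.1 : ℕ) < n
      · have : P a = sph (n + 1) ∩ (fun x => f x ⟨a.1, h⟩ - sg a.2 * ‖f x‖) ⁻¹' {0} := by
          ext x
          simp [P, h, sub_eq_zero]
        rw [this]
        refine ContinuousOn.preimage_isClosed_of_isClosed ?_ isClosed_sph isClosed_singleton
        exact ((continuous_apply _).comp_continuousOn hf).sub (continuousOn_const.mul hf.norm)
      · have : P a = ∅ := by
          ext x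
          simp [P, h]
        rw [this]
        exact isClosed_empty)
    (by
      intro x hx
      have hn : Nonempty (Fin n) := by
        by_contra h
        rw [not_nonempty_iff] at h
        exact hc x hx (Subsingleton.elim _ _)
      obtain ⟨i, hi⟩ := (IsGreatest.pi_norm (f x)).1
      simp only [Real.norm_eq_abs] at hi
      rcases le_total 0 (f x i) with h | h
      · exact ⟨(i.castSucc, 0), hx, i.2, by simp [sg, ← hi, abs_of_nonneg h]⟩
      · exact ⟨(i.castSucc, 1), hx, i.2, by simp [sg, ← hi, abs_of_nonpos h]⟩)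
    (by
      rintro a x ⟨hx, h, h'⟩
      refine ⟨sph_neg hx, h, ?_⟩
      simp only [opp, hodd x hx, Pi.neg_apply, norm_neg, hsg, h']
      ring)
    (by
      rintro a x hx ⟨-, h, h'⟩ ⟨-, h2, h2'⟩
      simp only [opp, hsg] at h2'
      have : sg a.2 * ‖f x‖ = 0 := by
        have e : f x ⟨a.1, h⟩ = -sg a.2 * ‖f x‖ := h2'
        linarith
      rcases mul_eq_zero.1 this with h | h
      · exact hsg0 _ h
      · exact hc x hx (norm_eq_zero.1 h))
    (fun _ => 0)
  obtain ⟨-, h, -⟩ := hv (Fin.last n)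
  simp at h

/-- **Borsuk–Ulam theorem**: an odd map, continuous on the unit sphere of a real normed space `E`,
into a real normed space `F` of smaller finite dimension has a zero on the sphere. -/
theorem borsukUlam {E F : Type*} [NormedAddCommGroup E] [NormedSpace ℝ E]
    [NormedAddCommGroup F] [NormedSpace ℝ F] [FiniteDimensional ℝ F]
    (hdim : Module.finrank ℝ F < Module.finrank ℝ E) (f : E → F)
    (hf : ContinuousOn f (Metric.sphere 0 1)) (hodd : ∀ x ∈ Metric.sphere (0 : E) 1, f (-x) = -f x) :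
    ∃ x ∈ Metric.sphere (0 : E) 1, f x = 0 := by
  set n := Module.finrank ℝ F with hn
  have : FiniteDimensional ℝ E := Module.finite_of_finrank_pos (by omega)
  obtain ⟨b, hb⟩ := exists_linearIndependent_of_le_finrank (R := ℝ) (M := E) (n := n + 1) hdim
  let Θ : (Fin (n + 1) → ℝ) →ₗ[ℝ] E := Fintype.linearCombination ℝ b
  have hΘ : Function.Injective Θ := hb.fintypeLinearCombination_injective
  have hΘc : Continuous Θ := Θ.continuous_of_finiteDimensional
  have hΘ0 : ∀ x ∈ sph (n + 1), Θ x ≠ 0 := fun x hx h =>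
    sph_ne_zero hx (hΘ (h.trans (map_zero Θ).symm))
  let e : F ≃L[ℝ] (Fin n → ℝ) := ContinuousLinearEquiv.ofFinrankEq (by simp [hn])
  have hmem : ∀ x ∈ sph (n + 1), ‖Θ x‖⁻¹ • Θ x ∈ Metric.sphere (0 : E) 1 := by
    intro x hx
    rw [mem_sphere_zero_iff_norm, norm_smul, norm_inv, norm_norm,
      inv_mul_cancel₀ (norm_ne_zero_iff.2 (hΘ0 x hx))]
  obtain ⟨x, hx, h⟩ := borsukUlam_sph (fun x => e (f (‖Θ x‖⁻¹ • Θ x))) (by
      refine e.continuous.comp_continuousOn (hf.comp ?_ hmem)
      exact (hΘc.norm.continuousOn.inv₀ fun x hx => norm_ne_zero_iff.2 (hΘ0 x hx)).smul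
        hΘc.continuousOn)
    (by
      intro x hx
      simp only [map_neg, norm_neg, smul_neg]
      rw [hodd _ (hmem x hx), map_neg])
  exact ⟨_, hmem x hx, by simpa using h⟩

end Crest.Agent.Lib.KyFan
end

-- ▼ part PVc/R33/Ham
section

/-! Polynomial ham sandwich. -/

set_option autoImplicit false

open Finset
open scoped Classical

namespace Crest.Agent.R33

namespace Ham

/-- clamp to `[-1, 1]` -/
noncomputable def clamp (t : ℝ) : ℝ := max (-1) (min 1 t)

lemma clamp_neg (t : ℝ) : clamp (-t) = -clamp t := by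
  unfold clamp
  simp only [max_def, min_def]
  split_ifs <;> linarith

lemma clamp_ge (t : ℝ) : -1 ≤ clamp t := le_max_left _ _

lemma clamp_one (t : ℝ) (h : 1 ≤ t) : clamp t = 1 := by
  unfold clamp
  rw [min_eq_left h, max_eq_right (by norm_num)]

lemma continuous_clamp : Continuous clamp := by
  unfold clamp; fun_prop

lemma count_le {α : Type} (A : Finset α) (x : ℕ → α → ℝ) (y : α → ℝ) (φ : ℕ → ℕ)
    (hφ : StrictMono φ) (hx : ∀ p, Filter.Tendsto (fun n => x n p) Filter.atTop (nhds (y p)))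
    (h0 : ∀ n, ∑ p ∈ A, clamp ((φ n : ℝ) * x n p) = 0) :
    2 * (A.filter fun p => 0 < y p).card ≤ A.card := by
  have hev : ∀ᶠ n in Filter.atTop, ∀ p ∈ A.filter (fun p => 0 < y p), 1 ≤ (φ n : ℝ) * x n p := by
    rw [Filter.eventually_all_finset]
    intro p hp
    have hp0 : 0 < y p := (mem_filter.1 hp).2
    have h1 : Filter.Tendsto (fun n => (φ n : ℝ)) Filter.atTop Filter.atTop :=
      tendsto_natCast_atTop_atTop.comp hφ.tendsto_atTop
    exact (h1.atTop_mul_pos hp0 (hx p)).eventually_ge_atTop 1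
  obtain ⟨n, hn⟩ := hev.exists
  have h1 := h0 n
  rw [← sum_filter_add_sum_filter_not A (fun p => 0 < y p)] at h1
  have h2 : ∑ p ∈ A.filter (fun p => 0 < y p), clamp ((φ n : ℝ) * x n p) =
      ((A.filter fun p => 0 < y p).card : ℝ) := by
    rw [sum_congr rfl (fun p hp => clamp_one _ (hn p hp))]
    simp
  have h3 : -((A.filter fun p => ¬ 0 < y p).card : ℝ) ≤
      ∑ p ∈ A.filter (fun p => ¬ 0 < y p), clamp ((φ n : ℝ) * x n p) := by
    have := sum_le_sum (s := A.filter fun p => ¬ 0 < y p)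
      (fun p _ => clamp_ge ((φ n : ℝ) * x n p))
    simpa using this
  have h4 := card_filter_add_card_filter_not (s := A) (fun p => 0 < y p)
  have h5 : ((A.filter fun p => 0 < y p).card : ℝ) ≤ ((A.filter fun p => ¬ 0 < y p).card : ℝ) := by
    linarith
  have h6 : (A.filter fun p => 0 < y p).card ≤ (A.filter fun p => ¬ 0 < y p).card := by
    exact_mod_cast h5
  omega

/-- linear ham sandwich -/
lemma linear {ι κ α : Type} [Fintype ι] [Fintype κ] (A : ι → Finset α) (V : α → κ → ℝ)
    (hd : Fintype.card ι < Fintype.card κ) :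
    ∃ a : κ → ℝ, a ≠ 0 ∧ ∀ i,
      2 * ((A i).filter fun p => 0 < ∑ k, a k * V p k).card ≤ (A i).card ∧
      2 * ((A i).filter fun p => ∑ k, a k * V p k < 0).card ≤ (A i).card := by
  have hL : ∀ p, Continuous (fun a : κ → ℝ => ∑ k, a k * V p k) := fun p => by fun_prop
  have h1 : ∀ n : ℕ, ∃ a ∈ Metric.sphere (0 : κ → ℝ) 1,
      (fun i => ∑ p ∈ A i, clamp ((n : ℝ) * ∑ k, a k * V p k)) = (0 : ι → ℝ) := by
    intro n
    refine Crest.Agent.Lib.KyFan.borsukUlam (E := κ → ℝ) (F := ι → ℝ) (by simpa using hd)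
      (fun a i => ∑ p ∈ A i, clamp ((n : ℝ) * ∑ k, a k * V p k)) ?_ ?_
    · refine Continuous.continuousOn (continuous_pi fun i => continuous_finsetSum _ fun p _ => ?_)
      exact continuous_clamp.comp (continuous_const.mul (hL p))
    · intro a _
      funext i
      simp only [Pi.neg_apply, neg_mul, sum_neg_distrib, mul_neg, clamp_neg]
  choose a ha ha0 using h1
  obtain ⟨b, hb, φ, hφ, hlim⟩ := (isCompact_sphere (0 : κ → ℝ) 1).tendsto_subseq ha
  refine ⟨b, ?_, fun i => ⟨?_, ?_⟩⟩
  · rintro rfl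
    simp at hb
  · exact count_le (A i) (fun n p => ∑ k, a (φ n) k * V p k) (fun p => ∑ k, b k * V p k) φ hφ
      (fun p => ((hL p).tendsto b).comp hlim) (fun n => congrFun (ha0 (φ n)) i)
  · have := count_le (A i) (fun n p => -∑ k, a (φ n) k * V p k) (fun p => -∑ k, b k * V p k) φ hφ
      (fun p => (((hL p).tendsto b).comp hlim).neg) (fun n => by
        have := congrFun (ha0 (φ n)) i
        simp only [mul_neg, clamp_neg, sum_neg_distrib, neg_eq_zero]
        exact this)
    simpa only [neg_pos] using this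

/-- the exponent vector `(i, k)` -/
noncomputable def ex {d : ℕ} (k : Fin (d + 1) × Fin (d + 1)) : Fin 2 →₀ ℕ :=
  Finsupp.single 0 (k.1 : ℕ) + Finsupp.single 1 (k.2 : ℕ)

lemma ex_inj {d : ℕ} : Function.Injective (ex (d := d)) := by
  intro k k' h
  have h0 := DFunLike.congr_fun h 0
  have h1 := DFunLike.congr_fun h 1
  simp [ex] at h0 h1
  exact Prod.ext (Fin.ext h0) (Fin.ext h1)

end Ham

/-- Discrete polynomial ham sandwich.  On the unit sphere of coefficient vectors (monomials
`x^i y^k`, `i, k ≤ d`), `borsukUlam` for `a ↦ (∑_{p ∈ A i} clamp (n ⟨a, V p⟩))_i`, then a limit point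
as `n → ∞`. -/
theorem ham_sandwich {ι : Type} [Fintype ι] (A : ι → Finset E2) (d : ℕ)
    (hd : Fintype.card ι < (d + 1) ^ 2) :
    ∃ f : MvPolynomial (Fin 2) ℝ, f ≠ 0 ∧ f.totalDegree ≤ 2 * d ∧ ∀ i,
      2 * ((A i).filter fun p => 0 < MvPolynomial.eval (fun k => p k) f).card ≤ (A i).card ∧
      2 * ((A i).filter fun p => MvPolynomial.eval (fun k => p k) f < 0).card ≤ (A i).card := by
  obtain ⟨a, ha, h⟩ := Ham.linear (κ := Fin (d + 1) × Fin (d + 1)) A
    (fun p k => p 0 ^ (k.1 : ℕ) * p 1 ^ (k.2 : ℕ)) (by simpa [sq] using hd)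
  refine ⟨∑ k, MvPolynomial.monomial (Ham.ex k) (a k), ?_, ?_, ?_⟩
  · intro h0
    apply ha
    funext k
    have := congrArg (MvPolynomial.coeff (Ham.ex k)) h0
    rw [MvPolynomial.coeff_sum] at this
    simpa [MvPolynomial.coeff_monomial, Ham.ex_inj.eq_iff] using this
  · refine (MvPolynomial.totalDegree_finsetSum _ _).trans (Finset.sup_le fun k _ => ?_)
    refine (MvPolynomial.totalDegree_monomial_le _ _).trans ?_
    unfold Ham.ex
    rw [Finsupp.sum_add_index' (by simp) (by simp)]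
    have h1 := k.1.2
    have h2 := k.2.2
    simp only [id, Finsupp.sum_single_index]
    omega
  · have e : ∀ p : E2, MvPolynomial.eval (fun k => p k)
        (∑ k : Fin (d + 1) × Fin (d + 1), MvPolynomial.monomial (Ham.ex k) (a k)) =
        ∑ k : Fin (d + 1) × Fin (d + 1), a k * (p 0 ^ (k.1 : ℕ) * p 1 ^ (k.2 : ℕ)) := by
      intro p
      rw [map_sum]
      refine sum_congr rfl (fun k _ => ?_)
      rw [MvPolynomial.eval_monomial]
      congr 1
      unfold Ham.ex
      rw [Finsupp.prod_add_index' (by simp) (by intro _ _ _; rw [pow_add])]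
      simp
    intro i
    simp only [e]
    exact h i

end Crest.Agent.R33
end

-- ▼ part PVc/R33/Part
section

/-! Polynomial partitioning. -/

set_option autoImplicit false

open Finset
open scoped Classical

namespace Crest.Agent.R33

/-- Induction on `j` (`Fin.snoc` or `Fin.cons`), `d = Nat.sqrt (2^j)`. -/
theorem poly_partition (P : Finset E2) (j : ℕ) : ∃ f : Fin j → MvPolynomial (Fin 2) ℝ,
    (∀ i, f i ≠ 0) ∧ ((∑ i, (f i).totalDegree : ℕ) : ℝ) ≤ 10 * √(2 ^ j) ∧
    ∀ sg : Fin j → Bool, (P.filter (InCell f sg)).card * 2 ^ j ≤ P.card := by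
  induction j with
  | zero =>
    refine ⟨Fin.elim0, fun i => i.elim0, by simp, fun sg => ?_⟩
    simpa using Finset.card_filter_le _ _
  | succ j ih =>
    obtain ⟨f, hf0, hfd, hfc⟩ := ih
    obtain ⟨g, hg0, hgd, hgc⟩ := ham_sandwich (fun sg : Fin j → Bool => P.filter (InCell f sg))
      (Nat.sqrt (2 ^ j)) (by simpa using Nat.lt_succ_sqrt' (2 ^ j))
    refine ⟨Fin.cons g f, fun i => ?_, ?_, fun sg => ?_⟩
    · refine Fin.cases ?_ (fun i => ?_) i
      · simpa using hg0
      · simpa using hf0 i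
    · rw [Fin.sum_univ_succ]
      simp only [Fin.cons_zero, Fin.cons_succ]
      have h1 : (g.totalDegree : ℝ) ≤ 2 * (Nat.sqrt (2 ^ j) : ℝ) := by exact_mod_cast hgd
      have h2 : (Nat.sqrt (2 ^ j) : ℝ) ≤ √(2 ^ j) := by
        simpa using Real.nat_sqrt_le_real_sqrt (a := 2 ^ j)
      have h3 : √((2 : ℝ) ^ (j + 1)) = √(2 ^ j) * √2 := by
        rw [pow_succ, Real.sqrt_mul (by positivity)]
      have h4 : (6 / 5 : ℝ) ≤ √2 := Real.le_sqrt_of_sq_le (by norm_num)
      have h5 : 0 ≤ √((2 : ℝ) ^ j) := Real.sqrt_nonneg _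
      rw [Nat.cast_add, h3]
      nlinarith
    · have h1 := hfc (Fin.tail sg)
      have h2 : 2 * (P.filter (InCell (Fin.cons g f : Fin (j + 1) → _) sg)).card ≤
          (P.filter (InCell f (Fin.tail sg))).card := by
        have hsub : ∀ p, InCell (Fin.cons g f : Fin (j + 1) → _) sg p →
            InCell f (Fin.tail sg) p := fun p hp i => by simpa [Fin.tail] using hp i.succ
        cases h : sg 0 with
        | true =>
          refine le_trans (Nat.mul_le_mul_left _ (Finset.card_le_card fun p hp => ?_))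
            (hgc (Fin.tail sg)).1
          rw [Finset.mem_filter] at hp
          refine Finset.mem_filter.2 ⟨Finset.mem_filter.2 ⟨hp.1, hsub p hp.2⟩, ?_⟩
          simpa [h] using hp.2 0
        | false =>
          refine le_trans (Nat.mul_le_mul_left _ (Finset.card_le_card fun p hp => ?_))
            (hgc (Fin.tail sg)).2
          rw [Finset.mem_filter] at hp
          refine Finset.mem_filter.2 ⟨Finset.mem_filter.2 ⟨hp.1, hsub p hp.2⟩, ?_⟩
          simpa [h] using hp.2 0
      refine le_trans ?_ ((Nat.mul_le_mul_right _ h2).trans h1)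
      rw [pow_succ]
      exact le_of_eq (by ring)

end Crest.Agent.R33
end

-- ▼ part PVc/R33/Cross
section

/-! Unit circles cross few sign cells. -/

set_option autoImplicit false

open Finset
open scoped Classical

namespace Crest.Agent.R33

theorem cross_same_sign {g : Polynomial ℝ} {t u : ℝ} (htu : t ≤ u)
    (h : ∀ r ∈ Set.Icc t u, g.eval r ≠ 0) : (0 < g.eval t ↔ 0 < g.eval u) := by
  have hc : ContinuousOn (fun x => g.eval x) (Set.Icc t u) := g.continuous.continuousOn
  have h1 := h t ⟨le_rfl, htu⟩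
  have h2 := h u ⟨htu, le_rfl⟩
  constructor
  · intro ht
    by_contra hu
    obtain ⟨r, hr, h0⟩ := intermediate_value_Icc' htu hc ⟨not_lt.1 hu, ht.le⟩
    exact h r hr h0
  · intro hu
    by_contra ht
    obtain ⟨r, hr, h0⟩ := intermediate_value_Icc htu hc ⟨not_lt.1 ht, hu.le⟩
    exact h r hr h0

theorem cross_card_sign {j : ℕ} (g : Fin j → Polynomial ℝ) :
    (univ.filter fun sg : Fin j → Bool =>
      ∃ t : ℝ, ∀ i, if sg i then 0 < (g i).eval t else (g i).eval t < 0).card ≤
      (∑ i, (g i).natDegree) + 1 := by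
  set S := univ.filter fun sg : Fin j → Bool =>
      ∃ t : ℝ, ∀ i, if sg i then 0 < (g i).eval t else (g i).eval t < 0 with hS
  have hex : ∀ sg : Fin j → Bool, ∃ t : ℝ, sg ∈ S →
      ∀ i, if sg i then 0 < (g i).eval t else (g i).eval t < 0 := by
    intro sg
    by_cases h : sg ∈ S
    · obtain ⟨t, ht⟩ := (mem_filter.1 h).2
      exact ⟨t, fun _ => ht⟩
    · exact ⟨0, fun h' => absurd h' h⟩
  choose τ hτ using hex
  have hne : ∀ sg ∈ S, ∀ i, (g i).eval (τ sg) ≠ 0 := by
    intro sg h i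
    have := hτ sg h i
    split_ifs at this
    · exact this.ne'
    · exact this.ne
  have hiff : ∀ sg ∈ S, ∀ i, (sg i = true ↔ 0 < (g i).eval (τ sg)) := by
    intro sg h i
    have := hτ sg h i
    split_ifs at this with h1
    · exact ⟨fun _ => this, fun _ => h1⟩
    · exact ⟨fun h2 => absurd h2 h1, fun h2 => absurd this (not_lt.2 h2.le)⟩
  rcases S.eq_empty_or_nonempty with h0 | ⟨sg₀, h0⟩
  · rw [h0]
    simp
  have hG : ∏ i, g i ≠ 0 := prod_ne_zero_iff.2 fun i _ h => hne sg₀ h0 i (by simp [h])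
  set Rt := (∏ i, g i).roots.toFinset with hRt
  have hmem : ∀ r, r ∈ Rt ↔ ∃ i, (g i).eval r = 0 := by
    intro r
    rw [hRt, Multiset.mem_toFinset, Polynomial.mem_roots hG, Polynomial.IsRoot.def,
      Polynomial.eval_prod, prod_eq_zero_iff]
    simp
  have hcard : Rt.card ≤ ∑ i, (g i).natDegree :=
    (Multiset.toFinset_card_le _).trans ((Polynomial.card_roots' _).trans
      (Polynomial.natDegree_prod_le _ _))
  have key : ∀ sg ∈ S, ∀ sg' ∈ S, τ sg ≤ τ sg' →
      (Rt.filter (· < τ sg)).card = (Rt.filter (· < τ sg')).card → sg = sg' := by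
    intro sg h sg' h' hle hc
    have he : Rt.filter (· < τ sg) = Rt.filter (· < τ sg') :=
      eq_of_subset_of_card_le
        (fun r hr => mem_filter.2 ⟨(mem_filter.1 hr).1, (mem_filter.1 hr).2.trans_le hle⟩) hc.ge
    funext i
    have h1 : 0 < (g i).eval (τ sg) ↔ 0 < (g i).eval (τ sg') := by
      refine cross_same_sign hle fun r hr h2 => ?_
      rcases hr.2.eq_or_lt with h3 | h3
      · exact hne sg' h' i (h3 ▸ h2)
      · have h4 : r ∈ Rt.filter (· < τ sg') := mem_filter.2 ⟨(hmem r).2 ⟨i, h2⟩, h3⟩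
        rw [← he] at h4
        exact absurd (mem_filter.1 h4).2 (not_lt.2 hr.1)
    exact Bool.eq_iff_iff.2 (((hiff sg h i).trans h1).trans (hiff sg' h' i).symm)
  calc S.card ≤ (range (Rt.card + 1)).card := by
        refine card_le_card_of_injOn (fun sg => (Rt.filter (· < τ sg)).card) (fun sg _ => ?_)
          fun sg h sg' h' hc => ?_
        · exact mem_coe.2 (mem_range.2 (Nat.lt_succ_of_le (card_filter_le _ _)))
        · rcases le_total (τ sg) (τ sg') with hle | hle
          · exact key sg h sg' h' hle hc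
          · exact (key sg' h' sg h hle hc.symm).symm
    _ ≤ _ := by rw [card_range]; omega

theorem cross_hom (f : MvPolynomial (Fin 2) ℝ) (A : Fin 2 → Polynomial ℝ) (C : Polynomial ℝ)
    (hA : ∀ k, (A k).natDegree ≤ 2) (hC : C.natDegree ≤ 2) :
    ∃ g : Polynomial ℝ, g.natDegree ≤ 2 * f.totalDegree ∧ ∀ (t : ℝ) (x : Fin 2 → ℝ),
      (∀ k, (A k).eval t = C.eval t * x k) →
        g.eval t = C.eval t ^ f.totalDegree * MvPolynomial.eval x f := by
  have hd : ∀ m ∈ f.support, m 0 + m 1 ≤ f.totalDegree := by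
    intro m hm
    have := MvPolynomial.le_totalDegree hm
    rwa [Finsupp.sum_fintype _ _ (fun _ => rfl), Fin.sum_univ_two] at this
  refine ⟨∑ m ∈ f.support, Polynomial.C (f.coeff m) *
    (A 0 ^ m 0 * A 1 ^ m 1 * C ^ (f.totalDegree - (m 0 + m 1))), ?_, fun t x hx => ?_⟩
  · refine Polynomial.natDegree_sum_le_of_forall_le _ _ fun m hm => ?_
    refine (Polynomial.natDegree_C_mul_le _ _).trans ?_
    have h1 := Polynomial.natDegree_pow_le_of_le (m 0) (hA 0)
    have h2 := Polynomial.natDegree_pow_le_of_le (m 1) (hA 1)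
    have h3 := Polynomial.natDegree_pow_le_of_le (f.totalDegree - (m 0 + m 1)) hC
    have h4 := hd m hm
    refine Polynomial.natDegree_mul_le.trans ?_
    have h5 := Polynomial.natDegree_mul_le (p := A 0 ^ m 0) (q := A 1 ^ m 1)
    omega
  · rw [Polynomial.eval_finsetSum, MvPolynomial.eval_eq', mul_sum]
    refine sum_congr rfl fun m hm => ?_
    obtain ⟨e, he⟩ := Nat.exists_eq_add_of_le (hd m hm)
    rw [Fin.prod_univ_two, he, Nat.add_sub_cancel_left]
    simp only [Polynomial.eval_mul, Polynomial.eval_C, Polynomial.eval_pow, hx]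
    ring

/-- Parametrise the circle minus one point by `z + ((1-t²)/(1+t²), 2t/(1+t²))`;
`g_i t = (1+t²)^{deg f_i} f_i(γ t)` is a polynomial of degree `≤ 2 deg f_i`; if the product is
nonzero, the sign vector at a non-root `t` depends only on the number of roots below `t`
(intermediate value theorem). -/
theorem cross_cells {j : ℕ} (f : Fin j → MvPolynomial (Fin 2) ℝ) (z : E2) :
    (univ.filter fun sg : Fin j → Bool => ∃ p : E2, dist p z = 1 ∧ InCell f sg p).card ≤
      2 * (∑ i, (f i).totalDegree) + 2 := by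
  have h2 : ∀ a b c : ℝ, (Polynomial.C a * Polynomial.X ^ 2 + Polynomial.C b * Polynomial.X +
      Polynomial.C c).natDegree ≤ 2 := fun a b c => Polynomial.natDegree_quadratic_le
  choose g hg1 hg2 using fun i => cross_hom (f i)
    ![Polynomial.C (z 0 - 1) * Polynomial.X ^ 2 + Polynomial.C 0 * Polynomial.X +
        Polynomial.C (z 0 + 1),
      Polynomial.C (z 1) * Polynomial.X ^ 2 + Polynomial.C 2 * Polynomial.X + Polynomial.C (z 1)]
    (Polynomial.C 1 * Polynomial.X ^ 2 + Polynomial.C 0 * Polynomial.X + Polynomial.C 1)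
    (fun k => by fin_cases k <;> exact h2 _ _ _) (h2 _ _ _)
  have h1 := cross_card_sign g
  have h3 : ∑ i, (g i).natDegree ≤ 2 * ∑ i, (f i).totalDegree := by
    rw [mul_sum]
    exact sum_le_sum fun i _ => hg1 i
  refine le_trans (card_le_card (t := insert
    (fun i => decide (0 < MvPolynomial.eval ![z 0 - 1, z 1] (f i)))
    (univ.filter fun sg : Fin j → Bool =>
      ∃ t : ℝ, ∀ i, if sg i then 0 < (g i).eval t else (g i).eval t < 0)) fun sg hsg => ?_)
    ((card_insert_le _ _).trans (by omega))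
  obtain ⟨p, hp, hin⟩ := (mem_filter.1 hsg).2
  have hc : (p 0 - z 0) ^ 2 + (p 1 - z 1) ^ 2 = 1 := by
    have := EuclideanSpace.dist_sq_eq p z
    rw [hp, Fin.sum_univ_two, Real.dist_eq, Real.dist_eq, sq_abs, sq_abs] at this
    linarith
  rw [mem_insert]
  by_cases hx : 1 + (p 0 - z 0) = 0
  · left
    have hy : p 1 - z 1 = 0 := by
      have : (p 1 - z 1) ^ 2 = 0 := by nlinarith
      exact pow_eq_zero_iff two_ne_zero |>.1 this
    have e : (fun k => p k) = ![z 0 - 1, z 1] := by
      funext k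
      fin_cases k
      · simp; linarith
      · simp; linarith
    funext i
    have := hin i
    rw [e] at this
    split_ifs at this with h
    · rw [h, decide_eq_true this]
    · rw [Bool.eq_false_iff.2 h, decide_eq_false (not_lt.2 this.le)]
  · right
    refine mem_filter.2 ⟨mem_univ _, (p 1 - z 1) / (1 + (p 0 - z 0)), fun i => ?_⟩
    set t := (p 1 - z 1) / (1 + (p 0 - z 0)) with ht
    have ht' : p 1 - z 1 = t * (1 + (p 0 - z 0)) := by rw [ht, div_mul_cancel₀ _ hx]
    have h4 : (1 + t ^ 2) * (1 + (p 0 - z 0)) = 2 := by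
      apply mul_right_cancel₀ hx
      rw [ht'] at hc
      linear_combination hc
    have h5 := hg2 i t (fun k => p k) (fun k => by
      fin_cases k
      · simp
        linear_combination (-1) * h4
      · simp
        linear_combination (-(1 + t ^ 2)) * ht' - t * h4)
    have h6 : 0 < (Polynomial.C 1 * Polynomial.X ^ 2 + Polynomial.C 0 * Polynomial.X +
        Polynomial.C 1 : Polynomial ℝ).eval t ^ (f i).totalDegree := by
      simp only [Polynomial.eval_add, Polynomial.eval_mul, Polynomial.eval_C, Polynomial.eval_pow,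
        Polynomial.eval_X, zero_mul, add_zero]
      positivity
    have := hin i
    rw [h5]
    split_ifs at this ⊢
    · exact mul_pos h6 this
    · exact mul_neg_of_pos_of_neg h6 this

end Crest.Agent.R33
end

-- ▼ part PVc/R33/ZeroInc
section

/-! Incidences on the zero set. -/

set_option autoImplicit false

open Finset
open scoped Classical

namespace Crest.Agent.R33

namespace ZeroInc

open MvPolynomial

/-- Isotropic coordinates. -/
noncomputable def iso (p : E2) : ℂ × ℂ := (p 0 + Complex.I * p 1, p 0 - Complex.I * p 1)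

theorem iso_snd_inj {p q : E2} (h : (iso p).2 = (iso q).2) : p = q := by
  have h1 := congrArg Complex.re h
  have h2 := congrArg Complex.im h
  simp only [iso, Complex.sub_re, Complex.sub_im, Complex.ofReal_re, Complex.ofReal_im,
    Complex.mul_re, Complex.mul_im, Complex.I_re, Complex.I_im] at h1 h2
  ext k
  fin_cases k
  · change p 0 = q 0
    linarith
  · change p 1 = q 1
    linarith

theorem Dd_iso {p q : E2} (h : dist p q = 1) : Dd (iso p) (iso q) = 1 := by
  have h2 : (p 0 - q 0) ^ 2 + (p 1 - q 1) ^ 2 = 1 := by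
    have := EuclideanSpace.dist_sq_eq p q
    rw [h, Fin.sum_univ_two, Real.dist_eq, Real.dist_eq, sq_abs, sq_abs] at this
    linarith
  have h3 : ((p 0 : ℂ) - q 0) ^ 2 + ((p 1 : ℂ) - q 1) ^ 2 = 1 := by
    simpa using congrArg Complex.ofReal h2
  simp only [Dd, iso]
  linear_combination h3 - ((p 1 : ℂ) - q 1) ^ 2 * Complex.I_sq

/-- The linear substitution. -/
noncomputable def sub : Fin 2 → MvPolynomial (Fin 2) ℂ :=
  ![C (1 / 2) * (X 0 + X 1), C (-Complex.I / 2) * (X 0 - X 1)]

theorem deg_sub (k : Fin 2) : (sub k).totalDegree ≤ 1 := by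
  have h : ∀ (a : ℂ) (g : MvPolynomial (Fin 2) ℂ), g.totalDegree ≤ 1 →
      (C a * g).totalDegree ≤ 1 := fun a g hg =>
    (totalDegree_mul _ _).trans (by rw [totalDegree_C]; omega)
  fin_cases k
  · exact h _ _ ((totalDegree_add _ _).trans (by simp))
  · exact h _ _ ((totalDegree_sub _ _).trans (by simp))

theorem deg_aeval (f : MvPolynomial (Fin 2) ℝ) : (aeval sub f).totalDegree ≤ f.totalDegree := by
  rw [aeval_def, eval₂_eq]
  refine totalDegree_finsetSum_le fun d hd => (totalDegree_mul _ _).trans ?_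
  have h0 : (algebraMap ℝ (MvPolynomial (Fin 2) ℂ) (coeff d f)).totalDegree = 0 :=
    totalDegree_C (R := ℂ) _
  rw [h0, zero_add]
  refine (totalDegree_finsetProd _ _).trans (le_trans (sum_le_sum fun i _ => ?_) (le_totalDegree hd))
  exact (totalDegree_pow _ _).trans ((Nat.mul_le_mul_left _ (deg_sub i)).trans (mul_one _).le)

theorem eval_aeval (f : MvPolynomial (Fin 2) ℝ) (p : E2) :
    eval ![(iso p).1, (iso p).2] (aeval sub f) = (eval (fun k => p k) f : ℝ) := by
  induction f using MvPolynomial.induction_on with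
  | C a => simp [MvPolynomial.algebraMap_apply]
  | add f g hf hg => simp [hf, hg]
  | mul_X f k hf =>
    rw [map_mul, map_mul, map_mul, hf, aeval_X, eval_X, Complex.ofReal_mul]
    congr 1
    fin_cases k
    · simp [sub, iso]
      ring
    · simp only [sub, iso, Fin.mk_one, Matrix.cons_val_one, Matrix.cons_val_zero, map_mul, eval_C,
        map_sub, eval_X]
      linear_combination (-(p 1 : ℂ)) * Complex.I_sq

end ZeroInc

open ZeroInc in
/-- Substitute `a = (x+y)/2`, `b = (x-y)/(2i)` and use `curve_circle` over `ℂ`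
(`ev_of_mvPolynomial`): at most `D` centres have more than `2D` zeros on their circle. -/
theorem zero_incid (f : MvPolynomial (Fin 2) ℝ) (hf : f ≠ 0) (P : Finset E2) :
    ∑ z ∈ P, (P.filter fun p => dist p z = 1 ∧ MvPolynomial.eval (fun k => p k) f = 0).card ≤
      3 * f.totalDegree * P.card := by
  have hg : MvPolynomial.aeval sub f ≠ 0 := by
    intro h
    refine hf (MvPolynomial.funext fun x => ?_)
    have := eval_aeval f (WithLp.toLp 2 x)
    rw [h, map_zero] at this
    rw [map_zero]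
    exact_mod_cast this.symm
  set D := f.totalDegree
  obtain ⟨c, hc, hev⟩ := ev_of_mvPolynomial D _ hg (deg_aeval f)
  set n : E2 → ℕ := fun z =>
    (P.filter fun p => dist p z = 1 ∧ MvPolynomial.eval (fun k => p k) f = 0).card with hn
  have hinj : Function.Injective iso := fun p q h => iso_snd_inj (congrArg Prod.snd h)
  have hR : (P.filter fun z => 2 * D < n z).card ≤ D := by
    rw [← card_image_of_injective _ hinj]
    refine curve_circle D c hc _ (fun z hz z' hz' hne h => ?_) fun z hz => ?_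
    · obtain ⟨p, -, rfl⟩ := mem_image.1 hz
      obtain ⟨q, -, rfl⟩ := mem_image.1 hz'
      exact hne (congrArg iso (iso_snd_inj h))
    · obtain ⟨q, hq, rfl⟩ := mem_image.1 hz
      refine ⟨(P.filter fun p => dist p q = 1 ∧ MvPolynomial.eval (fun k => p k) f = 0).image iso,
        by rw [card_image_of_injective _ hinj]; exact (mem_filter.1 hq).2, fun a ha => ?_⟩
      obtain ⟨p, hp, rfl⟩ := mem_image.1 ha
      obtain ⟨-, h1, h2⟩ := mem_filter.1 hp
      refine ⟨Dd_iso h1, ?_⟩
      rw [hev, eval_aeval, h2, Complex.ofReal_zero]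
  have h1 : ∑ z ∈ P.filter (fun z => 2 * D < n z), n z ≤ D * P.card :=
    (sum_le_card_nsmul _ _ P.card fun z _ => card_filter_le _ _).trans
      (Nat.mul_le_mul_right _ hR)
  have h2 : ∑ z ∈ P.filter (fun z => ¬2 * D < n z), n z ≤ P.card * (2 * D) :=
    (sum_le_card_nsmul _ _ (2 * D) fun z hz => not_lt.1 (mem_filter.1 hz).2).trans
      (Nat.mul_le_mul_right _ (card_filter_le _ _))
  change ∑ z ∈ P, n z ≤ _
  rw [← sum_filter_add_sum_filter_not P (fun z => 2 * D < n z)]
  nlinarith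

end Crest.Agent.R33
end

-- ▼ part PVc/R33/Incid

/-! From rich circles to unit distances. -/

set_option autoImplicit false

open Finset
open scoped Classical

namespace Crest.Agent.R33

namespace Incid

theorem pairs_le (P : Finset E2) : (P.offDiag.filter fun pq => dist pq.1 pq.2 = 1).card ≤
    ∑ z ∈ P, (P.filter fun p => dist p z = 1).card := by
  rw [card_eq_sum_card_fiberwise (f := Prod.snd) (t := P)
    (fun pq h => (mem_offDiag.1 (mem_filter.1 (mem_coe.1 h)).1).2.1)]
  refine sum_le_sum fun z _ => card_le_card_of_injOn Prod.fst (fun pq h => ?_) ?_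
  · obtain ⟨h1, h2⟩ := mem_filter.1 (mem_coe.1 h)
    obtain ⟨h3, h4⟩ := mem_filter.1 h1
    exact mem_coe.2 (mem_filter.2 ⟨(mem_offDiag.1 h3).1, by rw [← h2]; exact h4⟩)
  · intro a ha b hb h
    exact Prod.ext h ((mem_filter.1 (mem_coe.1 ha)).2.trans (mem_filter.1 (mem_coe.1 hb)).2.symm)

theorem circle_le {j : ℕ} (f : Fin j → MvPolynomial (Fin 2) ℝ) (P : Finset E2) (z : E2) :
    (P.filter fun p => dist p z = 1).card ≤
      (P.filter fun p => dist p z = 1 ∧ MvPolynomial.eval (fun k => p k) (∏ i, f i) = 0).card +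
        ∑ sg : Fin j → Bool, ((P.filter (InCell f sg)).filter fun p => dist p z = 1).card := by
  refine le_trans (card_le_card fun p hp => ?_) ((card_union_le _ _).trans
    (Nat.add_le_add_left (card_biUnion_le (s := univ)
      (t := fun sg => (P.filter (InCell f sg)).filter fun p => dist p z = 1)) _))
  obtain ⟨h1, h2⟩ := mem_filter.1 hp
  by_cases h : MvPolynomial.eval (fun k => p k) (∏ i, f i) = 0
  · exact mem_union_left _ (mem_filter.2 ⟨h1, h2, h⟩)
  · refine mem_union_right _ (mem_biUnion.2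
      ⟨fun i => decide (0 < MvPolynomial.eval (fun k => p k) (f i)), mem_univ _,
        mem_filter.2 ⟨mem_filter.2 ⟨h1, fun i => ?_⟩, h2⟩⟩)
    rw [map_prod, prod_eq_zero_iff] at h
    have h3 : MvPolynomial.eval (fun k => p k) (f i) ≠ 0 := fun h' => h ⟨i, mem_univ _, h'⟩
    by_cases h4 : 0 < MvPolynomial.eval (fun k => p k) (f i)
    · simp [h4]
    · simp only [h4, decide_false, Bool.false_eq_true, if_false]
      exact lt_of_le_of_ne (not_lt.1 h4) h3

theorem cells_le {j : ℕ} (f : Fin j → MvPolynomial (Fin 2) ℝ) (P : Finset E2) (z : E2) {s : ℕ}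
    (hs : 0 < s) :
    ∑ sg : Fin j → Bool, ((P.filter (InCell f sg)).filter fun p => dist p z = 1).card ≤
      s * (2 * (∑ i, (f i).totalDegree) + 2) +
        s * ∑ sg : Fin j → Bool, ((P.filter (InCell f sg)).filter fun p => dist p z = 1).card / s := by
  refine le_trans ?_ (Nat.add_le_add_right (Nat.mul_le_mul_left s (cross_cells f z)) _)
  rw [card_filter (s := univ), mul_sum, mul_sum, ← sum_add_distrib]
  refine sum_le_sum fun sg _ => ?_
  split_ifs with h
  · have := Nat.div_add_mod ((P.filter (InCell f sg)).filter fun p => dist p z = 1).card s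
    have := Nat.mod_lt ((P.filter (InCell f sg)).filter fun p => dist p z = 1).card hs
    omega
  · rw [filter_false_of_mem, card_empty]
    · exact Nat.zero_le _
    · exact fun p hp h' => h ⟨p, h', (mem_filter.1 hp).2⟩

end Incid

/-- With `D ≤ 10 √(2^j)` and `m₀ = n / 2^j`: points on the zero set of `∏ f i` give `≤ 3 D n`
(`zero_incid`); a circle and a cell have `≤ s · 1[they meet] + s ⌊·/s⌋` common points
(`cross_cells`, `thmU_real`). -/
theorem incid_bound : ∃ κ > (0 : ℝ), ∃ sstar mstar : ℝ, ∀ (P : Finset E2) (s j : ℕ), 2 ≤ s →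
    mstar ≤ (P.card : ℝ) / 2 ^ j → (s : ℝ) ≤ ((P.card : ℝ) / 2 ^ j) ^ κ →
    ((P.offDiag.filter fun pq => dist pq.1 pq.2 = 1).card : ℝ) ≤
      60 * s * √(2 ^ j) * P.card + sstar * (P.card : ℝ) ^ 2 / (2 ^ j * (s : ℝ) ^ 3) := by
  obtain ⟨κ, hκ, sstar, mstar, H⟩ := thmU_real
  refine ⟨κ, by exact_mod_cast hκ, sstar, mstar, fun P s j hs hm hsκ => ?_⟩
  obtain ⟨f, hf0, hD, hcell⟩ := poly_partition P j
  set D : ℕ := ∑ i, (f i).totalDegree with hDdef
  set q : (Fin j → Bool) → E2 → ℕ := fun sg z =>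
    ((P.filter (InCell f sg)).filter fun p => dist p z = 1).card / s with hq
  have h1 : (P.offDiag.filter fun pq => dist pq.1 pq.2 = 1).card ≤
      3 * D * P.card + (s * (2 * D + 2) * P.card + s * ∑ sg, ∑ z ∈ P, q sg z) := by
    refine (Incid.pairs_le P).trans ((sum_le_sum fun z _ => (Incid.circle_le f P z).trans
      (Nat.add_le_add_left (Incid.cells_le f P z (s := s) (by omega)) _)).trans ?_)
    rw [sum_add_distrib, sum_add_distrib, sum_const, smul_eq_mul, ← mul_sum, sum_comm,
      mul_comm P.card]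
    refine Nat.add_le_add ((zero_incid _ (prod_ne_zero_iff.2 fun i _ => hf0 i) P).trans ?_) le_rfl
    exact Nat.mul_le_mul_right _ (Nat.mul_le_mul_left _
      (MvPolynomial.totalDegree_finsetProd _ _))
  have hs0 : (0 : ℝ) < s := by exact_mod_cast (show 0 < s by omega)
  have hs2 : (2 : ℝ) ≤ s := by exact_mod_cast hs
  have h2j : (0 : ℝ) < 2 ^ j := by positivity
  have h2 : ∀ sg, ((∑ z ∈ P, q sg z : ℕ) : ℝ) ≤ sstar * ((P.card : ℝ) / 2 ^ j) ^ 2 / s ^ 4 := by
    intro sg
    rw [le_div_iff₀ (by positivity)]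
    refine H P (P.filter (InCell f sg)) s _ (filter_subset _ _) hs hm ?_ (by exact_mod_cast hsκ)
    rw [le_div_iff₀ h2j]
    exact_mod_cast hcell sg
  have h3 : (s : ℝ) * ∑ sg, ((∑ z ∈ P, q sg z : ℕ) : ℝ) ≤
      sstar * (P.card : ℝ) ^ 2 / (2 ^ j * (s : ℝ) ^ 3) := by
    refine (mul_le_mul_of_nonneg_left (sum_le_sum fun sg _ => h2 sg) hs0.le).trans (le_of_eq ?_)
    rw [sum_const, card_univ, Fintype.card_fun, Fintype.card_bool, Fintype.card_fin, nsmul_eq_mul]
    push_cast
    field_simp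
  have h4 : ((P.offDiag.filter fun pq => dist pq.1 pq.2 = 1).card : ℝ) ≤
      3 * D * P.card + (s * (2 * D + 2) * P.card + s * ∑ sg, ((∑ z ∈ P, q sg z : ℕ) : ℝ)) := by
    exact_mod_cast h1
  have h5 : (1 : ℝ) ≤ √(2 ^ j) := Real.one_le_sqrt.2 (one_le_pow₀ one_le_two)
  have h6 : (3 * D + s * (2 * D + 2) : ℝ) ≤ 60 * s * √(2 ^ j) := by nlinarith
  have h7 := mul_le_mul_of_nonneg_right h6 (Nat.cast_nonneg (α := ℝ) P.card)
  linarith

end Crest.Agent.R33
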