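import Crest.Agent.PVc.R33.Defs

/-! Elementary facts about places. -/

set_option autoImplicit false

open Finset
open scoped Classical

namespace Crest.Agent.R33

variable {K : Type} [Field K] {R : Subring K} {α : Type}

theorem Pl.ar_cases (P : Pl K) : P.ar = 0 ∨ P.ar = 1 := by
  rcases P.kind with h | h
  · exact Or.inl h.1
  · exact Or.inr h.1

theorem Pl.ar_nonneg (P : Pl K) : 0 ≤ P.ar := by
  rcases P.ar_cases with h | h <;> rw [h] <;> norm_num


theorem Pl.add_le (P : Pl K) (u v : K) :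
    P.abv (u + v) ≤ (1 + P.ar) * max (P.abv u) (P.abv v) := by
  rcases P.kind with h | h
  · rw [h.1, add_zero, one_mul]
    exact h.2 u v
  · rw [h.1]
    have h1 := P.abv.add_le u v
    have h2 := le_max_left (P.abv u) (P.abv v)
    have h3 := le_max_right (P.abv u) (P.abv v)
    linarith

theorem Pl.sub_le (P : Pl K) (u v : K) :
    P.abv (u - v) ≤ (1 + P.ar) * max (P.abv u) (P.abv v) := by
  have h := P.add_le u (-v)
  rwa [P.abv.map_neg, ← sub_eq_add_neg] at h

/-- If `v` is smaller than `u` by a factor `e ^ ar` (strictly), then `u + v` is comparable to `u`. -/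
theorem Pl.le_add (P : Pl K) (u v : K) (h : Real.exp P.ar * P.abv v < P.abv u) :
    Real.exp (-P.ar) * P.abv u ≤ P.abv (u + v) := by
  rcases P.ar_cases with h0 | h0
  · have h1 := P.sub_le (u + v) v
    rw [h0] at h h1 ⊢
    simp only [add_sub_cancel_right, add_zero, one_mul, Real.exp_zero, neg_zero] at h h1 ⊢
    rcases le_max_iff.1 h1 with h2 | h2
    · exact h2
    · linarith
  · rw [h0] at h ⊢
    have h1 : P.abv u ≤ P.abv (u + v) + P.abv v := by
      have := P.abv.add_le (u + v) (-v)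
      rwa [P.abv.map_neg, add_neg_cancel_right] at this
    have h2 : (2 : ℝ) ≤ Real.exp 1 := by linarith [Real.add_one_le_exp (1 : ℝ)]
    have h3 : Real.exp (-1) ≤ 1 / 2 := by
      rw [Real.exp_neg, one_div]
      exact inv_anti₀ (by norm_num) h2
    have h4 := P.abv.nonneg u
    have h5 := P.abv.nonneg v
    have h6 : 2 * P.abv v ≤ Real.exp 1 * P.abv v := mul_le_mul_of_nonneg_right h2 h5
    have h7 : Real.exp (-1) * P.abv u ≤ 1 / 2 * P.abv u := mul_le_mul_of_nonneg_right h3 h4
    linarith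

theorem Pl.int_le (P : Pl K) (n : ℤ) : P.abv (n : K) ≤ if P.ar = 0 then 1 else |(n : ℝ)| := by
  rcases P.kind with h | h
  · rw [if_pos h.1]
    exact h.2.apply_intCast_le_one
  · obtain ⟨h1, σ, hσ⟩ := h
    rw [if_neg (by rw [h1]; norm_num), hσ]
    simp

theorem Places.pf_eq (P : Places K R) {z : K} (hz : z ∈ R) (hi : z⁻¹ ∈ R) (h0 : z ≠ 0) :
    ∑ v, P.N v * Real.log ((P.pl v).abv z) = 0 := by
  have h1 := P.pf z hz h0
  have h2 := P.pf z⁻¹ hi (inv_ne_zero h0)
  simp only [map_inv₀, Real.log_inv, mul_neg, Finset.sum_neg_distrib] at h2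
  linarith

theorem GenX.mono {X : α → K} {U U' : Finset α} (h : GenX R X U) (hU : U' ⊆ U) : GenX R X U' := by
  exact ⟨fun p hp q hq => h.inj p (hU hp) q (hU hq), fun p hp q hq => h.mem p (hU hp) q (hU hq),
    fun p hp q hq => h.inv p (hU hp) q (hU hq)⟩

theorem lam_symm (P : Pl K) (X : α → K) (p q : α) : lam P X p q = lam P X q p := by
  unfold lam
  rw [P.abv.map_sub]

theorem lam_ultra (P : Pl K) (X : α → K) {p q r : α} (hpq : X p ≠ X q) (hqr : X q ≠ X r)
    (hpr : X p ≠ X r) :
    min (lam P X p q) (lam P X q r) - P.ar * Real.log 2 ≤ lam P X p r := by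
  have h1 := P.add_le (X p - X q) (X q - X r)
  rw [sub_add_sub_cancel] at h1
  have ha := P.abv.pos (sub_ne_zero.2 hpq)
  have hb := P.abv.pos (sub_ne_zero.2 hqr)
  have hc := P.abv.pos (sub_ne_zero.2 hpr)
  have hm : 0 < max (P.abv (X p - X q)) (P.abv (X q - X r)) := lt_max_of_lt_left ha
  have hl : Real.log (1 + P.ar) = P.ar * Real.log 2 := by
    rcases P.ar_cases with h | h <;> rw [h] <;> norm_num
  have h2 := Real.log_le_log hc h1
  rw [Real.log_mul (by linarith [P.ar_nonneg]) hm.ne', hl] at h2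
  unfold lam
  rcases le_total (P.abv (X p - X q)) (P.abv (X q - X r)) with h | h
  · rw [max_eq_right h] at h2
    have := min_le_right (-Real.log (P.abv (X p - X q))) (-Real.log (P.abv (X q - X r)))
    linarith
  · rw [max_eq_left h] at h2
    have := min_le_left (-Real.log (P.abv (X p - X q))) (-Real.log (P.abv (X q - X r)))
    linarith

theorem sum_lam (P : Places K R) {X : α → K} {U : Finset α} (h : GenX R X U) {p q : α}
    (hp : p ∈ U) (hq : q ∈ U) (hpq : p ≠ q) : ∑ v, P.N v * lam (P.pl v) X p q = 0 := by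
  have h1 := P.pf_eq (h.mem p hp q hq) (h.inv p hp q hq) (sub_ne_zero.2 (h.inj p hp q hq hpq))
  simp only [lam, mul_neg, Finset.sum_neg_distrib, h1, neg_zero]

theorem lam_add_lam (P : Pl K) (X Y : α → K) {p q : α} (hX : X p ≠ X q) (hY : Y p ≠ Y q) :
    lam P X p q + lam P Y p q = -Real.log (P.abv (DD X Y p q)) := by
  unfold lam DD
  rw [map_mul, Real.log_mul (P.abv.pos (sub_ne_zero.2 hX)).ne' (P.abv.pos (sub_ne_zero.2 hY)).ne']
  ring

/-- Four-point inequality. -/
theorem lam_four (P : Pl K) (X : α → K) {p q r r' : α} (hpq : X p ≠ X q) (hpr : X p ≠ X r)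
    (hpr' : X p ≠ X r') (hrr' : X r ≠ X r') (hrq : X r ≠ X q) :
    lam P X p r - lam P X p q ≤
      |lam P X p r - lam P X p r'| + |lam P X r r' - lam P X r q| + 2 * P.ar := by
  have h1 := lam_ultra P X hpr hrq hpq
  have h2 := lam_ultra P X hpr.symm hpr' hrr'
  rw [lam_symm P X r p] at h2
  have h3 : P.ar * Real.log 2 ≤ P.ar := by
    have : Real.log 2 ≤ 1 := by linarith [Real.log_le_sub_one_of_pos (show (0 : ℝ) < 2 by norm_num)]
    nlinarith [P.ar_nonneg]
  have h4 := P.ar_nonneg
  have h5 := le_abs_self (lam P X p r - lam P X p r')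
  have h6 := abs_nonneg (lam P X p r - lam P X p r')
  have h7 := le_abs_self (lam P X r r' - lam P X r q)
  have h8 := abs_nonneg (lam P X r r' - lam P X r q)
  rcases min_cases (lam P X p r) (lam P X r q) with ⟨e1, _⟩ | ⟨e1, _⟩ <;>
    rcases min_cases (lam P X p r) (lam P X p r') with ⟨e2, _⟩ | ⟨e2, _⟩ <;>
    rw [e1] at h1 <;> rw [e2] at h2 <;> linarith

theorem DD_swap (X Y : α → K) (p q : α) : DD Y X p q = DD X Y p q := by
  unfold DD
  ring

theorem cls_swap [DecidableEq α] (X Y : α → K) (U : Finset α) (p q : α) :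
    cls Y X U p q = cls X Y U p q := by
  unfold cls
  simp only [DD_swap X Y]

theorem bad_swap [DecidableEq α] (X Y : α → K) (U : Finset α) (s : ℝ) :
    bad Y X U s = bad X Y U s := by
  unfold bad
  simp only [cls_swap X Y]

theorem Dd_comm (p q : K × K) : Dd p q = Dd q p := by
  unfold Dd
  ring

theorem ht_nonneg (P : Places K R) (z : K) : 0 ≤ ht P z := by
  exact Finset.sum_nonneg fun v _ => mul_nonneg (P.N_nonneg v) Real.posLog_nonneg

theorem ht_le_abs (P : Places K R) (z : K) :
    ht P z ≤ ∑ v, P.N v * |Real.log ((P.pl v).abv z)| := by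
  refine Finset.sum_le_sum fun v _ => mul_le_mul_of_nonneg_left ?_ (P.N_nonneg v)
  exact max_le (abs_nonneg _) (le_abs_self _)

theorem two_mul_ht (P : Places K R) {z : K} (hz : z ∈ R) (hi : z⁻¹ ∈ R) (h0 : z ≠ 0) :
    2 * ht P z = ∑ v, P.N v * |Real.log ((P.pl v).abv z)| := by
  have h1 := P.pf_eq hz hi h0
  have h2 : ∀ x : ℝ, |Real.log x| = 2 * Real.posLog x - Real.log x := fun x => by
    unfold Real.posLog
    rcases le_total 0 (Real.log x) with h | h
    · rw [max_eq_right h, abs_of_nonneg h]; ring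
    · rw [max_eq_left h, abs_of_nonpos h]; ring
  simp only [h2, mul_sub, Finset.sum_sub_distrib, h1, sub_zero, ht, Finset.mul_sum]
  exact Finset.sum_congr rfl fun v _ => by ring

end Crest.Agent.R33
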