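import Crest.Agent.PVc.R33.Defs
import Crest.Agent.PVc.R33.Curve
import Crest.Agent.PVc.R33.Der
import Crest.Agent.PVc.R33.Place

-- ▼ part PVc/R33/Norm
section

/-! The norm form of a multiquadratic expression. -/

set_option autoImplicit false

open Finset
open scoped Classical

namespace Crest.Agent.R33

namespace NormAux

open MvPolynomial

theorem coeff_scale {σ : Type} (e : σ → ℤ) (P : MvPolynomial σ ℤ) (m : σ →₀ ℕ) :
    coeff m (aeval (fun i => (C (e i) * X i : MvPolynomial σ ℤ)) P) =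
      coeff m P * m.prod (fun i k => e i ^ k) := by
  induction P using MvPolynomial.induction_on' with
  | monomial u a =>
    have h : aeval (fun i => (C (e i) * X i : MvPolynomial σ ℤ)) (monomial u a) =
        monomial u (a * u.prod (fun i k => e i ^ k)) := by
      rw [aeval_monomial, monomial_eq]
      simp only [mul_pow, Finsupp.prod, Finset.prod_mul_distrib, ← C_pow, algebraMap_eq, C_mul,
        map_prod, mul_assoc]
    rw [h, coeff_monomial, coeff_monomial]
    split_ifs with hu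
    · rw [hu]
    · simp
  | add p q hp hq => rw [map_add, coeff_add, coeff_add, hp, hq, add_mul]

theorem even_of_inv {σ : Type} [DecidableEq σ] (j : σ) (P : MvPolynomial σ ℤ)
    (h : aeval (fun i => (C (if i = j then -1 else 1) * X i : MvPolynomial σ ℤ)) P = P)
    (m : σ →₀ ℕ) (hm : m ∈ P.support) : Even (m j) := by
  have h1 := coeff_scale (fun i => if i = j then -1 else 1) P m
  rw [h] at h1
  have h2 : m.prod (fun i k => (if i = j then (-1 : ℤ) else 1) ^ k) = (-1) ^ m j := by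
    rw [Finsupp.prod, Finset.prod_eq_single j]
    · simp
    · intro b _ hb
      simp [hb]
    · intro hj
      simp [Finsupp.notMem_support_iff.1 hj]
  rw [h2] at h1
  by_contra hodd
  rw [(Nat.not_even_iff_odd.1 hodd).neg_one_pow] at h1
  exact (mem_support_iff.1 hm) (by linarith)

/-- the universal product -/
noncomputable def U : MvPolynomial (Finset (Fin 4) ⊕ Fin 4) ℤ :=
  ∏ sg : Fin 4 → Bool, ∑ I : Finset (Fin 4), X (Sum.inl I) *
    ∏ j ∈ I, (if sg j then X (Sum.inr j) else -X (Sum.inr j))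

theorem aeval_U (A : Type) [CommRing A] (g : Finset (Fin 4) ⊕ Fin 4 → A) :
    aeval g U = ∏ sg : Fin 4 → Bool, ∑ I : Finset (Fin 4), g (Sum.inl I) *
      ∏ j ∈ I, (if sg j then g (Sum.inr j) else -g (Sum.inr j)) := by
  unfold U
  rw [map_prod]
  refine Finset.prod_congr rfl fun sg _ => ?_
  rw [map_sum]
  refine Finset.sum_congr rfl fun I _ => ?_
  rw [map_mul, map_prod, aeval_X]
  congr 1
  refine Finset.prod_congr rfl fun j _ => ?_
  split_ifs <;> simp

theorem U_inv (k : Fin 4) :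
    aeval (fun i => (C (if i = Sum.inr k then -1 else 1) * X i :
      MvPolynomial (Finset (Fin 4) ⊕ Fin 4) ℤ)) U = U := by
  refine (aeval_U _ _).trans ?_
  unfold U
  let φ : (Fin 4 → Bool) → (Fin 4 → Bool) := fun sg j => if j = k then !sg j else sg j
  have hφ : Function.Involutive φ := by
    intro sg
    funext j
    by_cases h : j = k <;> simp [φ, h]
  refine Fintype.prod_equiv hφ.toPerm _ _ fun sg => ?_
  refine Finset.sum_congr rfl fun I _ => ?_
  congr 1
  · simp
  · refine Finset.prod_congr rfl fun j _ => ?_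
    by_cases h : j = k
    · subst h
      cases hs : sg j <;> simp [φ, hs]
    · simp [φ, h]

/-- halve the exponents of the second block -/
noncomputable def half (m : Finset (Fin 4) ⊕ Fin 4 →₀ ℕ) : Finset (Fin 4) ⊕ Fin 4 →₀ ℕ :=
  Finsupp.equivFunOnFinite.symm (Sum.elim (fun I => m (Sum.inl I)) fun j => m (Sum.inr j) / 2)

end NormAux

/-- The product over all sign changes is invariant under each `S j ↦ -S j`, hence a polynomial in
the squares (universal case: `A = ℤ[c, S]`, odd exponents have zero coefficient). -/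
theorem exists_norm_poly : ∃ Ψ : MvPolynomial (Finset (Fin 4) ⊕ Fin 4) ℤ,
    ∀ (A : Type) [CommRing A] (c : Finset (Fin 4) → A) (S : Fin 4 → A),
      (∏ sg : Fin 4 → Bool, ∑ I : Finset (Fin 4), c I * ∏ j ∈ I, (if sg j then S j else -S j)) =
        MvPolynomial.aeval (Sum.elim c fun j => S j ^ 2) Ψ := by
  refine ⟨∑ m ∈ NormAux.U.support, MvPolynomial.monomial (NormAux.half m)
    (MvPolynomial.coeff m NormAux.U), fun A _ c S => ?_⟩
  have h1 := NormAux.aeval_U A (Sum.elim c S)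
  simp only [Sum.elim_inl, Sum.elim_inr] at h1
  rw [← h1]
  conv_lhs => rw [NormAux.U.as_sum]
  rw [map_sum, map_sum]
  refine Finset.sum_congr rfl fun m hm => ?_
  rw [MvPolynomial.aeval_monomial, MvPolynomial.aeval_monomial]
  congr 1
  rw [Finsupp.prod_fintype _ _ (by simp), Finsupp.prod_fintype _ _ (by simp)]
  refine Finset.prod_congr rfl fun i _ => ?_
  rcases i with I | j
  · simp [NormAux.half]
  · have h2 := NormAux.even_of_inv (Sum.inr j) NormAux.U (NormAux.U_inv j) m hm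
    simp only [Sum.elim_inr, NormAux.half, Finsupp.equivFunOnFinite_symm_apply_apply]
    rw [← pow_mul, Nat.two_mul_div_two_of_even h2]

theorem totalDegree_aeval_le {σ τ L : Type} [CommRing L] (Ψ : MvPolynomial σ ℤ)
    (g : σ → MvPolynomial τ L) (d : ℕ) (hg : ∀ i, (g i).totalDegree ≤ d) :
    (MvPolynomial.aeval g Ψ : MvPolynomial τ L).totalDegree ≤ Ψ.totalDegree * d := by
  conv_lhs => rw [Ψ.as_sum]
  rw [map_sum]
  refine MvPolynomial.totalDegree_finsetSum_le fun m hm => ?_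
  rw [MvPolynomial.aeval_monomial]
  refine (MvPolynomial.totalDegree_mul _ _).trans ?_
  have h0 : (algebraMap ℤ (MvPolynomial τ L) (MvPolynomial.coeff m Ψ)).totalDegree = 0 := by
    rw [eq_intCast, ← map_intCast (MvPolynomial.C : L →+* MvPolynomial τ L),
      MvPolynomial.totalDegree_C]
  rw [h0, zero_add, Finsupp.prod]
  refine (MvPolynomial.totalDegree_finsetProd _ _).trans ?_
  refine le_trans ?_ (Nat.mul_le_mul_right d (MvPolynomial.le_totalDegree hm))
  rw [Finsupp.sum, Finset.sum_mul]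
  refine Finset.sum_le_sum fun i _ => ?_
  exact (MvPolynomial.totalDegree_pow _ _).trans (Nat.mul_le_mul_left _ (hg i))

end Crest.Agent.R33
end

-- ▼ part PVc/R33/Indep
section

/-! Independence of square roots. -/

set_option autoImplicit false

open Finset
open scoped Classical

namespace Crest.Agent.R33

/-- `D (D - 4)` for `D = (x - x₀)(y - y₀)`. -/
noncomputable def fq {L : Type} [Field L] (x₀ y₀ : L) : MvPolynomial (Fin 2) L :=
  ((MvPolynomial.X 0 - MvPolynomial.C x₀) * (MvPolynomial.X 1 - MvPolynomial.C y₀)) *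
    ((MvPolynomial.X 0 - MvPolynomial.C x₀) * (MvPolynomial.X 1 - MvPolynomial.C y₀) - 4)

/-- Elements with squares in `F` and pairwise ratios outside `F` are eigenvectors of the absolute
Galois group for distinct characters (`linearIndependent_monoidHom`,
`InfiniteGalois.mem_bot_iff_fixed`). -/
theorem sqrt_linearIndependent {F : Type} [Field F] [CharZero F] {ι : Type} [Fintype ι]
    (e : ι → AlgebraicClosure F) (h0 : ∀ i, e i ≠ 0)
    (h2 : ∀ i, ∃ x : F, e i ^ 2 = algebraMap F _ x)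
    (hne : ∀ i j, i ≠ j → ∀ x : F, e i ≠ algebraMap F _ x * e j) : LinearIndependent F e := by
  have hpm : ∀ (σ : AlgebraicClosure F ≃ₐ[F] AlgebraicClosure F) i, σ (e i) = e i ∨ σ (e i) = -e i := by
    intro σ i
    obtain ⟨x, hx⟩ := h2 i
    refine sq_eq_sq_iff_eq_or_eq_neg.1 ?_
    rw [← map_pow, hx, AlgEquiv.commutes]
  let χ : ι → (AlgebraicClosure F ≃ₐ[F] AlgebraicClosure F) →* AlgebraicClosure F := fun i =>
    { toFun := fun σ => σ (e i) / e i
      map_one' := by simp [h0 i]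
      map_mul' := fun σ τ => by
        have := h0 i
        rcases hpm τ i with h | h <;> simp only [AlgEquiv.mul_apply, h, map_neg] <;> field_simp }
  have hχ : Function.Injective χ := by
    intro i j hij
    by_contra hn
    have hfix : ∀ σ : AlgebraicClosure F ≃ₐ[F] AlgebraicClosure F, σ (e i / e j) = e i / e j := by
      intro σ
      have h1 : σ (e i) / e i = σ (e j) / e j := DFunLike.congr_fun hij σ
      have h3 : σ (e j) ≠ 0 := by simpa using h0 j
      rw [map_div₀, div_eq_div_iff h3 (h0 j)]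
      rw [div_eq_div_iff (h0 i) (h0 j)] at h1
      rw [h1, mul_comm]
    obtain ⟨x, hx⟩ := (InfiniteGalois.mem_range_algebraMap_iff_fixed _).2 hfix
    exact hne i j hn x (by rw [hx, div_mul_cancel₀ _ (h0 j)])
  have hli := (linearIndependent_monoidHom (AlgebraicClosure F ≃ₐ[F] AlgebraicClosure F)
    (AlgebraicClosure F)).comp χ hχ
  rw [Fintype.linearIndependent_iff] at hli ⊢
  intro g hg i
  have := hli (fun i => g i • e i) (by
    ext σ
    have h1 := congrArg σ hg
    rw [map_sum, map_zero] at h1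
    rw [Finset.sum_apply, Pi.zero_apply, ← h1]
    refine sum_congr rfl fun i _ => ?_
    change (g i • e i) * (σ (e i) / e i) = _
    rw [Algebra.smul_def, map_mul, AlgEquiv.commutes, mul_assoc, mul_div_cancel₀ _ (h0 i)]) i
  exact (smul_eq_zero.1 this).resolve_right (h0 i)

/-- A nonempty product of the `fq` is not a square in the fraction field: in `(L[y])[x]` compare
the multiplicity of the root `x = x_j` on both sides of `A² = B² ∏ fq`. -/
theorem prod_fq_not_sq {L : Type} [Field L] [CharZero L] (x y : Fin 4 → L)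
    (hx : Function.Injective x) (I : Finset (Fin 4)) (hI : I.Nonempty)
    (A B : MvPolynomial (Fin 2) L) (hB : B ≠ 0) : A ^ 2 ≠ B ^ 2 * ∏ j ∈ I, fq (x j) (y j) := by
  intro h
  obtain ⟨j, hj⟩ := hI
  let φ := MvPolynomial.finSuccEquiv L 1
  have hC : ∀ t : L, φ (MvPolynomial.C t) = Polynomial.C (MvPolynomial.C t) := fun t => by
    simp [φ, MvPolynomial.finSuccEquiv_apply]
  have hφ : ∀ i, φ (fq (x i) (y i)) = (Polynomial.X - Polynomial.C (MvPolynomial.C (x i))) *
      (Polynomial.C (MvPolynomial.X 0 - MvPolynomial.C (y i)) *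
        ((Polynomial.X - Polynomial.C (MvPolynomial.C (x i))) *
          Polynomial.C (MvPolynomial.X 0 - MvPolynomial.C (y i)) - Polynomial.C 4)) := by
    intro i
    have h0 : φ (MvPolynomial.X 0) = Polynomial.X := MvPolynomial.finSuccEquiv_X_zero
    have h1 : φ (MvPolynomial.X 1) = Polynomial.C (MvPolynomial.X 0) :=
      MvPolynomial.finSuccEquiv_X_succ (j := 0)
    simp only [fq, map_mul, map_sub, h0, h1, hC, map_ofNat]
    ring
  have hY : ∀ i, (MvPolynomial.X 0 - MvPolynomial.C (y i) : MvPolynomial (Fin 1) L) ≠ 0 := by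
    intro i h
    have := congrArg (MvPolynomial.eval fun _ => y i + 1) h
    simp at this
  have hg : ∀ i, (Polynomial.C (MvPolynomial.X 0 - MvPolynomial.C (y i)) *
      ((Polynomial.X - Polynomial.C (MvPolynomial.C (x i))) *
        Polynomial.C (MvPolynomial.X 0 - MvPolynomial.C (y i)) - Polynomial.C 4) :
          Polynomial (MvPolynomial (Fin 1) L)).eval (MvPolynomial.C (x j)) ≠ 0 := by
    intro i
    simp only [Polynomial.eval_mul, Polynomial.eval_sub, Polynomial.eval_C, Polynomial.eval_X]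
    refine mul_ne_zero (hY i) fun h => ?_
    have := congrArg (MvPolynomial.eval fun _ => y i) h
    simp [map_ofNat] at this
  obtain ⟨Q, hQ, hQ0⟩ : ∃ Q, φ (∏ i ∈ I, fq (x i) (y i)) =
      (Polynomial.X - Polynomial.C (MvPolynomial.C (x j))) * Q ∧
      Q.eval (MvPolynomial.C (x j)) ≠ 0 := by
    refine ⟨_, by rw [← mul_prod_erase I _ hj, map_mul, hφ, mul_assoc], ?_⟩
    rw [Polynomial.eval_mul, map_prod, Polynomial.eval_prod]
    refine mul_ne_zero (hg j) (prod_ne_zero_iff.2 fun i hi => ?_)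
    rw [hφ, Polynomial.eval_mul]
    refine mul_ne_zero ?_ (hg i)
    simp only [Polynomial.eval_sub, Polynomial.eval_C, Polynomial.eval_X, sub_ne_zero]
    exact fun h => (ne_of_mem_erase hi) (hx (MvPolynomial.C_injective _ _ h)).symm
  have h1 := congrArg φ h
  rw [map_mul, hQ, sq, sq, map_mul, map_mul] at h1
  have hB' : φ B ≠ 0 := by simpa using hB
  have hQ' : (Polynomial.X - Polynomial.C (MvPolynomial.C (x j))) * Q ≠ 0 :=
    mul_ne_zero (Polynomial.X_sub_C_ne_zero _) (by rintro rfl; simp at hQ0)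
  have hR := mul_ne_zero (mul_ne_zero hB' hB') hQ'
  have h2 := congrArg (Polynomial.rootMultiplicity (MvPolynomial.C (x j))) h1
  have hA : φ A * φ A ≠ 0 := by rw [h1]; exact hR
  rw [Polynomial.rootMultiplicity_mul hA, Polynomial.rootMultiplicity_mul hR,
    Polynomial.rootMultiplicity_mul (mul_ne_zero hB' hB'), Polynomial.rootMultiplicity_mul hQ',
    Polynomial.rootMultiplicity_X_sub_C_self, Polynomial.rootMultiplicity_eq_zero (p := Q) hQ0] at h2
  omega

theorem sqrt_indep {L : Type} [Field L] [CharZero L] (x y : Fin 4 → L)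
    (hx : Function.Injective x)
    (s : Fin 4 → AlgebraicClosure (FractionRing (MvPolynomial (Fin 2) L)))
    (hs : ∀ j, s j ^ 2 = algebraMap (MvPolynomial (Fin 2) L) _ (fq (x j) (y j)))
    (c : Finset (Fin 4) → MvPolynomial (Fin 2) L)
    (h : ∑ I : Finset (Fin 4), algebraMap (MvPolynomial (Fin 2) L) _ (c I) * ∏ j ∈ I, s j = 0) :
    c = 0 := by
  have hinj : Function.Injective (algebraMap (MvPolynomial (Fin 2) L) (AlgebraicClosure (FractionRing (MvPolynomial (Fin 2) L)))) := by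
    rw [IsScalarTower.algebraMap_eq (MvPolynomial (Fin 2) L) (FractionRing (MvPolynomial (Fin 2) L))]
    exact (algebraMap (FractionRing (MvPolynomial (Fin 2) L)) (AlgebraicClosure (FractionRing (MvPolynomial (Fin 2) L)))).injective.comp (IsFractionRing.injective (MvPolynomial (Fin 2) L) (FractionRing (MvPolynomial (Fin 2) L)))
  have hf : ∀ I : Finset (Fin 4), ∏ j ∈ I, fq (x j) (y j) ≠ 0 := by
    intro I h0
    rcases I.eq_empty_or_nonempty with rfl | hI
    · simp at h0
    · exact prod_fq_not_sq x y hx I hI 0 1 one_ne_zero (by simp [h0])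
  have hsq : ∀ I : Finset (Fin 4), (∏ j ∈ I, s j) ^ 2 =
      algebraMap (MvPolynomial (Fin 2) L) _ (∏ j ∈ I, fq (x j) (y j)) := fun I => by
    rw [← prod_pow, map_prod]; simp only [hs]
  have : CharZero (FractionRing (MvPolynomial (Fin 2) L)) := algebraRat.charZero _
  have hli := sqrt_linearIndependent (F := FractionRing (MvPolynomial (Fin 2) L)) (fun I : Finset (Fin 4) => ∏ j ∈ I, s j)
    (fun I h0 => hf I (hinj (by rw [← hsq, h0, map_zero, zero_pow two_ne_zero])))
    (fun I => ⟨_, by rw [hsq, IsScalarTower.algebraMap_apply (MvPolynomial (Fin 2) L) (FractionRing (MvPolynomial (Fin 2) L))]⟩)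
    (fun I J hIJ t ht => by
      obtain ⟨a, b, hb, rfl⟩ := IsFractionRing.div_surjective (A := (MvPolynomial (Fin 2) L)) t
      have hb0 : b ≠ 0 := nonZeroDivisors.ne_zero hb
      have hb1 : algebraMap (MvPolynomial (Fin 2) L) (AlgebraicClosure (FractionRing (MvPolynomial (Fin 2) L))) b ≠ 0 := fun h0 => hb0 (hinj (by simpa using h0))
      rw [map_div₀, ← IsScalarTower.algebraMap_apply, ← IsScalarTower.algebraMap_apply,
        div_mul_eq_mul_div, eq_div_iff hb1] at ht
      have h1 : (∏ j ∈ I, fq (x j) (y j)) * b ^ 2 = a ^ 2 * ∏ j ∈ J, fq (x j) (y j) := by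
        apply hinj
        rw [map_mul, map_mul, map_pow, map_pow, ← hsq, ← hsq, ← mul_pow, ← mul_pow, ht]
      refine prod_fq_not_sq x y hx ((I ∪ J) \ (I ∩ J)) ?_ (a * ∏ j ∈ J, fq (x j) (y j))
        (b * ∏ j ∈ I ∩ J, fq (x j) (y j)) (mul_ne_zero hb0 (hf _)) ?_
      · rw [sdiff_nonempty]
        intro hsub
        exact hIJ (Subset.antisymm (subset_union_left.trans (hsub.trans inter_subset_right))
          (subset_union_right.trans (hsub.trans inter_subset_left)))
      · have h2 := prod_union_inter (s₁ := I) (s₂ := J) (f := fun j => fq (x j) (y j))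
        have h3 := prod_sdiff (f := fun j => fq (x j) (y j)) (inter_subset_union (s := I) (t := J))
        rw [← h3] at h2
        linear_combination (-(∏ j ∈ J, fq (x j) (y j))) * h1 - b ^ 2 * h2)
  rw [Fintype.linearIndependent_iff] at hli
  ext1 I
  have := hli (fun I => algebraMap (MvPolynomial (Fin 2) L) (FractionRing (MvPolynomial (Fin 2) L)) (c I)) (by
    simpa only [Algebra.smul_def, ← IsScalarTower.algebraMap_apply] using h) I
  exact IsFractionRing.injective (MvPolynomial (Fin 2) L) (FractionRing (MvPolynomial (Fin 2) L)) (by simpa using this)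

end Crest.Agent.R33
end

-- ▼ part PVc/R33/NormVan
section

/-! A curve through the zeros of a multiquadratic expression. -/

set_option autoImplicit false

open Finset
open scoped Classical

namespace Crest.Agent.R33

theorem normVan_deg_fq {L : Type} [Field L] (x₀ y₀ : L) : (fq x₀ y₀).totalDegree ≤ 4 := by
  have h1 : ∀ (i : Fin 2) (a : L),
      (MvPolynomial.X i - MvPolynomial.C a : MvPolynomial (Fin 2) L).totalDegree ≤ 1 := fun i a =>
    (MvPolynomial.totalDegree_sub_C_le _ _).trans (MvPolynomial.totalDegree_X i).le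
  have h2 : ((MvPolynomial.X 0 - MvPolynomial.C x₀) * (MvPolynomial.X 1 - MvPolynomial.C y₀) :
      MvPolynomial (Fin 2) L).totalDegree ≤ 2 :=
    (MvPolynomial.totalDegree_mul _ _).trans (add_le_add (h1 _ _) (h1 _ _))
  have h4 : (4 : MvPolynomial (Fin 2) L) = MvPolynomial.C 4 := (map_ofNat _ 4).symm
  unfold fq
  refine (MvPolynomial.totalDegree_mul _ _).trans (add_le_add h2 (?_ : _ ≤ 2))
  rw [h4]
  exact (MvPolynomial.totalDegree_sub_C_le _ _).trans h2

theorem normVan_map {σ A B : Type} [CommRing A] [CommRing B] [Algebra ℤ A] [Algebra ℤ B]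
    (φ : A →+* B) (g : σ → A) (Ψ : MvPolynomial σ ℤ) :
    φ (MvPolynomial.aeval g Ψ) = MvPolynomial.aeval (fun i => φ (g i)) Ψ := by
  induction Ψ using MvPolynomial.induction_on with
  | C a => simp
  | add p q hp hq => simp [hp, hq]
  | mul_X p i hp => simp [hp]

/-- The norm `aeval (c, fq) Ψ` is nonzero by `sqrt_indep` (each sign change of `c` is nonzero). -/
theorem norm_vanish : ∃ N₀ : ℕ, ∀ (L : Type) [Field L] [CharZero L] (bx bY : Fin 4 → L),
    Function.Injective bx → ∀ c : Finset (Fin 4) → MvPolynomial (Fin 2) L, c ≠ 0 →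
    (∀ I, (c I).totalDegree ≤ 4) →
    ∃ c' : Idx N₀ → L, c' ≠ 0 ∧ ∀ (x y : L) (S : Fin 4 → L),
      (∀ j, S j ^ 2 = ((x - bx j) * (y - bY j)) * ((x - bx j) * (y - bY j) - 4)) →
      ∑ I : Finset (Fin 4), MvPolynomial.eval ![x, y] (c I) * ∏ j ∈ I, S j = 0 →
      ev N₀ c' (x, y) = 0 := by
  obtain ⟨Ψ, hΨ⟩ := exists_norm_poly
  refine ⟨Ψ.totalDegree * 4, fun L _ _ bx bY hb c hc hd => ?_⟩
  set g : Finset (Fin 4) ⊕ Fin 4 → MvPolynomial (Fin 2) L :=
    Sum.elim c fun j => fq (bx j) (bY j) with hg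
  have key : ∀ (B : Type) [CommRing B] (φ : MvPolynomial (Fin 2) L →+* B) (S : Fin 4 → B),
      (∀ j, S j ^ 2 = φ (fq (bx j) (bY j))) → φ (MvPolynomial.aeval g Ψ) =
        ∏ sg : Fin 4 → Bool, ∑ I : Finset (Fin 4),
          φ (c I) * ∏ j ∈ I, (if sg j then S j else -S j) := by
    intro B _ φ S hS
    rw [hΨ B (fun I => φ (c I)) S, normVan_map]
    congr 2
    ext i
    cases i <;> simp [hg, hS]
  have hF : MvPolynomial.aeval g Ψ ≠ 0 := by
    intro h0
    choose s hs using fun j => IsAlgClosed.exists_pow_nat_eq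
      (algebraMap (MvPolynomial (Fin 2) L)
        (AlgebraicClosure (FractionRing (MvPolynomial (Fin 2) L))) (fq (bx j) (bY j))) two_pos
    have := key _ (algebraMap _ _) s hs
    rw [h0, map_zero, eq_comm, prod_eq_zero_iff] at this
    obtain ⟨sg, -, h⟩ := this
    refine hc (sqrt_indep bx bY hb (fun j => if sg j then s j else -s j) (fun j => ?_) c h)
    rw [← hs j]
    split_ifs <;> ring
  obtain ⟨c', h1, h2⟩ := ev_of_mvPolynomial (Ψ.totalDegree * 4) _ hF
    (totalDegree_aeval_le Ψ g 4 fun i => by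
      cases i with
      | inl I => exact hd I
      | inr j => exact normVan_deg_fq _ _)
  refine ⟨c', h1, fun x y S hS h0 => ?_⟩
  rw [h2, key L (MvPolynomial.eval ![x, y]) S fun j => by simp [hS, fq]]
  exact prod_eq_zero (mem_univ fun _ => true) (by simpa using h0)

end Crest.Agent.R33
end

-- ▼ part PVc/R33/LemY
section

/-! The infinitesimal rigidity lemma. -/

set_option autoImplicit false

open Finset
open scoped Classical

namespace Crest.Agent.R33

namespace LemY
open MvPolynomial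

variable {L : Type} [Field L]

/-- the multilinear expression -/
noncomputable def Phi (x y : L) (S : Fin 4 → L) (c : Finset (Fin 4) → MvPolynomial (Fin 2) L) : L :=
  ∑ I : Finset (Fin 4), MvPolynomial.eval ![x, y] (c I) * ∏ j ∈ I, S j

theorem Phi_add (x y : L) (S : Fin 4 → L) (c c' : Finset (Fin 4) → MvPolynomial (Fin 2) L) :
    Phi x y S (c + c') = Phi x y S c + Phi x y S c' := by
  simp [Phi, add_mul, sum_add_distrib]

/-- one term -/
noncomputable def sg (J : Finset (Fin 4)) (P : MvPolynomial (Fin 2) L) :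
    Finset (Fin 4) → MvPolynomial (Fin 2) L := fun I => if I = J then P else 0

theorem Phi_sg (x y : L) (S : Fin 4 → L) (J : Finset (Fin 4)) (P : MvPolynomial (Fin 2) L) :
    Phi x y S (sg J P) = MvPolynomial.eval ![x, y] P * ∏ j ∈ J, S j := by
  unfold Phi
  rw [sum_eq_single J]
  · simp [sg]
  · intro I _ hI
    simp [sg, hI]
  · simp

theorem deg_add {n : ℕ} {p q : MvPolynomial (Fin 2) L} (hp : p.totalDegree ≤ n)
    (hq : q.totalDegree ≤ n) : (p + q).totalDegree ≤ n :=
  (totalDegree_add p q).trans (max_le hp hq)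

theorem deg_sub {n : ℕ} {p q : MvPolynomial (Fin 2) L} (hp : p.totalDegree ≤ n)
    (hq : q.totalDegree ≤ n) : (p - q).totalDegree ≤ n :=
  (totalDegree_sub p q).trans (max_le hp hq)

theorem deg_mul {m n : ℕ} {p q : MvPolynomial (Fin 2) L} (hp : p.totalDegree ≤ m)
    (hq : q.totalDegree ≤ n) : (p * q).totalDegree ≤ m + n :=
  (totalDegree_mul p q).trans (add_le_add hp hq)

theorem deg_sg {J : Finset (Fin 4)} {P : MvPolynomial (Fin 2) L} (h : P.totalDegree ≤ 4)
    (I : Finset (Fin 4)) : (sg J P I).totalDegree ≤ 4 := by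
  unfold sg
  split_ifs
  · exact h
  · simp

theorem deg_lin (i : Fin 2) (a : L) : (X i - C a : MvPolynomial (Fin 2) L).totalDegree ≤ 1 :=
  deg_sub (by simp) (by simp)

/-- the `2 × 2` minors -/
noncomputable def MM (bx bY : Fin 4 → L) (l m : Fin 4) : MvPolynomial (Fin 2) L :=
  (X 1 - C (bY l)) * (X 0 - C (bx m)) - (X 1 - C (bY m)) * (X 0 - C (bx l))

noncomputable def EE (bx bY dx dy : Fin 4 → L) (j : Fin 4) : MvPolynomial (Fin 2) L :=
  C (dx j) * (X 1 - C (bY j)) + C (dy j) * (X 0 - C (bx j))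

theorem deg_MM (bx bY : Fin 4 → L) (l m : Fin 4) : (MM bx bY l m).totalDegree ≤ 2 :=
  deg_sub (deg_mul (deg_lin _ _) (deg_lin _ _)) (deg_mul (deg_lin _ _) (deg_lin _ _))

theorem deg_EE (bx bY dx dy : Fin 4 → L) (j : Fin 4) : (EE bx bY dx dy j).totalDegree ≤ 2 :=
  deg_add (deg_mul (m := 1) (by simp) (deg_lin _ _)) (deg_mul (m := 1) (by simp) (deg_lin _ _))

theorem deg_ME (bx bY dx dy : Fin 4 → L) (l m j : Fin 4) :
    (MM bx bY l m * EE bx bY dx dy j).totalDegree ≤ 4 :=
  deg_mul (deg_MM _ _ _ _) (deg_EE _ _ _ _ _)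

theorem deg_CM (bx bY : Fin 4 → L) (a : L) (l m : Fin 4) :
    (C a * MM bx bY l m).totalDegree ≤ 4 :=
  deg_mul (m := 2) (by simp) (deg_MM _ _ _ _)

theorem MM_ne {bx : Fin 4 → L} (h : Function.Injective bx) (bY : Fin 4 → L) {l m : Fin 4}
    (hlm : l ≠ m) : MM bx bY l m ≠ 0 := by
  intro h0
  have h1 := congrArg (MvPolynomial.eval ![0, 0]) h0
  have h2 := congrArg (MvPolynomial.eval ![0, 1]) h0
  simp only [MM, map_sub, map_mul, eval_X, eval_C, Matrix.cons_val_one, Matrix.cons_val_zero,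
    map_zero] at h1 h2
  exact hlm (h (by linear_combination h2 - h1))

end LemY

open LemY MvPolynomial in
/-- `X_j = x - bx j`, `Y_j = y - bY j`, `E_j = dx j Y_j + dy j X_j`, `M_{lm} = Y_l X_m - Y_m X_l`
(`≠ 0` as a polynomial), `E'_j = E_j - ω_j S_j = x' Y_j + y' X_j - w S_j`,
`B_{jk} = S_j E'_k - S_k E'_j`; then
`M₀₁B₂₃ - M₀₂B₁₃ + M₀₃B₁₂ + M₁₂B₀₃ - M₁₃B₀₂ + M₂₃B₀₁ = 0`, multilinear in `S`, with coefficient
`±(ω_j - ω_k) M_{lm}` at `S_j S_k` and `P₀ = M₂₃E₁ - M₁₃E₂ + M₁₂E₃` at `S₀`.  If all `ω_j = 0` and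
`P₀ = 0` use `M₂₃S₁ - M₁₃S₂ + M₁₂S₃ = 0` (from `w ≠ 0`). -/
theorem lemY : ∃ N₀ : ℕ, ∀ (L : Type) [Field L] [CharZero L] (bx bY dx dy ω : Fin 4 → L),
    Function.Injective bx → ω 0 = 0 →
    ∃ c : Idx N₀ → L, c ≠ 0 ∧ ∀ (x y x' y' w : L) (S : Fin 4 → L), w ≠ 0 →
      (∀ j, S j ^ 2 = ((x - bx j) * (y - bY j)) * ((x - bx j) * (y - bY j) - 4)) →
      (∀ j, (x' - dx j) * (y - bY j) + (y' - dy j) * (x - bx j) = (w - ω j) * S j) →
      ev N₀ c (x, y) = 0 := by
  obtain ⟨N₀, hN⟩ := norm_vanish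
  refine ⟨N₀, fun L _ _ bx bY dx dy ω hbx h0 => ?_⟩
  set M := MM bx bY with hM
  set E := EE bx bY dx dy with hE
  set c : Finset (Fin 4) → MvPolynomial (Fin 2) L :=
    sg {0} (M 1 2 * E 3 - M 1 3 * E 2 + M 2 3 * E 1) +
    sg {1} (M 0 3 * E 2 - M 0 2 * E 3 - M 2 3 * E 0) +
    sg {2} (M 0 1 * E 3 - M 0 3 * E 1 + M 1 3 * E 0) +
    sg {3} (M 0 2 * E 1 - M 0 1 * E 2 - M 1 2 * E 0) +
    sg {2, 3} (C (ω 2 - ω 3) * M 0 1) + sg {1, 3} (C (ω 3 - ω 1) * M 0 2) +
    sg {1, 2} (C (ω 1 - ω 2) * M 0 3) + sg {0, 3} (C (ω 0 - ω 3) * M 1 2) +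
    sg {0, 2} (C (ω 2 - ω 0) * M 1 3) + sg {0, 1} (C (ω 0 - ω 1) * M 2 3) with hc
  by_cases hz : c = 0
  · have e0 := congrFun hz {0}
    have e1 := congrFun hz {0, 1}
    have e2 := congrFun hz {0, 2}
    have e3 := congrFun hz {0, 3}
    simp (config := { decide := true }) only [hc, Pi.add_apply, sg, if_true, if_false, add_zero,
      zero_add, Pi.zero_apply, mul_eq_zero, C_eq_zero] at e0 e1 e2 e3
    have w1 : ω 1 = 0 := by
      have := e1.resolve_right (MM_ne hbx bY (by decide))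
      linear_combination h0 - this
    have w2 : ω 2 = 0 := by
      have := e2.resolve_right (MM_ne hbx bY (by decide))
      linear_combination h0 + this
    have w3 : ω 3 = 0 := by
      have := e3.resolve_right (MM_ne hbx bY (by decide))
      linear_combination h0 - this
    obtain ⟨c', hc', H⟩ := hN L bx bY hbx (sg {1} (M 2 3) + sg {2} (M 3 1) + sg {3} (M 1 2))
      (fun h => by
        have e := congrFun h {1}
        simp (config := { decide := true }) only [Pi.add_apply, sg, if_true, if_false, add_zero,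
          Pi.zero_apply] at e
        exact MM_ne hbx bY (by decide) e)
      (fun I => deg_add (deg_add (deg_sg ((deg_MM _ _ _ _).trans (by norm_num)) I)
        (deg_sg ((deg_MM _ _ _ _).trans (by norm_num)) I))
        (deg_sg ((deg_MM _ _ _ _).trans (by norm_num)) I))
    refine ⟨c', hc', fun x y x' y' w S hw hS h => H x y S hS ?_⟩
    change Phi x y S _ = 0
    have e := congrArg (MvPolynomial.eval ![x, y]) e0
    have h1 := h 1
    have h2 := h 2
    have h3 := h 3
    rw [w1] at h1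
    rw [w2] at h2
    rw [w3] at h3
    simp only [Phi_add, Phi_sg, prod_singleton]
    simp only [hM, hE, MM, EE, map_sub, map_add, map_mul, eval_X, eval_C, Matrix.cons_val_one,
      Matrix.cons_val_zero, map_zero] at e ⊢
    refine mul_left_cancel₀ hw ?_
    linear_combination -e -
      ((y - bY 2) * (x - bx 3) - (y - bY 3) * (x - bx 2)) * h1 -
      ((y - bY 3) * (x - bx 1) - (y - bY 1) * (x - bx 3)) * h2 -
      ((y - bY 1) * (x - bx 2) - (y - bY 2) * (x - bx 1)) * h3
  · obtain ⟨c', hc', H⟩ := hN L bx bY hbx c hz (fun I => by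
      have a := deg_ME bx bY dx dy
      have b := deg_CM bx bY
      simp only [hc, Pi.add_apply]
      exact deg_add (deg_add (deg_add (deg_add (deg_add (deg_add (deg_add (deg_add (deg_add
        (deg_sg (deg_add (deg_sub (a _ _ _) (a _ _ _)) (a _ _ _)) I)
        (deg_sg (deg_sub (deg_sub (a _ _ _) (a _ _ _)) (a _ _ _)) I))
        (deg_sg (deg_add (deg_sub (a _ _ _) (a _ _ _)) (a _ _ _)) I))
        (deg_sg (deg_sub (deg_sub (a _ _ _) (a _ _ _)) (a _ _ _)) I))
        (deg_sg (b _ _ _) I)) (deg_sg (b _ _ _) I)) (deg_sg (b _ _ _) I)) (deg_sg (b _ _ _) I))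
        (deg_sg (b _ _ _) I)) (deg_sg (b _ _ _) I))
    refine ⟨c', hc', fun x y x' y' w S _ hS h => H x y S hS ?_⟩
    change Phi x y S _ = 0
    simp only [hc, Phi_add, Phi_sg, prod_singleton]
    rw [prod_pair (by decide), prod_pair (by decide), prod_pair (by decide), prod_pair (by decide),
      prod_pair (by decide), prod_pair (by decide)]
    have m : ∀ l k, MvPolynomial.eval ![x, y] (M l k) =
        (y - bY l) * (x - bx k) - (y - bY k) * (x - bx l) := fun l k => by simp [hM, MM]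
    have e : ∀ j, MvPolynomial.eval ![x, y] (E j) = x' * (y - bY j) + y' * (x - bx j) -
        (w - ω j) * S j := fun j => by
      simp only [hE, EE, map_sub, map_add, map_mul, eval_X, eval_C, Matrix.cons_val_one,
        Matrix.cons_val_zero]
      linear_combination -h j
    simp only [map_sub, map_add, map_mul, eval_C, m, e]
    ring

end Crest.Agent.R33
end

-- ▼ part PVc/R33/LemZGen
section

/-! The generic point. -/

set_option autoImplicit false

open Finset
open scoped Classical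

namespace Crest.Agent.R33

section aux

variable {L : Type} [Field L]

theorem lemZGen_uu_ne {a b q : L × L} (ha : Dd a q = 1) (hb : Dd b q = 1) : uu a b q ≠ 0 := by
  unfold Dd at ha hb
  exact div_ne_zero (left_ne_zero_of_mul_eq_one ha) (left_ne_zero_of_mul_eq_one hb)

theorem lemZGen_Dd {a b q : L × L} (ha : Dd a q = 1) (hb : Dd b q = 1) :
    (a.1 - b.1) * (a.2 - b.2) = 2 - uu a b q - (uu a b q)⁻¹ := by
  unfold Dd at ha hb
  have h1 := left_ne_zero_of_mul_eq_one ha
  have h2 := left_ne_zero_of_mul_eq_one hb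
  have h3 : a.2 - q.2 = (a.1 - q.1)⁻¹ := eq_inv_of_mul_eq_one_right ha
  have h4 : b.2 - q.2 = (b.1 - q.1)⁻¹ := eq_inv_of_mul_eq_one_right hb
  have h5 : a.1 - b.1 = (a.1 - q.1) - (b.1 - q.1) := by ring
  have h6 : a.2 - b.2 = (a.2 - q.2) - (b.2 - q.2) := by ring
  rw [h5, h6, h3, h4]
  unfold uu
  field_simp
  ring

variable [CharZero L] (D : Derivation ℚ L L)

theorem lemZGen_der {a b q : L × L} (ha : Dd a q = 1) (hb : Dd b q = 1) :
    (D a.1 - D b.1) * (a.2 - b.2) + (D a.2 - D b.2) * (a.1 - b.1) =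
      D (uu a b q) / uu a b q * ((uu a b q)⁻¹ - uu a b q) := by
  have h := congrArg D (lemZGen_Dd ha hb)
  have hu := lemZGen_uu_ne ha hb
  have h2 : D (2 : L) = 0 := by simpa using D.map_natCast 2
  rw [D.leibniz, map_sub, map_sub, map_sub, map_sub, D.leibniz_inv, h2] at h
  simp only [smul_eq_mul] at h
  have h3 : D (uu a b q) / uu a b q * ((uu a b q)⁻¹ - uu a b q) =
      0 - D (uu a b q) - -(uu a b q)⁻¹ ^ 2 * D (uu a b q) := by
    field_simp
    ring
  rw [h3, ← h]
  ring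

theorem lemZGen_log {x y z t : L} (hx : x ≠ 0) (hy : y ≠ 0) (hz : z ≠ 0) (ht : t ≠ 0)
    (h : D (x * y / (z * t)) = 0) : D x / x = D z / z - (D y / y - D t / t) := by
  have h1 : x * y = x * y / (z * t) * (z * t) := by field_simp
  have h2 := congrArg D h1
  rw [D.leibniz, D.leibniz, h, D.leibniz] at h2
  simp only [smul_eq_mul, mul_zero, add_zero] at h2
  field_simp at h2 ⊢
  linear_combination h2

end aux

/-- `exists_der` and `lemY`: `D(a,b) = 2 - u - 1/u`, `S = 1/u - u`, `w_i = D u_{i0} / u_{i0}`,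
`ω_j = D u_{00}/u_{00} - D u_{0j}/u_{0j}`, so that `D u_{ij} / u_{ij} = w_i - ω_j`. -/
theorem lemZ_generic : ∃ N₀ : ℕ, ∀ (L : Type) [Field L] [CharZero L] (a : Idx N₀ → L × L)
    (b : Fin 4 → L × L) (q : Idx N₀ → Fin 4 → L × L), (Function.Injective fun j => (b j).1) →
    (∀ i j, Dd (a i) (q i j) = 1) → (∀ i j, Dd (b j) (q i j) = 1) → GenPos N₀ a →
    ∃ (i : Idx N₀) (Q : Polynomial (MvPolynomial (Idx N₀ × Fin 4) ℤ)),
      Q.eval₂ (MvPolynomial.aeval (fun x : Idx N₀ × Fin 4 => Om a b q x.1 x.2) :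
        MvPolynomial (Idx N₀ × Fin 4) ℤ →ₐ[ℤ] L).toRingHom (uu (a i) (b 0) (q i 0)) = 0 ∧
      MvPolynomial.aeval (fun x : Idx N₀ × Fin 4 => Om a b q x.1 x.2) Q.leadingCoeff ≠ (0 : L) := by
  obtain ⟨N₀, hN⟩ := lemY
  refine ⟨N₀, fun L _ _ a b q hb ha hbq hgen => ?_⟩
  by_contra hcon
  push Not at hcon
  obtain ⟨D, hD, hDu⟩ := exists_der (fun x : Idx N₀ × Fin 4 => Om a b q x.1 x.2)
    (fun i => uu (a i) (b 0) (q i 0)) hcon
  have hu : ∀ i j, uu (a i) (b j) (q i j) ≠ 0 := fun i j => lemZGen_uu_ne (ha i j) (hbq i j)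
  obtain ⟨c, hc, hev⟩ := hN L (fun j => (b j).1) (fun j => (b j).2) (fun j => D (b j).1)
    (fun j => D (b j).2)
    (fun j => D (uu (a 0) (b 0) (q 0 0)) / uu (a 0) (b 0) (q 0 0) -
      D (uu (a 0) (b j) (q 0 j)) / uu (a 0) (b j) (q 0 j)) hb (sub_self _)
  refine hc (hgen c fun i => ?_)
  refine hev (a i).1 (a i).2 (D (a i).1) (D (a i).2)
    (D (uu (a i) (b 0) (q i 0)) / uu (a i) (b 0) (q i 0))
    (fun j => (uu (a i) (b j) (q i j))⁻¹ - uu (a i) (b j) (q i j))
    (div_ne_zero (hDu i) (hu i 0)) (fun j => ?_) (fun j => ?_)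
  · have h0 := hu i j
    rw [lemZGen_Dd (ha i j) (hbq i j)]
    field_simp
    ring
  · rw [lemZGen_der D (ha i j) (hbq i j),
      lemZGen_log D (hu i j) (hu 0 0) (hu i 0) (hu 0 j) (hD (i, j))]

end Crest.Agent.R33
end

-- ▼ part PVc/R33/Noeth

/-! Noetherian compactness, height of a root. -/

set_option autoImplicit false

open Finset
open scoped Classical

namespace Crest.Agent.R33

/-- Noetherian induction on ideals `I` (primes containing `I`): if `I` is not prime split with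
`a b ∈ I`; if it is prime and admissible use its witness and pass to `I + (c w)`; if some equation
is not in `I` add it. -/
theorem noeth_cover {A : Type} [CommRing A] [IsNoetherianRing A] (Eqs Ne : Set A) {W : Type}
    (e c : W → A)
    (h : ∀ 𝔭 : Ideal A, 𝔭.IsPrime → (∀ g ∈ Eqs, g ∈ 𝔭) → (∀ g ∈ Ne, g ∉ 𝔭) →
      ∃ w, e w ∈ 𝔭 ∧ c w ∉ 𝔭) :
    ∃ s : Finset W, ∀ 𝔭 : Ideal A, 𝔭.IsPrime → (∀ g ∈ Eqs, g ∈ 𝔭) → (∀ g ∈ Ne, g ∉ 𝔭) →
      ∃ w ∈ s, e w ∈ 𝔭 ∧ c w ∉ 𝔭 := by
  suffices H : ∀ I : Ideal A, ∃ s : Finset W, ∀ 𝔭 : Ideal A, I ≤ 𝔭 → 𝔭.IsPrime →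
      (∀ g ∈ Eqs, g ∈ 𝔭) → (∀ g ∈ Ne, g ∉ 𝔭) → ∃ w ∈ s, e w ∈ 𝔭 ∧ c w ∉ 𝔭 by
    obtain ⟨s, hs⟩ := H ⊥
    exact ⟨s, fun 𝔭 => hs 𝔭 bot_le⟩
  intro I
  induction I using IsNoetherian.induction with
  | hgt I ih =>
  have key : ∀ a ∉ I, ∃ s : Finset W, ∀ 𝔭 : Ideal A, I ≤ 𝔭 → a ∈ 𝔭 → 𝔭.IsPrime →
      (∀ g ∈ Eqs, g ∈ 𝔭) → (∀ g ∈ Ne, g ∉ 𝔭) → ∃ w ∈ s, e w ∈ 𝔭 ∧ c w ∉ 𝔭 := by
    intro a ha
    obtain ⟨s, hs⟩ := ih (I ⊔ Ideal.span {a}) (lt_of_le_of_ne le_sup_left fun hh =>
      ha (hh ▸ Ideal.mem_sup_right (Ideal.mem_span_singleton_self a)))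
    exact ⟨s, fun 𝔭 h1 h2 => hs 𝔭 (sup_le h1 ((Ideal.span_singleton_le_iff_mem _).2 h2))⟩
  by_cases hp : Ideal.IsPrime I
  · by_cases h1 : ∀ g ∈ Eqs, g ∈ I
    · by_cases h2 : ∀ g ∈ Ne, g ∉ I
      · obtain ⟨w, hw, hw'⟩ := h I hp h1 h2
        obtain ⟨s, hs⟩ := key _ hw'
        refine ⟨insert w s, fun 𝔭 hI h𝔭 hE hN => ?_⟩
        by_cases hc : c w ∈ 𝔭
        · obtain ⟨w', h3, h4⟩ := hs 𝔭 hI hc h𝔭 hE hN
          exact ⟨w', mem_insert_of_mem h3, h4⟩
        · exact ⟨w, mem_insert_self _ _, hI hw, hc⟩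
      · push Not at h2
        obtain ⟨g, hg, hg'⟩ := h2
        exact ⟨∅, fun 𝔭 hI _ _ hN => absurd (hI hg') (hN g hg)⟩
    · push Not at h1
      obtain ⟨g, hg, hg'⟩ := h1
      obtain ⟨s, hs⟩ := key _ hg'
      exact ⟨s, fun 𝔭 hI h𝔭 hE hN => hs 𝔭 hI (hE g hg) h𝔭 hE hN⟩
  · rcases Ideal.not_isPrime_iff.1 hp with ht | ⟨a, ha, b, hb, hab⟩
    · exact ⟨∅, fun 𝔭 hI h𝔭 _ _ => absurd (top_le_iff.1 (ht ▸ hI)) h𝔭.ne_top⟩
    · obtain ⟨s, hs⟩ := key _ ha
      obtain ⟨t, ht⟩ := key _ hb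
      refine ⟨s ∪ t, fun 𝔭 hI h𝔭 hE hN => ?_⟩
      rcases h𝔭.mem_or_mem (hI hab) with h1 | h1
      · obtain ⟨w, h3, h4⟩ := hs 𝔭 hI h1 h𝔭 hE hN
        exact ⟨w, mem_union_left _ h3, h4⟩
      · obtain ⟨w, h3, h4⟩ := ht 𝔭 hI h1 h𝔭 hE hN
        exact ⟨w, mem_union_right _ h3, h4⟩

theorem Noeth.le_exp_posLog (x : ℝ) : x ≤ Real.exp (Real.posLog x) := by
  rcases le_or_gt x 0 with h | h
  · exact h.trans (Real.exp_pos _).le
  · exact (Real.exp_log h).symm.le.trans (Real.exp_le_exp.2 (le_max_right _ _))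

theorem Noeth.add_le_exp {K : Type} [Field K] (P : Pl K) {u v : K} {M : ℝ} (hu : P.abv u ≤ M)
    (hv : P.abv v ≤ M) : P.abv (u + v) ≤ Real.exp P.ar * M :=
  (P.add_le u v).trans (mul_le_mul (by linarith [Real.add_one_le_exp P.ar]) (max_le hu hv)
    (le_max_of_le_left (P.abv.nonneg u)) (Real.exp_pos _).le)

theorem Noeth.sum_le_exp {K : Type} [Field K] (P : Pl K) {f : ℕ → K} {M : ℝ} (hM : 0 ≤ M) (d : ℕ)
    (hf : ∀ i < d, P.abv (f i) ≤ M) :
    P.abv (∑ i ∈ range d, f i) ≤ Real.exp (d * P.ar) * M := by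
  induction d with
  | zero => simpa using hM
  | succ d ih =>
    rw [sum_range_succ]
    refine (Noeth.add_le_exp P (ih fun i hi => hf i (by omega)) ((hf d (by omega)).trans
      (le_mul_of_one_le_left hM (Real.one_le_exp (mul_nonneg d.cast_nonneg P.ar_nonneg))))).trans
      (le_of_eq ?_)
    rw [← mul_assoc, ← Real.exp_add]
    push_cast
    ring_nf

theorem Noeth.aeval_mem {J K : Type} [Field K] {R : Subring K} {Ω : J → K} (h : ∀ j, Ω j ∈ R)
    (c : MvPolynomial J ℤ) : MvPolynomial.aeval Ω c ∈ R := by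
  induction c using MvPolynomial.induction_on with
  | C n => simp
  | add p q hp hq => rw [map_add]; exact R.add_mem hp hq
  | mul_X p j hp => rw [map_mul, MvPolynomial.aeval_X]; exact R.mul_mem hp (h j)

/-- Induction on `c` (`MvPolynomial.induction_on`). -/
theorem abv_aeval_le {J : Type} [Fintype J] (c : MvPolynomial J ℤ) : ∃ C : ℝ, 0 ≤ C ∧
    ∀ (K : Type) [Field K] (P : Pl K) (Ω : J → K),
      P.abv (MvPolynomial.aeval Ω c) ≤ Real.exp (C * (P.ar + ∑ j, Real.posLog (P.abv (Ω j)))) := by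
  have hS : ∀ {K : Type} [Field K] (P : Pl K) (Ω : J → K), 0 ≤ ∑ j, Real.posLog (P.abv (Ω j)) :=
    fun P Ω => sum_nonneg fun _ _ => Real.posLog_nonneg
  induction c using MvPolynomial.induction_on with
  | C n =>
    refine ⟨|(n : ℝ)|, abs_nonneg _, fun K _ P Ω => ?_⟩
    have h1 := P.int_le n
    have h2 := mul_nonneg (abs_nonneg (n : ℝ)) (hS P Ω)
    rw [MvPolynomial.aeval_C, algebraMap_int_eq, eq_intCast]
    refine h1.trans (le_trans ?_ (Real.add_one_le_exp _))
    rcases P.ar_cases with h | h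
    · rw [if_pos h, h]
      linarith
    · rw [if_neg (by rw [h]; norm_num), h]
      linarith
  | add p q hp hq =>
    obtain ⟨C1, h1, hp⟩ := hp
    obtain ⟨C2, h2, hq⟩ := hq
    refine ⟨C1 + C2 + 1, by positivity, fun K _ P Ω => ?_⟩
    have h3 := hS P Ω
    have h4 := P.ar_nonneg
    have h5 := mul_nonneg h1 (add_nonneg h4 h3)
    have h6 := mul_nonneg h2 (add_nonneg h4 h3)
    rw [map_add]
    refine (Noeth.add_le_exp P (M := Real.exp ((C1 + C2) * (P.ar + ∑ j, Real.posLog (P.abv (Ω j)))))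
      ((hp K P Ω).trans (Real.exp_le_exp.2 (by linarith)))
      ((hq K P Ω).trans (Real.exp_le_exp.2 (by linarith)))).trans ?_
    rw [← Real.exp_add]
    exact Real.exp_le_exp.2 (by linarith)
  | mul_X p j hp =>
    obtain ⟨C1, h1, hp⟩ := hp
    refine ⟨C1 + 1, by positivity, fun K _ P Ω => ?_⟩
    have h4 := P.ar_nonneg
    have h5 : Real.posLog (P.abv (Ω j)) ≤ ∑ j, Real.posLog (P.abv (Ω j)) :=
      single_le_sum (f := fun j => Real.posLog (P.abv (Ω j))) (fun _ _ => Real.posLog_nonneg)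
        (mem_univ j)
    rw [map_mul, MvPolynomial.aeval_X, map_mul]
    refine (mul_le_mul (hp K P Ω) (Noeth.le_exp_posLog _) (P.abv.nonneg _)
      (Real.exp_pos _).le).trans ?_
    rw [← Real.exp_add]
    exact Real.exp_le_exp.2 (by linarith)

/-- At each place `log⁺|u| + log|c_d| ≤ ar log (d+1) + log max |c_i|`; `pf` for `c_d(Ω) ∈ R`. -/
theorem ht_root {J : Type} [Fintype J] (Q : Polynomial (MvPolynomial J ℤ)) : ∃ C : ℝ, 0 < C ∧
    ∀ (K : Type) [Field K] (R : Subring K) (P : Places K R) (Ω : J → K) (u : K),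
      (∀ j, Ω j ∈ R) → Q.eval₂ (MvPolynomial.aeval Ω : MvPolynomial J ℤ →ₐ[ℤ] K).toRingHom u = 0 →
      MvPolynomial.aeval Ω Q.leadingCoeff ≠ 0 → ht P u ≤ C * (1 + ∑ j, ht P (Ω j)) := by
  choose C hC0 hC using fun i : ℕ => abv_aeval_le (Q.coeff i)
  set d := Q.natDegree with hd
  set D := ∑ i ∈ range (d + 1), C i with hD
  have hD0 : 0 ≤ D := sum_nonneg fun i _ => hC0 i
  refine ⟨D + d + 1, by positivity, fun K _ R P Ω u hΩ hu h0 => ?_⟩
  have loc : ∀ p : Pl K, Real.posLog (p.abv u) + Real.log (p.abv (MvPolynomial.aeval Ω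
      Q.leadingCoeff)) ≤ (D + d + 1) * (p.ar + ∑ j, Real.posLog (p.abv (Ω j))) := by
    intro p
    have h3 : 0 ≤ ∑ j, Real.posLog (p.abv (Ω j)) := sum_nonneg fun _ _ => Real.posLog_nonneg
    have h4 := p.ar_nonneg
    set T := p.ar + ∑ j, Real.posLog (p.abv (Ω j)) with hT
    have hT0 : 0 ≤ T := add_nonneg h4 h3
    have hdT : d * p.ar ≤ d * T := mul_le_mul_of_nonneg_left (by linarith) d.cast_nonneg
    have hd0 : 0 ≤ d * p.ar := mul_nonneg d.cast_nonneg h4
    have hc : ∀ i ≤ d, p.abv (MvPolynomial.aeval Ω (Q.coeff i)) ≤ Real.exp (D * T) := fun i hi =>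
      (hC i K p Ω).trans (Real.exp_le_exp.2 (mul_le_mul_of_nonneg_right
        (single_le_sum (f := C) (fun i _ => hC0 i) (mem_range.2 (by omega))) hT0))
    have hl := p.abv.pos h0
    rcases le_total (p.abv u) 1 with h1 | h1
    · rw [(Real.posLog_eq_zero_iff _).2 (by rwa [abs_of_nonneg (p.abv.nonneg u)])]
      have := (Real.log_le_iff_le_exp hl).2 (hc d le_rfl)
      linarith
    · have h2 : 0 < p.abv u := by linarith
      rw [Real.posLog_eq_log (by rwa [abs_of_pos h2]), ← Real.log_mul h2.ne' hl.ne',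
        Real.log_le_iff_le_exp (mul_pos h2 hl)]
      rw [Polynomial.eval₂_eq_sum_range, sum_range_succ, add_eq_zero_iff_neg_eq] at hu
      have h5 := Noeth.sum_le_exp p (f := fun i => MvPolynomial.aeval Ω (Q.coeff i) * u ^ (i + 1))
        (M := Real.exp (D * T) * p.abv u ^ d) (by positivity) d fun i hi => by
          rw [map_mul, map_pow]
          exact mul_le_mul (hc i hi.le) (pow_le_pow_right₀ h1 hi) (by positivity)
            (Real.exp_pos _).le
      have h6 : ∑ i ∈ range d, MvPolynomial.aeval Ω (Q.coeff i) * u ^ (i + 1) =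
          -(u * MvPolynomial.aeval Ω Q.leadingCoeff * u ^ d) := by
        have hu : -∑ i ∈ range d, MvPolynomial.aeval Ω (Q.coeff i) * u ^ i =
          MvPolynomial.aeval Ω Q.leadingCoeff * u ^ d := hu
        rw [mul_assoc, ← hu, mul_neg, neg_neg, mul_sum]
        exact sum_congr rfl fun i _ => by ring
      rw [h6, p.abv.map_neg, map_mul, map_mul, map_pow, ← mul_assoc, ← Real.exp_add] at h5
      exact (le_of_mul_le_mul_right h5 (by positivity)).trans (Real.exp_le_exp.2 (by linarith))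
  have h1 := P.pf _ (Noeth.aeval_mem hΩ Q.leadingCoeff) h0
  have h2 := sum_le_sum fun v (_ : v ∈ univ) =>
    mul_le_mul_of_nonneg_left (loc (P.pl v)) (P.N_nonneg v)
  have h3 : ∑ v, P.N v * ((D + d + 1) * ((P.pl v).ar + ∑ j, Real.posLog ((P.pl v).abv (Ω j)))) =
      (D + d + 1) * (1 + ∑ j, ht P (Ω j)) := by
    simp only [ht]
    rw [sum_comm, ← P.sum_ar, ← sum_add_distrib, mul_sum]
    exact sum_congr rfl fun v _ => by rw [← mul_sum]; ring
  rw [h3] at h2
  simp only [mul_add (P.N _), sum_add_distrib] at h2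
  rw [ht]
  linarith

end Crest.Agent.R33
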