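import Crest.Agent.PVc.R33.Defs
import Crest.Agent.PVc.R33.Place

-- ▼ part PVc/R33/Cut
section

/-! Planar distances are a mixture of cuts. -/

set_option autoImplicit false

open Finset
open scoped Classical

namespace Crest.Agent.R33

open MeasureTheory in
theorem cut_section {a b R : ℝ} (ha : |a| ≤ R) (hb : |b| ≤ R) :
    volume.restrict (Set.Icc (-R) R) {t : ℝ | decide (a ≤ t) ≠ decide (b ≤ t)} =
      ENNReal.ofReal |a - b| := by
  have e : {t : ℝ | decide (a ≤ t) ≠ decide (b ≤ t)} = Set.Ico (min a b) (max a b) := by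
    ext t
    simp only [Set.mem_ofPred_eq, ne_eq, decide_eq_decide, Set.mem_Ico, min_le_iff, ← not_le,
      max_le_iff]
    tauto
  rw [abs_le] at ha hb
  have hs : Set.Ico (min a b) (max a b) ⊆ Set.Icc (-R) R := fun t ht =>
    ⟨(le_min ha.1 hb.1).trans ht.1, ht.2.le.trans (max_le ha.2 hb.2)⟩
  rw [e, Measure.restrict_apply measurableSet_Ico, Set.inter_eq_left.2 hs, Real.volume_Ico,
    max_sub_min_eq_abs, abs_sub_comm]

theorem cut_cos (v : ℂ) :
    ∫ θ in (0 : ℝ)..2 * Real.pi, |v.re * Real.cos θ + v.im * Real.sin θ| =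
      (∫ θ in (0 : ℝ)..2 * Real.pi, |Real.cos θ|) * ‖v‖ := by
  have e : ∀ θ, |v.re * Real.cos θ + v.im * Real.sin θ| = |Real.cos (θ - v.arg)| * ‖v‖ := by
    intro θ
    rw [← abs_norm v, ← abs_mul, Real.cos_sub, ← Complex.norm_mul_cos_arg,
      ← Complex.norm_mul_sin_arg]
    congr 1; ring
  have hp : Function.Periodic (fun θ => |Real.cos θ|) (2 * Real.pi) := fun θ => by
    simp only [Real.cos_add_two_pi]
  simp only [e]
  rw [intervalIntegral.integral_mul_const,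
    intervalIntegral.integral_comp_sub_right (fun θ => |Real.cos θ|), zero_sub,
    show 2 * Real.pi - v.arg = -v.arg + 2 * Real.pi by ring, hp.intervalIntegral_add_eq _ 0,
    zero_add]

open MeasureTheory in
theorem cut_measure {β : Type} [Fintype β] [DecidableEq β] (z : β → ℂ) :
    ∃ w : (β → Bool) → ℝ, (∀ f, 0 ≤ w f) ∧ ∀ p q, (∑ f, if f p ≠ f q then w f else 0) =
      (∫ θ in (0 : ℝ)..2 * Real.pi, |Real.cos θ|) * ‖z p - z q‖ := by
  set a : β → ℝ → ℝ := fun p θ => (z p).re * Real.cos θ + (z p).im * Real.sin θ with ha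
  set R : ℝ := ∑ p, 2 * ‖z p‖ with hR
  have hb : ∀ p θ, |a p θ| ≤ R := fun p θ => by
    refine le_trans ?_ (single_le_sum (f := fun p => 2 * ‖z p‖) (fun _ _ => by positivity)
      (mem_univ p))
    refine (abs_add_le _ _).trans ?_
    rw [abs_mul, abs_mul]
    have h1 := mul_le_mul (Complex.abs_re_le_norm (z p)) (Real.abs_cos_le_one θ) (abs_nonneg _)
      (norm_nonneg _)
    have h2 := mul_le_mul (Complex.abs_im_le_norm (z p)) (Real.abs_sin_le_one θ) (abs_nonneg _)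
      (norm_nonneg _)
    linarith
  set μ : Measure (ℝ × ℝ) :=
    (volume.restrict (Set.Ioc 0 (2 * Real.pi))).prod (volume.restrict (Set.Icc (-R) R)) with hμ
  set F : ℝ × ℝ → β → Bool := fun x p => decide (a p x.1 ≤ x.2) with hF
  have mF : Measurable F := by
    refine measurable_pi_lambda _ fun p => measurable_to_bool ?_
    have : (fun x => F x p) ⁻¹' {true} = {x : ℝ × ℝ | a p x.1 ≤ x.2} := by ext x; simp [hF]
    rw [this]
    exact (isClosed_le (by fun_prop) continuous_snd).measurableSet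
  refine ⟨fun f => μ.real (F ⁻¹' {f}), fun f => measureReal_nonneg, fun p q => ?_⟩
  rw [← sum_filter, sum_measureReal_preimage_singleton _ fun f _ => mF (measurableSet_singleton f),
    ← cut_cos, intervalIntegral.integral_of_le (by positivity), Measure.real, hμ,
    Measure.prod_apply (mF (Finset.measurableSet _)),
    integral_eq_lintegral_of_nonneg_ae (ae_of_all _ fun _ => abs_nonneg _)
      (Continuous.aestronglyMeasurable (by fun_prop))]
  congr 1
  refine lintegral_congr fun θ => ?_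
  have e : ((z p - z q).re * Real.cos θ + (z p - z q).im * Real.sin θ) = a p θ - a q θ := by
    simp only [ha, Complex.sub_re, Complex.sub_im]; ring
  rw [e, ← cut_section (hb p θ) (hb q θ)]
  congr 1
  ext t
  simp [hF]

/-- Random cut `p ↦ decide (re (e^{-iθ} z p) ≤ t)`, `θ` and `t` uniform, mixed with the trivial
cut.  Hint: the set of vectors `(p,q) ↦ ∑ f, if f p ≠ f q then w f else 0` (`w` in the standard
simplex) is compact and convex, so it contains averages (`Convex.set_average_mem`), first over `t`,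
then over `θ`; `∫ |cos (θ - φ)|` does not depend on `φ`. -/
theorem exists_cut {β : Type} [Fintype β] [DecidableEq β] (z : β → ℂ) :
    ∃ c₀ > 0, ∀ c : ℝ, 0 ≤ c → c ≤ c₀ → ∃ w : (β → Bool) → ℝ, (∀ f, 0 ≤ w f) ∧ ∑ f, w f = 1 ∧
      ∀ p q, (∑ f, if f p ≠ f q then w f else 0) = c * ‖z p - z q‖ := by
  obtain ⟨w, h0, h⟩ := cut_measure z
  have hκ : 0 < ∫ θ in (0 : ℝ)..2 * Real.pi, |Real.cos θ| :=
    intervalIntegral.integral_pos (by positivity) (Continuous.continuousOn (by fun_prop))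
      (fun _ _ => abs_nonneg _) ⟨0, ⟨le_rfl, by positivity⟩, by simp⟩
  set κ := ∫ θ in (0 : ℝ)..2 * Real.pi, |Real.cos θ|
  have hm : 0 ≤ ∑ f, w f := sum_nonneg fun f _ => h0 f
  refine ⟨κ / (∑ f, w f + 1), by positivity, fun c hc hc' =>
    ⟨fun f => c / κ * w f + if f = fun _ => true then 1 - c / κ * ∑ f, w f else 0,
      fun f => ?_, ?_, fun p q => ?_⟩⟩
  · have h1 := h0 f
    refine add_nonneg (by positivity) ?_
    split_ifs
    · rw [le_div_iff₀ (by positivity)] at hc'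
      rw [sub_nonneg, div_mul_eq_mul_div, div_le_one hκ]
      nlinarith
    · exact le_rfl
  · rw [sum_add_distrib, ← mul_sum]; simp
  · have e : c * ‖z p - z q‖ = c / κ * (κ * ‖z p - z q‖) := by field_simp
    rw [e, ← h p q, mul_sum univ (fun f : β → Bool => if f p ≠ f q then w f else 0)]
    refine Finset.sum_congr rfl (fun f _ => ?_)
    split_ifs with h1
    · have h2 : f ≠ fun _ => true := by rintro rfl; exact h1 rfl
      simp [h2]
    · simp

end Crest.Agent.R33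
end

-- ▼ part PVc/R33/RUArch

/-! Random ultrametrics at an archimedean place. -/

set_option autoImplicit false

open Finset
open scoped Classical

namespace Crest.Agent.R33

variable {K : Type} [Field K] {α : Type} [DecidableEq α]

namespace RUA

/-- Indicator of a proposition. -/
noncomputable def ind (P : Prop) : ℝ := if P then 1 else 0

theorem ind_nonneg (P : Prop) : 0 ≤ ind P := by unfold ind; split_ifs <;> norm_num
theorem ind_le_one (P : Prop) : ind P ≤ 1 := by unfold ind; split_ifs <;> norm_num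
theorem ind_and (P Q : Prop) : ind (P ∧ Q) = ind P * ind Q := by
  unfold ind; by_cases hP : P <;> by_cases hQ : Q <;> simp [hP, hQ]
theorem ind_mono {P Q : Prop} (h : P → Q) : ind P ≤ ind Q := by
  unfold ind; by_cases hP : P
  · simp [hP, h hP]
  · simp only [hP, if_false]; split_ifs <;> norm_num
theorem ind_mul_of_imp {P Q : Prop} (h : P → Q) : ind P * ind Q = ind P := by
  rw [← ind_and]; congr 1; exact propext ⟨fun h' => h'.1, fun h' => ⟨h', h h'⟩⟩

theorem min_sum {a b : ℕ → Prop} (ha : ∀ j k, j ≤ k → a k → a j) (hb : ∀ j k, j ≤ k → b k → b j)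
    (C : ℝ) (n : ℕ) {r : ℕ → ℝ} (hr : ∀ k, 0 ≤ r k) :
    min (C + ∑ k ∈ range n, ind (a k) * r k) (C + ∑ k ∈ range n, ind (b k) * r k) =
      C + ∑ k ∈ range n, ind (a k) * ind (b k) * r k := by
  by_cases h : ∀ k, a k → b k
  · rw [min_eq_left (by gcongr with k; exacts [hr k, ind_mono (h k)])]
    simp only [ind_mul_of_imp (h _)]
  · push Not at h
    obtain ⟨k, h1, h2⟩ := h
    have h3 : ∀ j, b j → a j := fun j hj =>
      ha j k (le_of_not_gt fun hkj => h2 (hb k j hkj.le hj)) h1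
    rw [min_eq_right (by gcongr with j; exacts [hr j, ind_mono (h3 j)])]
    simp only [mul_comm (ind (a _)), ind_mul_of_imp (h3 _)]

theorem prob_prefix {γ : Type} [Fintype γ] (w : γ → ℝ) (hw : ∑ f, w f = 1) (P : γ → Prop)
    {n k : ℕ} (hk : k < n) :
    ∑ ω : Fin n → γ, (∏ i, w (ω i)) * ind (∀ i : Fin n, (i : ℕ) ≤ k → P (ω i)) =
      (∑ f, w f * ind (P f)) ^ (k + 1) := by
  have h1 : ∀ ω : Fin n → γ, (∏ i, w (ω i)) * ind (∀ i : Fin n, (i : ℕ) ≤ k → P (ω i)) =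
      ∏ i : Fin n, w (ω i) * if (i : ℕ) ≤ k then ind (P (ω i)) else 1 := by
    intro ω
    rw [prod_mul_distrib]
    congr 1
    by_cases h : ∀ i : Fin n, (i : ℕ) ≤ k → P (ω i)
    · rw [ind, if_pos h]
      refine (prod_eq_one fun i _ => ?_).symm
      split_ifs with hi
      · rw [ind, if_pos (h i hi)]
      · rfl
    · rw [ind, if_neg h]
      push Not at h
      obtain ⟨i, hi, h2⟩ := h
      exact (prod_eq_zero (mem_univ i) (by rw [if_pos hi, ind, if_neg h2])).symm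
  have h2 := prod_univ_sum (fun _ : Fin n => (univ : Finset γ))
    fun (i : Fin n) f => w f * if (i : ℕ) ≤ k then ind (P f) else 1
  rw [Fintype.piFinset_univ] at h2
  rw [sum_congr rfl fun ω _ => h1 ω, ← h2]
  have h3 : ∀ i : Fin n, (∑ f, w f * if (i : ℕ) ≤ k then ind (P f) else 1) =
      if (i : ℕ) ≤ k then ∑ f, w f * ind (P f) else 1 := by
    intro i
    split_ifs
    · rfl
    · simpa using hw
  rw [prod_congr rfl fun i _ => h3 i, ← prod_filter, prod_const]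
  congr 1
  simp only [← Nat.lt_succ_iff]
  rw [Fin.card_filter_val_lt]
  omega

theorem prod_sum_one {γ : Type} [Fintype γ] (w : γ → ℝ) (hw : ∑ f, w f = 1) (n : ℕ) :
    ∑ ω : Fin n → γ, ∏ i, w (ω i) = 1 := by
  have h2 := prod_univ_sum (fun _ : Fin n => (univ : Finset γ)) fun _ f => w f
  rw [Fintype.piFinset_univ] at h2
  rw [← h2]
  simp [hw]

theorem harm_le {t : ℝ} (ht : 0 ≤ t) (n : ℕ) :
    ∑ k ∈ range n, (if (k : ℝ) + 1 ≤ Real.exp (t - 1) then 1 / ((k : ℝ) + 1) else 0) ≤ t := by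
  rw [← sum_filter]
  have h1 : (range n).filter (fun k : ℕ => (k : ℝ) + 1 ≤ Real.exp (t - 1)) ⊆
      range ⌊Real.exp (t - 1)⌋₊ := fun k hk =>
    mem_range.2 (Nat.le_floor (by push_cast; exact (mem_filter.1 hk).2))
  refine (sum_le_sum_of_subset_of_nonneg h1 fun _ _ _ => by positivity).trans ?_
  by_cases h : 1 ≤ Real.exp (t - 1)
  · have h2 := harmonic_floor_le_one_add_log _ h
    rw [Real.log_exp, harmonic] at h2
    push_cast at h2
    simp only [one_div]
    linarith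
  · rw [Nat.floor_eq_zero.2 (not_le.1 h)]
    simpa using ht

theorem tail_pt {t : ℝ} (ht : 0 ≤ t) (n : ℕ) (u : ℕ → Prop) :
    max (∑ k ∈ range n, ind (u k) * (1 / ((k : ℝ) + 1)) - t) 0 ≤
      ∑ k ∈ range n, ind (u k) * Real.exp (1 - t) := by
  refine max_le ?_ (sum_nonneg fun k _ => mul_nonneg (ind_nonneg _) (Real.exp_pos _).le)
  have h1 : ∑ k ∈ range n, ind (u k) * (1 / ((k : ℝ) + 1)) ≤
      ∑ k ∈ range n, ((if (k : ℝ) + 1 ≤ Real.exp (t - 1) then 1 / ((k : ℝ) + 1) else 0) +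
        ind (u k) * Real.exp (1 - t)) := by
    refine sum_le_sum fun k _ => ?_
    have h2 := ind_nonneg (u k)
    have h3 := ind_le_one (u k)
    split_ifs with h
    · have h4 : 0 ≤ ind (u k) * Real.exp (1 - t) := by positivity
      have h5 : ind (u k) * (1 / ((k : ℝ) + 1)) ≤ 1 / ((k : ℝ) + 1) :=
        mul_le_of_le_one_left (by positivity) h3
      linarith
    · rw [zero_add]
      refine mul_le_mul_of_nonneg_left ?_ h2
      rw [← neg_sub, Real.exp_neg, one_div]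
      exact inv_anti₀ (Real.exp_pos _) (not_le.1 h).le
  rw [sum_add_distrib] at h1
  linarith [harm_le ht n]

theorem geom_le {π : ℝ} (h0 : 0 < π) (h1 : π ≤ 1) (n : ℕ) :
    ∑ k ∈ range n, (1 - π) ^ (k + 1) ≤ π⁻¹ := by
  have h2 := mul_neg_geom_sum (1 - π) n
  rw [sub_sub_cancel] at h2
  have h3 : 0 ≤ (1 - π) ^ n := pow_nonneg (by linarith) n
  calc _ ≤ ∑ k ∈ range n, (1 - π) ^ k :=
        sum_le_sum fun k _ => pow_le_pow_of_le_one (by linarith) (by linarith) (Nat.le_succ k)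
    _ ≤ π⁻¹ := by
        rw [← one_div, le_div_iff₀ h0]
        linarith

section prob
variable {Ω : Type} [Fintype Ω] {W : Ω → ℝ}

theorem sum_swap (n : ℕ) (A : Ω → ℕ → Prop) (r : ℕ → ℝ) :
    ∑ ω, W ω * ∑ k ∈ range n, ind (A ω k) * r k =
      ∑ k ∈ range n, (∑ ω, W ω * ind (A ω k)) * r k := by
  simp only [mul_sum, sum_mul, mul_assoc]
  exact sum_comm

theorem tail_bound (hW : ∀ ω, 0 ≤ W ω) {n : ℕ} {A : Ω → ℕ → Prop} {π : ℝ} (h0 : 0 < π)
    (h1 : π ≤ 1) (hA : ∀ k < n, ∑ ω, W ω * ind (A ω k) = (1 - π) ^ (k + 1)) {L : ℝ} (hL : 0 ≤ L) :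
    ∑ ω, W ω * max (∑ k ∈ range n, ind (A ω k) * (1 / ((k : ℝ) + 1)) - (L - Real.log π)) 0 ≤
      Real.exp (1 - L) := by
  have ht : 0 ≤ L - Real.log π := by linarith [Real.log_nonpos h0.le h1]
  refine (sum_le_sum fun ω _ => mul_le_mul_of_nonneg_left (tail_pt ht n (A ω)) (hW ω)).trans ?_
  rw [sum_swap, sum_congr rfl fun k hk => by rw [hA k (mem_range.1 hk)], ← sum_mul,
    show 1 - (L - Real.log π) = Real.log π + (1 - L) by ring, Real.exp_add, Real.exp_log h0,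
    ← mul_assoc]
  refine mul_le_of_le_one_left (Real.exp_pos _).le ?_
  have := geom_le h0 h1 n
  rwa [← one_div, le_div_iff₀ h0] at this

theorem jensen (hW : ∀ ω, 0 ≤ W ω) (hW1 : ∑ ω, W ω = 1) (Y : Ω → ℝ) :
    (∑ ω, W ω * Y ω) ^ 2 ≤ ∑ ω, W ω * Y ω ^ 2 := by
  obtain ⟨m, hm⟩ : ∃ m, m = ∑ ω, W ω * Y ω := ⟨_, rfl⟩
  have h1 : ∑ ω, W ω * (2 * m * Y ω - m ^ 2) ≤ ∑ ω, W ω * Y ω ^ 2 :=
    sum_le_sum fun ω _ => mul_le_mul_of_nonneg_left (by nlinarith [sq_nonneg (Y ω - m)]) (hW ω)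
  have h2 : ∑ ω, W ω * (2 * m * Y ω - m ^ 2) = 2 * m * (∑ ω, W ω * Y ω) - (∑ ω, W ω) * m ^ 2 := by
    rw [mul_sum, sum_mul, ← sum_sub_distrib]
    exact sum_congr rfl fun ω _ => by ring
  rw [h2, hW1, ← hm] at h1
  rw [← hm]
  linarith

omit [DecidableEq α] in
theorem energy_bound (hW : ∀ ω, 0 ≤ W ω) (hW1 : ∑ ω, W ω = 1) {n : ℕ} {S : Finset α}
    {A : α → Ω → ℕ → Prop} {x : α → ℝ}
    (hA : ∀ q ∈ S, ∀ k < n, ∑ ω, W ω * ind (A q ω k) = x q ^ (k + 1)) (σ : α → ℝ) :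
    ∑ q ∈ S, ∑ q' ∈ S, σ q * σ q' * ∑ k ∈ range n, (x q * x q') ^ (k + 1) / ((k : ℝ) + 1) ≤
      ∑ ω, W ω * ∑ q ∈ S, ∑ q' ∈ S, σ q * σ q' *
        ∑ k ∈ range n, ind (A q ω k) * ind (A q' ω k) * (1 / ((k : ℝ) + 1)) := by
  have key : ∀ y : α → ℕ → ℝ, ∑ q ∈ S, ∑ q' ∈ S, σ q * σ q' *
      ∑ k ∈ range n, y q k * y q' k * (1 / ((k : ℝ) + 1)) =
      ∑ k ∈ range n, (∑ q ∈ S, σ q * y q k) ^ 2 * (1 / ((k : ℝ) + 1)) := by
    intro y
    simp only [sq, sum_mul, mul_sum]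
    rw [sum_comm (s := range n)]
    refine sum_congr rfl fun q _ => ?_
    rw [sum_comm (s := range n)]
    exact sum_congr rfl fun q' _ => sum_congr rfl fun k _ => by ring
  have h1 := key fun q k => x q ^ (k + 1)
  simp only [← mul_pow, mul_one_div] at h1
  rw [h1]
  simp only [key fun q k => ind (A q _ k)]
  simp only [mul_sum (range n), ← mul_assoc]
  rw [sum_comm]
  refine sum_le_sum fun k hk => ?_
  rw [← sum_mul, ← mul_one_div]
  refine mul_le_mul_of_nonneg_right ?_ (by positivity)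
  refine le_of_eq_of_le ?_ (jensen hW hW1 _)
  congr 1
  simp only [mul_sum S]
  rw [sum_comm]
  refine sum_congr rfl fun q hq => ?_
  rw [← hA q hq k (mem_range.1 hk), mul_sum]
  exact sum_congr rfl fun ω _ => by ring

end prob

theorem eventually_log {x η : ℝ} (h0 : 0 ≤ x) (h1 : x < 1) (hη : 0 < η) :
    ∀ᶠ n in Filter.atTop,
      |∑ k ∈ range n, x ^ (k + 1) / ((k : ℝ) + 1) + Real.log (1 - x)| ≤ η := by
  have h := (Real.hasSum_pow_div_log_of_abs_lt_one
    (x := x) (by rwa [abs_of_nonneg h0])).tendsto_sum_nat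
  filter_upwards [Metric.tendsto_nhds.1 h η hη] with n hn
  rw [Real.dist_eq, sub_neg_eq_add] at hn
  exact hn.le

theorem log_close {π π' δ : ℝ} (h0 : 0 < π) (h0' : 0 < π') (h1 : π ≤ δ) (hδ : δ ≤ 1 / 2) :
    |Real.log (1 - (1 - π) * (1 - π')) - Real.log (π + π')| ≤ 2 * δ := by
  have hs : 0 < π + π' := by linarith
  have h2 : 1 - (1 - π) * (1 - π') = (π + π') * (1 - π * π' / (π + π')) := by
    field_simp; ring
  have h3 : π * π' / (π + π') ≤ δ := by
    rw [div_le_iff₀ hs]; nlinarith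
  have h4 : 0 ≤ π * π' / (π + π') := by positivity
  generalize π * π' / (π + π') = y at h2 h3 h4
  have h5 : 0 < 1 - y := by linarith
  rw [h2, Real.log_mul hs.ne' h5.ne', add_sub_cancel_left,
    abs_of_nonpos (Real.log_nonpos h5.le (by linarith))]
  have h6 := Real.one_sub_inv_le_log_of_pos h5
  have h7 : (1 - y)⁻¹ ≤ 1 + 2 * y := by
    rw [← one_div, div_le_iff₀ h5]; nlinarith
  linarith

theorem log_add_eq {d d' : ℝ} (h : 0 < d) (h' : 0 < d') :
    -Real.log (d + d') = (-Real.log d + -Real.log d') / 2 - psi 1 (-Real.log d - -Real.log d') := by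
  obtain ⟨a, rfl⟩ : ∃ a, d = Real.exp a := ⟨_, (Real.exp_log h).symm⟩
  obtain ⟨b, rfl⟩ : ∃ b, d' = Real.exp b := ⟨_, (Real.exp_log h').symm⟩
  have h1 : Real.exp a + Real.exp b =
      Real.exp ((a + b) / 2) * (2 * Real.cosh ((-a - -b) / 2)) := by
    rw [Real.cosh_eq, mul_div_cancel₀ _ two_ne_zero, mul_add, ← Real.exp_add, ← Real.exp_add,
      add_comm]
    congr 2 <;> ring
  rw [psi, if_neg one_ne_zero, Real.log_exp, Real.log_exp, h1,
    Real.log_mul (Real.exp_pos _).ne' (by positivity), Real.log_exp]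
  ring

omit [DecidableEq α] in
theorem quad_close {S : Finset α} {σ : α → ℝ} (hσ : ∑ q ∈ S, |σ q| ≤ 2) {F G : α → α → ℝ} {η : ℝ}
    (hη : 0 ≤ η) (h : ∀ q ∈ S, ∀ q' ∈ S, |F q q' - G q q'| ≤ η) :
    ∑ q ∈ S, ∑ q' ∈ S, σ q * σ q' * G q q' - 4 * η ≤ ∑ q ∈ S, ∑ q' ∈ S, σ q * σ q' * F q q' := by
  have h1 : ∑ q ∈ S, ∑ q' ∈ S, σ q * σ q' * G q q' ≤
      ∑ q ∈ S, ∑ q' ∈ S, (σ q * σ q' * F q q' + |σ q| * |σ q'| * η) := by
    refine sum_le_sum fun q hq => sum_le_sum fun q' hq' => ?_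
    have h2 : |σ q * σ q' * (F q q' - G q q')| ≤ |σ q| * |σ q'| * η := by
      rw [abs_mul, abs_mul]
      exact mul_le_mul_of_nonneg_left (h q hq q' hq') (by positivity)
    linarith [(abs_le.1 h2).1]
  simp only [sum_add_distrib, ← sum_mul, ← mul_sum] at h1
  have h3 : 0 ≤ ∑ q ∈ S, |σ q| := sum_nonneg fun _ _ => abs_nonneg _
  have h4 : (∑ q ∈ S, |σ q|) * (∑ q ∈ S, |σ q|) ≤ 2 * 2 := mul_le_mul hσ hσ h3 (by norm_num)
  nlinarith

omit [DecidableEq α] in
theorem quad_zero {S : Finset α} {σ : α → ℝ} (hσ : ∑ q ∈ S, σ q = 0) (a : α → ℝ) (C : ℝ) :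
    ∑ q ∈ S, ∑ q' ∈ S, σ q * σ q' * ((a q + a q') / 2 + C) = 0 := by
  have h : ∀ q q', σ q * σ q' * ((a q + a q') / 2 + C) =
      σ q * (a q / 2 + C) * σ q' + σ q * (σ q' * a q' / 2) := fun q q' => by ring
  simp only [h, sum_add_distrib, ← mul_sum, ← sum_mul, hσ]
  simp

/-- The construction from an abstract family of cuts. -/
theorem exists_of_cuts {γ : Type} [Fintype γ] (w : γ → ℝ) (hw0 : ∀ f, 0 ≤ w f)
    (hw : ∑ f, w f = 1) (e : γ → α → Bool) (U : Finset α) (d : α → α → ℝ) {c ε : ℝ} (hc : 0 < c)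
    (hε : 0 < ε) (hd : ∀ p ∈ U, ∀ q ∈ U, p ≠ q → 0 < d p q)
    (hδ : ∀ p ∈ U, ∀ q ∈ U, p ≠ q → c * d p q ≤ min (1 / 2) (ε / 16))
    (he : ∀ p ∈ U, ∀ q ∈ U, p ≠ q → ∑ f, w f * ind (e f p = e f q) = 1 - c * d p q) :
    Nonempty (RU U (fun p q => -Real.log (d p q)) 1 ε) := by
  have hπ : ∀ p ∈ U, ∀ q ∈ U, p ≠ q → 0 < c * d p q ∧ c * d p q ≤ 1 / 2 := fun p hp q hq h =>
    ⟨mul_pos hc (hd p hp q hq h), (hδ p hp q hq h).trans (min_le_left _ _)⟩
  have hη : 0 < min 1 (ε / 8) := lt_min one_pos (by positivity)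
  obtain ⟨n, hn1, hn2⟩ : ∃ n : ℕ, (∀ p ∈ U, ∀ q ∈ U.erase p,
      |∑ k ∈ range n, (1 - c * d p q) ^ (k + 1) / ((k : ℝ) + 1) +
        Real.log (1 - (1 - c * d p q))| ≤ min 1 (ε / 8)) ∧ ∀ p ∈ U, ∀ q ∈ U.erase p,
      ∀ q' ∈ U.erase p,
      |∑ k ∈ range n, ((1 - c * d p q) * (1 - c * d p q')) ^ (k + 1) / ((k : ℝ) + 1) +
        Real.log (1 - (1 - c * d p q) * (1 - c * d p q'))| ≤ min 1 (ε / 8) := by
    refine Filter.Eventually.exists (f := Filter.atTop) (Filter.Eventually.and ?_ ?_)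
    · simp only [Filter.eventually_all_finset]
      intro p hp q hq
      obtain ⟨h1, h2⟩ := hπ p hp q (mem_erase.1 hq).2 (mem_erase.1 hq).1.symm
      exact eventually_log (by linarith) (by linarith) hη
    · simp only [Filter.eventually_all_finset]
      intro p hp q hq q' hq'
      obtain ⟨h1, h2⟩ := hπ p hp q (mem_erase.1 hq).2 (mem_erase.1 hq).1.symm
      obtain ⟨h3, h4⟩ := hπ p hp q' (mem_erase.1 hq').2 (mem_erase.1 hq').1.symm
      exact eventually_log (mul_nonneg (by linarith) (by linarith)) (by nlinarith) hη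
  set A : α → α → (Fin n → γ) → ℕ → Prop :=
    fun p q ω k => ∀ i : Fin n, (i : ℕ) ≤ k → e (ω i) p = e (ω i) q with hAdef
  have hanti : ∀ p q ω j k, j ≤ k → A p q ω k → A p q ω j :=
    fun p q ω j k hjk h i hi => h i (hi.trans hjk)
  set W : (Fin n → γ) → ℝ := fun ω => ∏ i, w (ω i) with hWdef
  have hW0 : ∀ ω, 0 ≤ W ω := fun ω => prod_nonneg fun i _ => hw0 _
  have hW1 : ∑ ω, W ω = 1 := prod_sum_one w hw n
  have hA : ∀ p ∈ U, ∀ q ∈ U, p ≠ q → ∀ k < n,
      ∑ ω, W ω * ind (A p q ω k) = (1 - c * d p q) ^ (k + 1) := fun p hp q hq h k hk => by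
    rw [← he p hp q hq h]
    exact prob_prefix w hw (fun f => e f p = e f q) hk
  have hsymm : ∀ p q ω k, A p q ω k = A q p ω k := fun p q ω k =>
    propext ⟨fun h i hi => (h i hi).symm, fun h i hi => (h i hi).symm⟩
  have hr : ∀ k : ℕ, 0 ≤ 1 / ((k : ℝ) + 1) := fun k => by positivity
  set ℓ : (Fin n → γ) → α → α → ℝ :=
    fun ω p q => Real.log c + ∑ k ∈ range n, ind (A p q ω k) * (1 / ((k : ℝ) + 1)) with hℓ
  have hmean : ∀ p ∈ U, ∀ q ∈ U, p ≠ q →
      |∑ ω, W ω * ℓ ω p q - -Real.log (d p q)| ≤ min 1 (ε / 8) := fun p hp q hq h => by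
    have h1 := hn1 p hp q (mem_erase.2 ⟨h.symm, hq⟩)
    rw [sub_sub_cancel, Real.log_mul hc.ne' (hd p hp q hq h).ne'] at h1
    simp only [hℓ, mul_add, sum_add_distrib, ← sum_mul, hW1]
    rw [sum_swap, sum_congr rfl fun k hk => by rw [hA p hp q hq h k (mem_range.1 hk), mul_one_div]]
    convert h1 using 2
    ring
  have htail : ∀ p ∈ U, ∀ q ∈ U, p ≠ q → ∀ L : ℝ, 0 ≤ L →
      ∑ ω, W ω * max (ℓ ω p q - -Real.log (d p q) - L) 0 ≤ Real.exp (1 - L) :=
    fun p hp q hq h L hL => by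
    obtain ⟨h1, h2⟩ := hπ p hp q hq h
    have h3 := tail_bound hW0 h1 (by linarith) (hA p hp q hq h) hL
    rw [Real.log_mul hc.ne' (hd p hp q hq h).ne'] at h3
    convert h3 using 4
    simp only [hℓ]
    ring
  refine ⟨⟨Fin n → γ, inferInstance, W, ℓ, hW0, hW1, fun ω p q => ?_, fun ω p _ q _ r _ => ?_,
    fun p hp q hq h => ?_, fun p hp q hq h => ?_, fun p hp q hq h L hL => ?_,
    fun p hp σ hσ0 hσ => ?_⟩⟩
  · simp only [hℓ, hsymm p q]
  · simp only [hℓ]
    rw [min_sum (hanti p q ω) (hanti q r ω) _ n hr]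
    gcongr with k
    rw [← ind_and]
    exact ind_mono fun h i hi => (h.1 i hi).trans (h.2 i hi)
  · refine (hmean p hp q hq h).trans ((min_le_right _ _).trans ?_)
    linarith
  · have h1 := (abs_le.1 ((hmean p hp q hq h).trans (min_le_left _ _))).1
    have h2 := htail p hp q hq h 0 le_rfl
    have h3 : ∀ y : ℝ, |y| = 2 * max y 0 - y := fun y => by
      rcases le_total 0 y with hy | hy
      · rw [abs_of_nonneg hy, max_eq_left hy]; ring
      · rw [abs_of_nonpos hy, max_eq_right hy]; ring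
    have h4 : ∑ ω, W ω * |ℓ ω p q - -Real.log (d p q)| =
        2 * ∑ ω, W ω * max (ℓ ω p q - -Real.log (d p q) - 0) 0 -
          (∑ ω, W ω * ℓ ω p q - (∑ ω, W ω) * -Real.log (d p q)) := by
      rw [mul_sum, sum_mul, ← sum_sub_distrib, ← sum_sub_distrib]
      exact sum_congr rfl fun ω _ => by rw [h3, sub_zero]; ring
    rw [h4, hW1]
    rw [sub_zero (1 : ℝ)] at h2
    linarith [Real.exp_one_lt_d9]
  · simpa only [mul_one] using htail p hp q hq h L hL
  · have hS : ∀ q ∈ U.erase p, q ∈ U ∧ p ≠ q := fun q hq =>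
      ⟨(mem_erase.1 hq).2, (mem_erase.1 hq).1.symm⟩
    have h1 := energy_bound hW0 hW1 (A := A p) (x := fun q => 1 - c * d p q)
      (fun q hq => hA p hp q (hS q hq).1 (hS q hq).2) σ
    have h2 : ∀ ω, ∑ q ∈ U.erase p, ∑ q' ∈ U.erase p, σ q * σ q' * min (ℓ ω p q) (ℓ ω p q') =
        ∑ q ∈ U.erase p, ∑ q' ∈ U.erase p, σ q * σ q' *
          ∑ k ∈ range n, ind (A p q ω k) * ind (A p q' ω k) * (1 / ((k : ℝ) + 1)) := by
      intro ω
      have h3 := quad_zero hσ0 (fun _ => 0) (Real.log c)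
      simp only [add_zero, zero_div, zero_add] at h3
      simp only [hℓ, min_sum (hanti p _ ω) (hanti p _ ω) _ n hr, mul_add, sum_add_distrib, h3,
        zero_add]
    simp only [h2]
    refine le_trans ?_ h1
    have h4 := quad_close hσ (η := ε / 4)
      (F := fun q q' =>
        ∑ k ∈ range n, ((1 - c * d p q) * (1 - c * d p q')) ^ (k + 1) / ((k : ℝ) + 1))
      (G := fun q q' => -Real.log (c * d p q + c * d p q')) (by positivity) fun q hq q' hq' => by
        have h5 := abs_le.1 ((hn2 p hp q hq q' hq').trans (min_le_right _ _))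
        have h6 := abs_le.1 (log_close (hπ p hp q (hS q hq).1 (hS q hq).2).1
          (hπ p hp q' (hS q' hq').1 (hS q' hq').2).1 (hδ p hp q (hS q hq).1 (hS q hq).2)
          (min_le_left _ _))
        have h7 := min_le_right (1 / 2) (ε / 16)
        rw [abs_le]
        constructor <;> linarith [h5.1, h5.2, h6.1, h6.2]
    refine le_trans (le_of_eq ?_) h4
    have h8 := quad_zero hσ0 (fun q => -Real.log (d p q)) (-Real.log c)
    have h9 : ∑ q ∈ U.erase p, ∑ q' ∈ U.erase p, σ q * σ q' * -Real.log (c * d p q + c * d p q') =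
        ∑ q ∈ U.erase p, ∑ q' ∈ U.erase p,
          (σ q * σ q' * ((-Real.log (d p q) + -Real.log (d p q')) / 2 + -Real.log c) -
            σ q * σ q' * psi 1 (-Real.log (d p q) - -Real.log (d p q'))) := by
      refine sum_congr rfl fun q hq => sum_congr rfl fun q' hq' => ?_
      have h10 := hd p hp q (hS q hq).1 (hS q hq).2
      have h11 := hd p hp q' (hS q' hq').1 (hS q' hq').2
      rw [← mul_add c, Real.log_mul hc.ne' (by positivity), neg_add, log_add_eq h10 h11]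
      ring
    rw [h9]
    simp only [sum_sub_distrib, h8, En]
    ring

end RUA

/-- Archimedean place.  `Ω = Fin n → (U → Bool)` with product weights from `exists_cut`
(separation probability `π = c ‖z p - z q‖ ≤ min (1/2) (ε/32)`),
`ℓ ω p q = log c + ∑ k < n, if (∀ i ≤ k, ω i p = ω i q) then 1/(k+1) else 0`.
* mean: `∑ (1-π)^(k+1)/(k+1) → -log π` (`Real.hasSum_pow_div_log_of_abs_lt_one`), `n` large.
* tail: `(H - t)⁺ ≤ ∑_{k : H_k > t} 1/k`, `H_k ≤ 1 + log k`, so the mean of `(H + log π - L)⁺` is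
  at most `(1/k₀) ∑ (1-π)^k = e^{1-L}` with `k₀ = e^{L-1}/π`.  dev follows from mean and tail.
* energy: at level `k`, `∑ σσ' 1[p~q] 1[p~q'] = σ(B)^2`, Jensen gives `≥ (∑ σ (1-π)^k)^2`; the sum
  over `k` tends to `∑ σσ' (-log (π + π' - π π'))`, which is within `8 max π` of
  `∑ σσ' (-log (π + π'))`, and `-log (e^{-a} + e^{-a'}) = (a + a')/2 - psi 1 (a - a')`. -/
theorem exists_RU_arch (z : α → ℂ) (U : Finset α) (hz : ∀ p ∈ U, ∀ q ∈ U, p ≠ q → z p ≠ z q)
    (ε : ℝ) (hε : 0 < ε) : Nonempty (RU U (fun p q => -Real.log ‖z p - z q‖) 1 ε) := by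
  obtain ⟨c₀, hc₀, H⟩ := exists_cut (fun p : U => z p)
  have hδ : 0 < min (1 / 2 : ℝ) (ε / 16) := lt_min (by norm_num) (by positivity)
  set M : ℝ := 1 + ∑ p ∈ U, ∑ q ∈ U, ‖z p - z q‖ with hM
  have hM1 : ∀ p ∈ U, ∀ q ∈ U, ‖z p - z q‖ ≤ M := fun p hp q hq => by
    have h1 : ‖z p - z q‖ ≤ ∑ q ∈ U, ‖z p - z q‖ :=
      single_le_sum (f := fun q => ‖z p - z q‖) (fun _ _ => norm_nonneg _) hq
    have h2 : ∑ q ∈ U, ‖z p - z q‖ ≤ ∑ p ∈ U, ∑ q ∈ U, ‖z p - z q‖ :=
      single_le_sum (f := fun p => ∑ q ∈ U, ‖z p - z q‖)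
        (fun _ _ => sum_nonneg fun _ _ => norm_nonneg _) hp
    linarith
  have hM0 : 0 < M := by positivity
  have hc : 0 < min c₀ (min (1 / 2 : ℝ) (ε / 16) / M) := lt_min hc₀ (by positivity)
  obtain ⟨w, hw0, hw1, hw⟩ := H _ hc.le (min_le_left _ _)
  refine RUA.exists_of_cuts w hw0 hw1 (fun f p => if h : p ∈ U then f ⟨p, h⟩ else false) U
    (fun p q => ‖z p - z q‖) hc hε
    (fun p hp q hq h => norm_pos_iff.2 (sub_ne_zero.2 (hz p hp q hq h)))
    (fun p hp q hq _ => ?_) fun p hp q hq _ => ?_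
  · calc _ ≤ min (1 / 2 : ℝ) (ε / 16) / M * M :=
          mul_le_mul (min_le_right _ _) (hM1 p hp q hq) (norm_nonneg _) (by positivity)
      _ = _ := div_mul_cancel₀ _ hM0.ne'
  · rw [← hw ⟨p, hp⟩ ⟨q, hq⟩, ← hw1, ← sum_sub_distrib]
    refine sum_congr rfl fun f _ => ?_
    simp only [dif_pos hp, dif_pos hq, RUA.ind]
    by_cases h : f ⟨p, hp⟩ = f ⟨q, hq⟩ <;> simp [h]

end Crest.Agent.R33
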